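import Claimed.Agent.R213.Geo.GFlowHom

/-!
# Row 213, GEOMETRY layer, LEVEL A, file A4: normal neighbourhoods, `log`, derivative of the local
cost (Gauss lemma in the form `d_y (|log_x y|^2/2) = g_y(velocity at y, ·)`).
-/

set_option autoImplicit false
set_option linter.unusedSectionVars false
open scoped ContDiff Topology
open Set

namespace Claimed.Agent.R213.Geo

noncomputable section

variable {E : Type*} [NormedAddCommGroup E] [NormedSpace ℝ E] [FiniteDimensional ℝ E]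

namespace GMetric

variable (G : GMetric E)

/-- small tangent vectors over a ball. -/
def smallSet (x₀ : E) (ρ r : ℝ) : Set (E × E) :=
  {p | p.1 ∈ Metric.ball x₀ ρ ∧ G.nrm p.1 p.2 < r}

/-- pairs `(x,y)`, `x` in the ball, `y` in the normal ball of radius `r` around `x`. -/
def pairSet (x₀ : E) (ρ r : ℝ) : Set (E × E) :=
  (fun p : E × E => (p.1, G.e p.1 p.2)) '' G.smallSet x₀ ρ r

/-- `(ρ, r, lg)` is a uniformly normal neighbourhood of `x₀`. -/
structure IsNormal (x₀ : E) (ρ r : ℝ) (lg : E → E → E) : Prop where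
  ρ_pos : 0 < ρ
  r_pos : 0 < r
  lg_e : ∀ p ∈ G.smallSet x₀ ρ r, lg p.1 (G.e p.1 p.2) = p.2
  isOpen : IsOpen (G.pairSet x₀ ρ r)
  smooth : ContDiffOn ℝ ∞ (fun q : E × E => lg q.1 q.2) (G.pairSet x₀ ρ r)

theorem isOpen_smallSet (x₀ : E) (ρ r : ℝ) : IsOpen (G.smallSet x₀ ρ r) :=
  (Metric.isOpen_ball.preimage continuous_fst).inter (isOpen_lt G.continuous_nrm continuous_const)

/-- the map `(x,v) ↦ (x, e x v)`. -/
def pairMap (p : E × E) : E × E := (p.1, G.e p.1 p.2)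

theorem contDiff_pairMap : ContDiff ℝ ∞ G.pairMap := contDiff_fst.prodMk G.contDiff_e

/-- the shear `(ξ,η) ↦ (ξ, ξ+η)`. -/
def shearEquiv (E : Type*) [NormedAddCommGroup E] [NormedSpace ℝ E] : (E × E) ≃L[ℝ] (E × E) :=
  ContinuousLinearEquiv.equivOfInverse
    ((ContinuousLinearMap.fst ℝ E E).prod
      (ContinuousLinearMap.fst ℝ E E + ContinuousLinearMap.snd ℝ E E))
    ((ContinuousLinearMap.fst ℝ E E).prod
      (ContinuousLinearMap.snd ℝ E E - ContinuousLinearMap.fst ℝ E E))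
    (fun p => by ext <;> simp)
    (fun p => by ext <;> simp)

/-- the derivative of `(x,v) ↦ e x v` at `(x₀,0)` is `(ξ,η) ↦ ξ+η`. -/
theorem hasFDerivAt_e_pair_zero (x₀ : E) :
    HasFDerivAt (fun p : E × E => G.e p.1 p.2)
      (ContinuousLinearMap.fst ℝ E E + ContinuousLinearMap.snd ℝ E E) (x₀, (0 : E)) := by
  have hd : HasFDerivAt (fun p : E × E => G.e p.1 p.2)
      (fderiv ℝ (fun p : E × E => G.e p.1 p.2) (x₀, (0 : E))) (x₀, (0 : E)) :=
    ((G.contDiff_e.differentiable (by simp)) _).hasFDerivAt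
  set L := fderiv ℝ (fun p : E × E => G.e p.1 p.2) (x₀, (0 : E)) with hL
  -- first variable
  have h1 : HasFDerivAt (fun x : E => G.e x 0) (L.comp (ContinuousLinearMap.inl ℝ E E)) x₀ := by
    have hi : HasFDerivAt (fun x : E => (x, (0 : E))) (ContinuousLinearMap.inl ℝ E E) x₀ :=
      (hasFDerivAt_id x₀).prodMk (hasFDerivAt_const (0 : E) x₀)
    exact HasFDerivAt.comp x₀ (g := fun p : E × E => G.e p.1 p.2) hd hi
  have h1' : HasFDerivAt (fun x : E => G.e x 0) (ContinuousLinearMap.id ℝ E) x₀ := by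
    have : (fun x : E => G.e x 0) = id := funext fun x => G.e_zero x
    rw [this]; exact hasFDerivAt_id x₀
  have e1 := h1.unique h1'
  -- second variable
  have h2 : HasFDerivAt (fun v : E => G.e x₀ v) (L.comp (ContinuousLinearMap.inr ℝ E E)) 0 := by
    have hi : HasFDerivAt (fun v : E => (x₀, v)) (ContinuousLinearMap.inr ℝ E E) 0 :=
      (hasFDerivAt_const x₀ (0 : E)).prodMk (hasFDerivAt_id (0 : E))
    exact HasFDerivAt.comp (0 : E) (g := fun p : E × E => G.e p.1 p.2) hd hi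
  have e2 := h2.unique (G.hasFDerivAt_e_zero x₀)
  have : L = ContinuousLinearMap.fst ℝ E E + ContinuousLinearMap.snd ℝ E E := by
    ext p
    · have := DFunLike.congr_fun e1 p
      simpa using this
    · have := DFunLike.congr_fun e2 p
      simpa using this
  rw [← this]; exact hd

theorem hasFDerivAt_pairMap_zero (x₀ : E) :
    HasFDerivAt G.pairMap (shearEquiv E : (E × E) →L[ℝ] (E × E)) (x₀, (0 : E)) :=
  hasFDerivAt_fst.prodMk (G.hasFDerivAt_e_pair_zero x₀)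

/-- **A4.1** existence (inverse function theorem for `(x,v) ↦ (x, e x v)` at `(x₀,0)`). -/
theorem exists_normal (x₀ : E) : ∃ ρ r lg, G.IsNormal x₀ ρ r lg := by
  have hc : ContDiffAt ℝ ∞ G.pairMap (x₀, (0 : E)) := G.contDiff_pairMap.contDiffAt
  have hn : (∞ : WithTop ℕ∞) ≠ 0 := by simp
  set Φ := hc.toOpenPartialHomeomorph G.pairMap (G.hasFDerivAt_pairMap_zero x₀) hn with hΦ
  have hΦc : ∀ p, Φ p = G.pairMap p := fun _ => rfl
  -- the set of points with invertible derivative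
  have hcont : Continuous (fderiv ℝ G.pairMap) := G.contDiff_pairMap.continuous_fderiv (by simp)
  set S : Set (E × E) := Φ.source ∩
    (fderiv ℝ G.pairMap) ⁻¹' (range ((↑) : ((E × E) ≃L[ℝ] (E × E)) → (E × E) →L[ℝ] (E × E)))
    with hS
  have hSo : IsOpen S := Φ.open_source.inter (ContinuousLinearEquiv.isOpen.preimage hcont)
  have h0S : (x₀, (0 : E)) ∈ S :=
    ⟨hc.mem_toOpenPartialHomeomorph_source (G.hasFDerivAt_pairMap_zero x₀) hn,
      ⟨shearEquiv E, (G.hasFDerivAt_pairMap_zero x₀).fderiv.symm⟩⟩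
  obtain ⟨δ, hδ, hball⟩ := Metric.isOpen_iff.1 hSo _ h0S
  have hlo : 0 < Real.sqrt G.lo := Real.sqrt_pos.2 G.lo_pos
  have hsub : G.smallSet x₀ δ (Real.sqrt G.lo * δ) ⊆ S := by
    intro p hp
    apply hball
    have h2 : ‖p.2‖ < δ := by
      have := lt_of_le_of_lt (G.sqrt_lo_mul_norm_le p.1 p.2) hp.2
      exact lt_of_mul_lt_mul_left this hlo.le
    rw [Metric.mem_ball, Prod.dist_eq, max_lt_iff]
    exact ⟨hp.1, by simpa using h2⟩
  refine ⟨δ, Real.sqrt G.lo * δ, fun x y => (Φ.symm (x, y)).2, hδ, mul_pos hlo hδ, ?_, ?_, ?_⟩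
  · intro p hp
    have : Φ.symm (Φ p) = p := Φ.left_inv (hsub hp).1
    change (Φ.symm (G.pairMap p)).2 = p.2
    rw [← hΦc, this]
  · exact Φ.isOpen_image_of_subset_source (G.isOpen_smallSet _ _ _) fun p hp => (hsub hp).1
  · rintro q ⟨p, hp, rfl⟩
    have hpS := hsub hp
    have hq : Φ p ∈ Φ.target := Φ.map_source hpS.1
    have hinv : Φ.symm (Φ p) = p := Φ.left_inv hpS.1
    obtain ⟨f', hf'⟩ := hpS.2
    have hd : HasFDerivAt Φ (f' : (E × E) →L[ℝ] (E × E)) (Φ.symm (Φ p)) := by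
      rw [hinv, hf']
      exact ((G.contDiff_pairMap.differentiable (by simp)) p).hasFDerivAt
    have hsm : ContDiffAt ℝ ∞ Φ.symm (Φ p) :=
      Φ.contDiffAt_symm hq hd (by rw [hinv]; exact G.contDiff_pairMap.contDiffAt)
    exact (contDiffAt_snd.comp _ hsm).contDiffWithinAt

variable {G} {x₀ : E} {ρ r : ℝ} {lg : E → E → E}

/-- **A4.2** shrinking. -/
theorem IsNormal.mono (h : G.IsNormal x₀ ρ r lg) {ρ' r' : ℝ} (hρ : 0 < ρ') (hρ' : ρ' ≤ ρ)
    (hr : 0 < r') (hr' : r' ≤ r) : G.IsNormal x₀ ρ' r' lg := by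
  have hss : G.smallSet x₀ ρ' r' ⊆ G.smallSet x₀ ρ r := fun p hp =>
    ⟨Metric.ball_subset_ball hρ' hp.1, lt_of_lt_of_le hp.2 hr'⟩
  have hps : G.pairSet x₀ ρ' r' ⊆ G.pairSet x₀ ρ r := Set.image_mono hss
  have hchar : G.pairSet x₀ ρ' r' = G.pairSet x₀ ρ r ∩
      (fun q : E × E => (q.1, lg q.1 q.2)) ⁻¹' (G.smallSet x₀ ρ' r') := by
    ext q
    constructor
    · rintro ⟨p, hp, rfl⟩
      refine ⟨⟨p, hss hp, rfl⟩, ?_⟩
      change (p.1, lg p.1 (G.e p.1 p.2)) ∈ G.smallSet x₀ ρ' r'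
      rw [h.lg_e p (hss hp)]
      exact hp
    · rintro ⟨⟨p, hp, rfl⟩, hq⟩
      change (p.1, lg p.1 (G.e p.1 p.2)) ∈ G.smallSet x₀ ρ' r' at hq
      rw [h.lg_e p hp] at hq
      exact ⟨p, hq, rfl⟩
  refine ⟨hρ, hr, fun p hp => h.lg_e p (hss hp), ?_, h.smooth.mono hps⟩
  rw [hchar]
  exact (continuousOn_fst.prodMk h.smooth.continuousOn).isOpen_inter_preimage h.isOpen
    (G.isOpen_smallSet _ _ _)

theorem IsNormal.e_lg (h : G.IsNormal x₀ ρ r lg) {q : E × E} (hq : q ∈ G.pairSet x₀ ρ r) :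
    G.e q.1 (lg q.1 q.2) = q.2 ∧ G.nrm q.1 (lg q.1 q.2) < r ∧ q.1 ∈ Metric.ball x₀ ρ := by
  obtain ⟨p, hp, rfl⟩ := hq
  simp only [h.lg_e p hp]
  exact ⟨trivial, hp.2, hp.1⟩

end GMetric

end

end Claimed.Agent.R213.Geo
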