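import Claimed.Agent.R213.Geo.TCoord
import Claimed.Agent.R213.Geo.Normal

/-!
# Row 213, GEOMETRY layer, LEVEL B, file B0: the metric read in a chart, its extension to a `GMetric`,
topological facts on `TM` (fields `t2 cpt cont_norm lin cont_inner` of `Soft`).
-/

set_option autoImplicit false
set_option linter.unusedSectionVars false
open Claims Claims.C0370 Claims.C0370.WeakMTWGlobalSupport
open scoped Manifold ContDiff Topology
open Set Filter Manifold Bundle

namespace Claimed.Agent.R213.Geo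

noncomputable section

variable {n : ℕ} {M : Type*} [MetricSpace M] [ChartedSpace (WeakMTW.Model n) M]
  [IsManifold (WeakMTW.model n) ∞ M]
  [RiemannianBundle (fun x : M => TangentSpace (WeakMTW.model n) x)]
  [IsContMDiffRiemannianBundle (WeakMTW.model n) ∞ (WeakMTW.Model n)
    (fun x : M => TangentSpace (WeakMTW.model n) x)]

/-- the Riemannian metric read in the chart centred at `c`. -/
def gChart (c : M) (u : WeakMTW.Model n) :
    WeakMTW.Model n →L[ℝ] WeakMTW.Model n →L[ℝ] ℝ :=
  (innerSL ℝ (E := TangentSpace (WeakMTW.model n) ((extChartAt (WeakMTW.model n) c).symm u))).bilinearComp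
    (mfderiv 𝓘(ℝ, WeakMTW.Model n) (WeakMTW.model n) (extChartAt (WeakMTW.model n) c).symm u)
    (mfderiv 𝓘(ℝ, WeakMTW.Model n) (WeakMTW.model n) (extChartAt (WeakMTW.model n) c).symm u)

theorem gChart_apply (c : M) (u a b : WeakMTW.Model n) :
    gChart c u a b = inner ℝ
      (mfderiv 𝓘(ℝ, WeakMTW.Model n) (WeakMTW.model n) (extChartAt (WeakMTW.model n) c).symm u a)
      (mfderiv 𝓘(ℝ, WeakMTW.Model n) (WeakMTW.model n) (extChartAt (WeakMTW.model n) c).symm u b) :=
  rfl

/-- **B0.1** -/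
theorem inner_eq_gChart {c x : M} (hx : x ∈ (chartAt (WeakMTW.Model n) c).source)
    (v w : TangentSpace (WeakMTW.model n) x) :
    inner ℝ v w = gChart c (extChartAt (WeakMTW.model n) c x)
      (tcoord c (⟨x, v⟩ : TM n M)).2 (tcoord c (⟨x, w⟩ : TM n M)).2 := by
  have key : ∀ (y : M) (a b : TangentSpace (WeakMTW.model n) y),
      (⟨y, a⟩ : TM n M) = ⟨x, v⟩ → (⟨y, b⟩ : TM n M) = ⟨x, w⟩ → inner ℝ v w = inner ℝ a b := by
    intro y a b h1 h2
    obtain rfl : y = x := congrArg (fun p : TM n M => p.1) h1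
    have e1 : a = v := by
      have := (Bundle.TotalSpace.mk_inj (F := WeakMTW.Model n)).1 h1
      exact this
    have e2 : b = w := by
      have := (Bundle.TotalSpace.mk_inj (F := WeakMTW.Model n)).1 h2
      exact this
    rw [e1, e2]
  rw [gChart_apply]
  exact key _ _ _ (tinv_tcoord (c := c) (p := (⟨x, v⟩ : TM n M)) hx)
    (tinv_tcoord (c := c) (p := (⟨x, w⟩ : TM n M)) hx)

/-- **B0.2** smoothness of the chart metric. -/
theorem contDiffOn_gChart (c : M) :
    ContDiffOn ℝ ∞ (gChart c) (extChartAt (WeakMTW.model n) c).target := by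
  rw [contDiffOn_clm_apply]
  intro a
  rw [contDiffOn_clm_apply]
  intro b
  have hsec : ∀ a : WeakMTW.Model n, ContMDiffOn 𝓘(ℝ, WeakMTW.Model n) (WeakMTW.model n).tangent ∞
      (fun u : WeakMTW.Model n => tinv (M := M) c (u, a)) (extChartAt (WeakMTW.model n) c).target := by
    intro a
    have h1 : ContMDiffOn 𝓘(ℝ, WeakMTW.Model n) 𝓘(ℝ, WeakMTW.Model n × WeakMTW.Model n) ∞
        (fun u : WeakMTW.Model n => (u, a)) (extChartAt (WeakMTW.model n) c).target := by
      rw [contMDiffOn_iff_contDiffOn]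
      exact (contDiff_id.prodMk contDiff_const).contDiffOn
    exact (contMDiffOn_tinv (M := M) c).comp h1 (fun u hu => hu)
  have h := ContMDiffOn.inner_bundle (IB := WeakMTW.model n) (F := WeakMTW.Model n)
    (E := fun x : M => TangentSpace (WeakMTW.model n) x)
    (b := fun u => (extChartAt (WeakMTW.model n) c).symm u)
    (v := fun u => mfderiv 𝓘(ℝ, WeakMTW.Model n) (WeakMTW.model n)
      (extChartAt (WeakMTW.model n) c).symm u a)
    (w := fun u => mfderiv 𝓘(ℝ, WeakMTW.Model n) (WeakMTW.model n)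
      (extChartAt (WeakMTW.model n) c).symm u b) (hsec a) (hsec b)
  rw [contMDiffOn_iff_contDiffOn] at h
  exact h

theorem gChart_symm (c : M) (u a b : WeakMTW.Model n) : gChart c u a b = gChart c u b a := by
  rw [gChart_apply, gChart_apply, real_inner_comm]

theorem gChart_pos {c : M} {u a : WeakMTW.Model n}
    (hu : u ∈ (extChartAt (WeakMTW.model n) c).target) (ha : a ≠ 0) : 0 < gChart c u a a := by
  rw [gChart_apply, real_inner_self_eq_norm_sq]
  have hne : mfderiv 𝓘(ℝ, WeakMTW.Model n) (WeakMTW.model n)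
      (extChartAt (WeakMTW.model n) c).symm u a ≠ 0 := by
    intro h0
    have h1 := tcoord_tinv (M := M) (c := c) (q := (u, a)) hu
    have h2 : mfderiv (WeakMTW.model n) 𝓘(ℝ, WeakMTW.Model n) (extChartAt (WeakMTW.model n) c)
        ((extChartAt (WeakMTW.model n) c).symm u)
        (mfderiv 𝓘(ℝ, WeakMTW.Model n) (WeakMTW.model n)
          (extChartAt (WeakMTW.model n) c).symm u a) = a := congrArg Prod.snd h1
    rw [h0, map_zero] at h2
    exact ha h2.symm
  positivity

section AbstractExtension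

variable {E : Type*} [NormedAddCommGroup E] [InnerProductSpace ℝ E] [FiniteDimensional ℝ E]

/-- two-sided bounds of a continuous positive field of bilinear forms over a compact set. -/
theorem cm_bounds_of_compact {γ : E → E →L[ℝ] E →L[ℝ] ℝ} {K : Set E} (hK : IsCompact K)
    (hγ : ContinuousOn γ K) (hpos : ∀ u ∈ K, ∀ a, a ≠ 0 → 0 < γ u a a) :
    ∃ m Mx : ℝ, 0 < m ∧ ∀ u ∈ K, ∀ v : E,
      m * ‖v‖ ^ 2 ≤ γ u v v ∧ γ u v v ≤ Mx * ‖v‖ ^ 2 := by
  set S : Set (E × E) := K ×ˢ Metric.sphere 0 1 with hS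
  have hSc : IsCompact S := hK.prod (isCompact_sphere 0 1)
  have hcont : ContinuousOn (fun p : E × E => γ p.1 p.2 p.2) S := by
    have h1 : ContinuousOn (fun p : E × E => γ p.1) S :=
      hγ.comp continuousOn_fst (fun p hp => hp.1)
    exact (h1.clm_apply continuousOn_snd).clm_apply continuousOn_snd
  have hscale : ∀ (u v : E), v ≠ 0 →
      γ u v v = ‖v‖ ^ 2 * γ u (‖v‖⁻¹ • v) (‖v‖⁻¹ • v) := by
    intro u v hv
    have hv' : ‖v‖ ≠ 0 := norm_ne_zero_iff.2 hv
    simp only [map_smul, _root_.smul_apply, smul_eq_mul]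
    field_simp
  have hmemS : ∀ (u v : E), u ∈ K → v ≠ 0 → (u, ‖v‖⁻¹ • v) ∈ S := by
    intro u v hu hv
    refine ⟨hu, ?_⟩
    have hv' : ‖v‖ ≠ 0 := norm_ne_zero_iff.2 hv
    simp [norm_smul, hv']
  rcases S.eq_empty_or_nonempty with hE | hne
  · refine ⟨1, 1, one_pos, fun u hu v => ?_⟩
    have hv : v = 0 := by
      by_contra hv
      have := hmemS u v hu hv
      rw [hE] at this
      exact this
    subst hv
    simp
  · obtain ⟨p, hp, hpmin⟩ := hSc.exists_isMinOn hne hcont
    obtain ⟨q, hq, hqmax⟩ := hSc.exists_isMaxOn hne hcont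
    refine ⟨γ p.1 p.2 p.2, γ q.1 q.2 q.2, hpos _ hp.1 _ ?_, fun u hu v => ?_⟩
    · intro h0
      have := hp.2
      simp [h0] at this
    · by_cases hv : v = 0
      · subst hv
        simp
      · have h1 := hpmin (hmemS u v hu hv)
        have h2 := hqmax (hmemS u v hu hv)
        simp only [Set.mem_ofPred_eq] at h1 h2
        rw [hscale u v hv]
        constructor
        · rw [mul_comm]
          exact mul_le_mul_of_nonneg_left h1 (sq_nonneg _)
        · rw [mul_comm (γ q.1 q.2 q.2)]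
          exact mul_le_mul_of_nonneg_left h2 (sq_nonneg _)

/-- a smooth positive symmetric field of bilinear forms on a neighbourhood of `x0` agrees near `x0`
with a `GMetric`. -/
theorem cm_exists_gmetric_of_local {γ : E → E →L[ℝ] E →L[ℝ] ℝ} {U : Set E} (hU : IsOpen U)
    (hγ : ContDiffOn ℝ ∞ γ U) (hsymm : ∀ u a b, γ u a b = γ u b a)
    (hpos : ∀ u ∈ U, ∀ a, a ≠ 0 → 0 < γ u a a) {x0 : E} (hx0 : x0 ∈ U) :
    ∃ (G : GMetric E) (R : ℝ), 0 < R ∧ Metric.closedBall x0 R ⊆ U ∧
      ∀ u ∈ Metric.ball x0 R, G.g u = γ u := by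
  obtain ⟨ρ, hρ, hball⟩ := Metric.isOpen_iff.1 hU x0 hx0
  set R := ρ / 3 with hR
  have hRpos : 0 < R := by positivity
  have hK : Metric.closedBall x0 (2 * R) ⊆ U :=
    (Metric.closedBall_subset_ball (by rw [hR]; linarith)).trans hball
  let χ : ContDiffBump x0 := ⟨R, 2 * R, hRpos, by linarith⟩
  obtain ⟨m, Mx, hm, hb⟩ := cm_bounds_of_compact (isCompact_closedBall x0 (2 * R))
    (hγ.continuousOn.mono hK) (fun u hu => hpos u (hK hu))
  let ip0 : E →L[ℝ] E →L[ℝ] ℝ := innerSL ℝ
  have hip0 : ∀ v w, ip0 v w = inner ℝ v w := fun v w => rfl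
  let g : E → E →L[ℝ] E →L[ℝ] ℝ := fun u => χ u • γ u + (1 - χ u) • ip0
  have hχ0 : ∀ u, u ∉ Metric.closedBall x0 (2 * R) → χ u = 0 := by
    intro u hu
    apply χ.zero_of_le_dist
    rw [Metric.mem_closedBall, not_le] at hu
    exact hu.le
  have hgab : ∀ u a b, g u a b = χ u * γ u a b + (1 - χ u) * inner ℝ a b := by
    intro u a b
    simp only [g, _root_.add_apply, _root_.smul_apply, smul_eq_mul, hip0]
  have hsmooth : ContDiff ℝ ∞ g := by
    rw [contDiff_clm_apply_iff]
    intro a
    rw [contDiff_clm_apply_iff]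
    intro b
    simp only [hgab]
    rw [contDiff_iff_contDiffAt]
    intro u
    have h2 : ContDiffAt ℝ ∞ χ u := χ.contDiff.contDiffAt
    by_cases hu : u ∈ U
    · have h1 : ContDiffAt ℝ ∞ (fun u => γ u a b) u :=
        ((hγ.contDiffAt (hU.mem_nhds hu)).clm_apply contDiffAt_const).clm_apply contDiffAt_const
      exact (h2.mul h1).add ((contDiffAt_const.sub h2).mul contDiffAt_const)
    · have hu' : u ∉ Metric.closedBall x0 (2 * R) := fun h => hu (hK h)
      have hev : (fun u => χ u * γ u a b + (1 - χ u) * inner ℝ a b) =ᶠ[𝓝 u]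
          fun _ => inner ℝ a b := by
        have : (Metric.closedBall x0 (2 * R))ᶜ ∈ 𝓝 u :=
          Metric.isClosed_closedBall.isOpen_compl.mem_nhds hu'
        filter_upwards [this] with w hw
        simp [hχ0 w hw]
      exact contDiffAt_const.congr_of_eventuallyEq hev
  have hgvv : ∀ u v, g u v v = χ u * γ u v v + (1 - χ u) * ‖v‖ ^ 2 := by
    intro u v
    rw [hgab, real_inner_self_eq_norm_sq]
  refine ⟨⟨g, hsmooth, ?_, min m 1, lt_min hm one_pos, ?_, max Mx 1, ?_⟩, R, hRpos, ?_, ?_⟩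
  · intro u v w
    rw [hgab, hgab, hsymm u v w, real_inner_comm]
  · intro u v
    rw [hgvv]
    have hn := sq_nonneg ‖v‖
    have h1 : min m 1 * ‖v‖ ^ 2 ≤ ‖v‖ ^ 2 := by
      have := mul_le_mul_of_nonneg_right (min_le_right m 1) hn
      linarith
    by_cases hu : u ∈ Metric.closedBall x0 (2 * R)
    · have h2 : min m 1 * ‖v‖ ^ 2 ≤ γ u v v :=
        (mul_le_mul_of_nonneg_right (min_le_left m 1) hn).trans (hb u hu v).1
      have h3 := mul_le_mul_of_nonneg_left h2 (χ.nonneg (x := u))
      have h4 := mul_le_mul_of_nonneg_left h1 (sub_nonneg.2 (χ.le_one (x := u)))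
      linarith
    · rw [hχ0 u hu]
      linarith
  · intro u v
    rw [hgvv]
    have hn := sq_nonneg ‖v‖
    have h1 : ‖v‖ ^ 2 ≤ max Mx 1 * ‖v‖ ^ 2 := by
      have := mul_le_mul_of_nonneg_right (le_max_right Mx 1) hn
      linarith
    by_cases hu : u ∈ Metric.closedBall x0 (2 * R)
    · have h2 : γ u v v ≤ max Mx 1 * ‖v‖ ^ 2 :=
        (hb u hu v).2.trans (mul_le_mul_of_nonneg_right (le_max_left Mx 1) hn)
      have h3 := mul_le_mul_of_nonneg_left h2 (χ.nonneg (x := u))
      have h4 := mul_le_mul_of_nonneg_left h1 (sub_nonneg.2 (χ.le_one (x := u)))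
      linarith
    · rw [hχ0 u hu]
      linarith
  · exact (Metric.closedBall_subset_closedBall (by linarith)).trans hK
  · intro u hu
    have h1 : χ u = 1 := χ.one_of_mem_closedBall (Metric.ball_subset_closedBall hu)
    ext a b
    change g u a b = γ u a b
    rw [hgab, h1]
    ring

end AbstractExtension

/-- **B0.3** extension to a global metric on the model space. -/
theorem exists_gmetric (c : M) : ∃ (G : GMetric (WeakMTW.Model n)) (R : ℝ), 0 < R ∧
    Metric.closedBall (extChartAt (WeakMTW.model n) c c) R ⊆ (extChartAt (WeakMTW.model n) c).target ∧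
    ∀ u ∈ Metric.ball (extChartAt (WeakMTW.model n) c c) R, G.g u = gChart c u :=
  cm_exists_gmetric_of_local (isOpen_extChartAt_target c) (contDiffOn_gChart c) (gChart_symm c)
    (fun _ hu _ ha => gChart_pos hu ha) (mem_extChartAt_target c)

end

end Claimed.Agent.R213.Geo
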