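import Claimed.Agent.R213.Geo.LocalFlow

/-!
# Row 213, GEOMETRY layer, GLOBAL part, file C1: metric geodesics are orbits of a local flow;
independence of the chart.

Uses ONLY the fields of `IsLocalFlow`.

`lift_eq`: fix `s₁ ∈ (a,b)`, `x₁ = γ s₁`.  For `s ∈ (s₁,b)`, `surj` + `homog` give `a_s ∈ T_{x₁}M`, `‖a_s‖ = lam`,
`(F (s-s₁) ⟨x₁,a_s⟩).1 = γ s`.  For `s < s'`, `surj` at `γ s` + `nocorner` + `add` give
`(F (s'-s₁) ⟨x₁,a_s⟩).1 = γ s'`, hence `a_s = a_{s'}` by `homog` + `inj`.  So `γ s = (F (s-s₁) P).1` on `(s₁,b)`,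
`lift γ s = F (s-s₁) P` by `vel`, and the claim follows from `add`, `norm_eq`.  (`lam = 0` needs no
special treatment.)

`indep`: apply `lift_eq` for `F` to the curve `γ s = (F' s p).1`, `s ∈ (-T,T)`, `|t| < T`, `2 T ‖p.2‖ < min ..`.
-/

set_option autoImplicit false
set_option linter.unusedSectionVars false
open Claims Claims.C0370 Claims.C0370.WeakMTWGlobalSupport
open scoped Manifold ContDiff Topology
open Set Filter Manifold Bundle

namespace Claimed.Agent.R213.Geo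

noncomputable section

variable {n : ℕ} {M : Type*} [MetricSpace M] [ChartedSpace (WeakMTW.Model n) M]
  [IsManifold (WeakMTW.model n) ∞ M]
  [RiemannianBundle (fun x : M => TangentSpace (WeakMTW.model n) x)]
  [IsContMDiffRiemannianBundle (WeakMTW.model n) ∞ (WeakMTW.Model n)
    (fun x : M => TangentSpace (WeakMTW.model n) x)]
  [IsRiemannianManifold (WeakMTW.model n) M]

variable {N0 N1 N2 : Set M} {r : ℝ} {F : ℝ → TM n M → TM n M}
  {N0' N1' N2' : Set M} {r' : ℝ} {F' : ℝ → TM n M → TM n M}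

/-- time shift of a lift. -/
theorem lift_comp_sub (γ : ℝ → M) (s₁ t : ℝ)
    (h : MDifferentiableAt 𝓘(ℝ, ℝ) (WeakMTW.model n) γ (t - s₁)) :
    lift (n := n) (fun s => γ (s - s₁)) t = lift γ (t - s₁) := by
  refine tm_ext rfl ?_
  have h2 : MDifferentiableAt 𝓘(ℝ, ℝ) 𝓘(ℝ, ℝ) (fun s : ℝ => s - s₁) t :=
    (differentiableAt_id.sub_const s₁).mdifferentiableAt
  have h3 := mfderiv_comp t (g := γ) (f := fun s : ℝ => s - s₁) h h2
  have h4 : mfderiv 𝓘(ℝ, ℝ) 𝓘(ℝ, ℝ) (fun s : ℝ => s - s₁) t = ContinuousLinearMap.id ℝ ℝ := by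
    rw [mfderiv_eq_fderiv]
    simp [fderiv_sub_const]
    rfl
  have h5 := congrArg (fun L => L (1 : ℝ)) h3
  rw [h4] at h5
  exact h5

/-- lifts of curves which agree near `t`. -/
theorem lift_congr {γ γ' : ℝ → M} {t : ℝ} (h : γ =ᶠ[𝓝 t] γ') :
    lift (n := n) γ t = lift γ' t := by
  refine tm_ext h.eq_of_nhds ?_
  have h2 := h.mfderiv_eq (I := 𝓘(ℝ, ℝ)) (I' := WeakMTW.model n)
  exact congrArg (fun L => L (1 : ℝ)) h2

/-- existence of a ray of speed `lam` from `x` to `y`. -/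
theorem IsLocalFlow.ray (hF : IsLocalFlow N0 N1 N2 r F) {x y : M} {c lam : ℝ} (hx : x ∈ N1)
    (hc : 0 < c) (hd : dist x y = lam * c) (hr : lam * c < r) :
    ∃ A : TangentSpace (WeakMTW.model n) x, ‖A‖ = lam ∧ (F c ⟨x, A⟩).1 = y := by
  obtain ⟨v, hv, hFv⟩ := hF.surj x y hx (by rw [hd]; exact hr)
  refine ⟨c⁻¹ • v, ?_, ?_⟩
  · rw [norm_smul, hv, hd, Real.norm_eq_abs, abs_of_pos (inv_pos.2 hc)]
    field_simp
  · have h := hF.homog ⟨x, c⁻¹ • v⟩ c 1 (hF.sub12 hx)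
    have h2 : scal c (⟨x, c⁻¹ • v⟩ : TM n M) = ⟨x, v⟩ := by
      simp [scal, smul_smul, hc.ne']
    rw [h2, mul_one] at h
    rw [← hFv, h]
    rfl

/-- uniqueness of rays. -/
theorem IsLocalFlow.ray_unique (hF : IsLocalFlow N0 N1 N2 r F) {x : M}
    {A B : TangentSpace (WeakMTW.model n) x} {c : ℝ} (hx : x ∈ N1) (hc : 0 < c)
    (hA : c * ‖A‖ < r) (hB : c * ‖B‖ < r) (h : (F c ⟨x, A⟩).1 = (F c ⟨x, B⟩).1) : A = B := by
  have key : ∀ D : TangentSpace (WeakMTW.model n) x, (F 1 ⟨x, c • D⟩).1 = (F c ⟨x, D⟩).1 := by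
    intro D
    have h := hF.homog ⟨x, D⟩ c 1 (hF.sub12 hx)
    rw [mul_one] at h
    have h' : (F 1 (scal c ⟨x, D⟩)).1 = (F c ⟨x, D⟩).1 := by rw [h]; rfl
    exact h'
  have h3 := hF.inj x (c • A) (c • B) hx
    (by rw [norm_smul, Real.norm_eq_abs, abs_of_pos hc]; exact hA)
    (by rw [norm_smul, Real.norm_eq_abs, abs_of_pos hc]; exact hB) (by rw [key, key, h])
  exact smul_right_injective _ hc.ne' h3

/-- prolongation of a ray through a point by the no-corner property. -/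
theorem IsLocalFlow.extend (hF : IsLocalFlow N0 N1 N2 r F) {p : TM n M} {ε δ : ℝ} {y : M}
    (hp : p.1 ∈ N0) (hε : 0 < ε) (hδ : 0 < δ) (hr : (ε + δ) * ‖p.2‖ < r)
    (h1 : dist (F ε p).1 y = ‖p.2‖ * δ) (h2 : dist p.1 y = (ε + δ) * ‖p.2‖) :
    (F (ε + δ) p).1 = y := by
  have hn : 0 ≤ ‖p.2‖ := norm_nonneg _
  have hεr : |ε| * ‖p.2‖ < r := by rw [abs_of_pos hε]; nlinarith
  have hx : (F ε p).1 ∈ N1 := hF.stay0 p ε hp hεr
  obtain ⟨b, hb, hFb⟩ := hF.ray hx hδ h1 (by nlinarith)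
  have hc := hF.nocorner p ε δ b hp hε hδ hr hb (by rw [hFb]; exact h2)
  rw [hc, hF.add p δ ε (hF.sub01 hp) hεr, add_comm] at hFb
  exact hFb

/-- a metric geodesic is, to the right of `s₁`, the projection of one orbit. -/
theorem IsLocalFlow.exists_orbit (hF : IsLocalFlow N0 N1 N2 r F) {γ : ℝ → M} {lam a b : ℝ}
    (hlam : 0 ≤ lam) (hab : (b - a) * lam < r) (hN : ∀ s ∈ Ioo a b, γ s ∈ N0)
    (hd : ∀ s ∈ Ioo a b, ∀ s' ∈ Ioo a b, dist (γ s) (γ s') = lam * |s - s'|)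
    {s₁ : ℝ} (hs₁ : s₁ ∈ Ioo a b) :
    ∃ A : TangentSpace (WeakMTW.model n) (γ s₁), ‖A‖ = lam ∧
      ∀ s ∈ Ioo s₁ b, (F (s - s₁) ⟨γ s₁, A⟩).1 = γ s := by
  have hx₁ : γ s₁ ∈ N0 := hN s₁ hs₁
  -- bound
  have hbd : ∀ s ∈ Ioo s₁ b, lam * (s - s₁) < r := by
    intro s hs
    have : lam * (s - s₁) ≤ (b - a) * lam := by
      have h1 : s - s₁ ≤ b - a := by linarith [hs.2, hs₁.1]
      nlinarith
    linarith
  have hmem : ∀ s ∈ Ioo s₁ b, s ∈ Ioo a b := fun s hs => ⟨hs₁.1.trans hs.1, hs.2⟩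
  -- rays
  have hray : ∀ s ∈ Ioo s₁ b, ∃ A : TangentSpace (WeakMTW.model n) (γ s₁), ‖A‖ = lam ∧
      (F (s - s₁) ⟨γ s₁, A⟩).1 = γ s := by
    intro s hs
    refine hF.ray (hF.sub01 hx₁) (sub_pos.2 hs.1) ?_ (hbd s hs)
    rw [hd s₁ hs₁ s (hmem s hs), abs_sub_comm, abs_of_pos (sub_pos.2 hs.1)]
  -- prolongation
  have hext : ∀ s ∈ Ioo s₁ b, ∀ s' ∈ Ioo s₁ b, s < s' →
      ∀ A : TangentSpace (WeakMTW.model n) (γ s₁), ‖A‖ = lam →
      (F (s - s₁) ⟨γ s₁, A⟩).1 = γ s → (F (s' - s₁) ⟨γ s₁, A⟩).1 = γ s' := by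
    intro s hs s' hs' hss A hA hAs
    have h := hF.extend (p := ⟨γ s₁, A⟩) (ε := s - s₁) (δ := s' - s) (y := γ s') hx₁
      (sub_pos.2 hs.1) (sub_pos.2 hss)
      (by
        have := hbd s' hs'
        simp only [hA]
        nlinarith)
      (by
        rw [hAs, hd s (hmem s hs) s' (hmem s' hs'), abs_sub_comm, abs_of_pos (sub_pos.2 hss)]
        simp only [hA])
      (by
        simp only [hA]
        rw [hd s₁ hs₁ s' (hmem s' hs'), abs_sub_comm, abs_of_pos (sub_pos.2 hs'.1)]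
        ring)
    have he : s - s₁ + (s' - s) = s' - s₁ := by ring
    rwa [he] at h
  have hstar : (s₁ + b) / 2 ∈ Ioo s₁ b := ⟨by linarith [hs₁.2], by linarith [hs₁.2]⟩
  obtain ⟨A, hA, hAs⟩ := hray _ hstar
  refine ⟨A, hA, fun s hs => ?_⟩
  rcases lt_trichotomy s ((s₁ + b) / 2) with h | h | h
  · obtain ⟨A', hA', hAs'⟩ := hray s hs
    have h1 := hext s hs _ hstar h A' hA' hAs'
    have h2 : A' = A := by
      refine hF.ray_unique (hF.sub01 hx₁) (sub_pos.2 hstar.1) ?_ ?_ (h1.trans hAs.symm)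
      · rw [hA', mul_comm]; exact hbd _ hstar
      · rw [hA, mul_comm]; exact hbd _ hstar
    rw [← h2]; exact hAs'
  · rw [h]; exact hAs
  · exact hext _ hstar s hs h A hA hAs

/-- **C1.1** a metric geodesic inside `N0` is an orbit of the local flow. -/
theorem IsLocalFlow.lift_eq (hF : IsLocalFlow N0 N1 N2 r F) {γ : ℝ → M} {lam a b : ℝ}
    (hlam : 0 ≤ lam) (hab : (b - a) * lam < r) (hN : ∀ s ∈ Ioo a b, γ s ∈ N0)
    (hd : ∀ s ∈ Ioo a b, ∀ s' ∈ Ioo a b, dist (γ s) (γ s') = lam * |s - s'|) :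
    ∀ t₀ ∈ Ioo a b, ∀ t ∈ Ioo a b,
      lift γ t = F (t - t₀) (lift γ t₀) ∧ ‖(lift (n := n) γ t₀).2‖ = lam := by
  intro t₀ ht₀ t ht
  -- base point to the left of both
  have hs₁ : (a + min t₀ t) / 2 ∈ Ioo a b := by
    have h1 : a < min t₀ t := lt_min ht₀.1 ht.1
    have h2 : min t₀ t < b := (min_le_left _ _).trans_lt ht₀.2
    exact ⟨by linarith, by linarith⟩
  set s₁ := (a + min t₀ t) / 2 with hs₁def
  have hlt₀ : s₁ < t₀ := by
    have h1 : a < min t₀ t := lt_min ht₀.1 ht.1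
    have h2 : min t₀ t ≤ t₀ := min_le_left _ _
    rw [hs₁def]; linarith
  have hlt : s₁ < t := by
    have h1 : a < min t₀ t := lt_min ht₀.1 ht.1
    have h2 : min t₀ t ≤ t := min_le_right _ _
    rw [hs₁def]; linarith
  obtain ⟨A, hA, horb⟩ := hF.exists_orbit hlam hab hN hd hs₁
  set P : TM n M := ⟨γ s₁, A⟩ with hP
  have hP1 : P.1 ∈ N1 := hF.sub01 (hN s₁ hs₁)
  have hbd : ∀ s ∈ Ioo s₁ b, |s - s₁| * ‖P.2‖ < r := by
    intro s hs
    rw [abs_of_pos (sub_pos.2 hs.1)]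
    have h0 : ‖P.2‖ = lam := hA
    rw [h0]
    have h1 : s - s₁ ≤ b - a := by linarith [hs.2, hs₁.1]
    nlinarith
  have hlift : ∀ s ∈ Ioo s₁ b, lift γ s = F (s - s₁) P := by
    intro s hs
    have hev : γ =ᶠ[𝓝 s] fun u => (F (u - s₁) P).1 := by
      filter_upwards [isOpen_Ioo.mem_nhds hs] with u hu
      exact (horb u hu).symm
    have hv := hF.vel P (s - s₁) hP1 (hbd s hs)
    rw [lift_congr hev, lift_comp_sub (fun u => (F u P).1) s₁ s
      (hv.1.mdifferentiableAt (by simp)), hv.2]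
  have h0 := hlift t₀ ⟨hlt₀, ht₀.2⟩
  have h1 := hlift t ⟨hlt, ht.2⟩
  refine ⟨?_, ?_⟩
  · rw [h1, h0, hF.add P (t - t₀) (t₀ - s₁) hP1 (hbd t₀ ⟨hlt₀, ht₀.2⟩)]
    congr 1
    ring
  · rw [h0, hF.norm_eq P (t₀ - s₁) hP1 (hbd t₀ ⟨hlt₀, ht₀.2⟩)]
    exact hA

/-- **C1.2** two local flows agree. -/
theorem IsLocalFlow.indep (h : IsLocalFlow N0 N1 N2 r F) (h' : IsLocalFlow N0' N1' N2' r' F')
    {p : TM n M} {ε₀ t : ℝ} (hε : 0 < ε₀) (hb : Metric.ball p.1 ε₀ ⊆ N0 ∩ N0')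
    (ht : 2 * (|t| * ‖p.2‖) < min (min r r') ε₀) : F t p = F' t p := by
  set lam := ‖p.2‖ with hlam
  have hlam0 : 0 ≤ lam := norm_nonneg _
  set m := min (min r r') ε₀ with hm
  have hmr : m ≤ r := (min_le_left _ _).trans (min_le_left _ _)
  have hmr' : m ≤ r' := (min_le_left _ _).trans (min_le_right _ _)
  have hmε : m ≤ ε₀ := min_le_right _ _
  -- choice of `T`
  obtain ⟨T, hT, hTm⟩ : ∃ T : ℝ, |t| < T ∧ 2 * (T * lam) < m := by
    have hc : ContinuousAt (fun T : ℝ => 2 * (T * lam)) |t| := by fun_prop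
    have hev : ∀ᶠ T in 𝓝 |t|, 2 * (T * lam) < m := hc.eventually (gt_mem_nhds ht)
    have hev2 : ∀ᶠ T in 𝓝[>] |t|, 2 * (T * lam) < m := hev.filter_mono nhdsWithin_le_nhds
    obtain ⟨T, hT1, hT2⟩ := (hev2.and self_mem_nhdsWithin).exists
    exact ⟨T, hT2, hT1⟩
  have hT0 : 0 < T := (abs_nonneg t).trans_lt hT
  have hp0 : p.1 ∈ N0 ∩ N0' := hb (Metric.mem_ball_self hε)
  have hp1' : p.1 ∈ N1' := h'.sub01 hp0.2
  have hsm : ∀ s ∈ Ioo (-T) T, |s| * lam ≤ T * lam := fun s hs =>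
    mul_le_mul_of_nonneg_right (abs_lt.2 hs).le hlam0
  have hTl : 0 ≤ T * lam := by positivity
  have hsr' : ∀ s ∈ Ioo (-T) T, |s| * ‖p.2‖ < r' := fun s hs => by
    have := hsm s hs
    linarith
  have hball : ∀ s ∈ Ioo (-T) T, (F' s p).1 ∈ Metric.ball p.1 ε₀ := by
    intro s hs
    rw [Metric.mem_ball, dist_comm, h'.dist_eq p s hp1' (hsr' s hs)]
    have := hsm s hs
    linarith
  have key := h.lift_eq (γ := fun s => (F' s p).1) (lam := lam) (a := -T) (b := T) hlam0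
    (by nlinarith) (fun s hs => (hb (hball s hs)).1)
    (by
      intro s hs s' hs'
      have hq1 : (F' s p).1 ∈ N1' := h'.sub01 (hb (hball s hs)).2
      have hqn : ‖(F' s p).2‖ = lam := h'.norm_eq p s hp1' (hsr' s hs)
      have hss : |s' - s| < 2 * T := by
        rw [abs_lt]
        constructor <;> linarith [hs.1, hs.2, hs'.1, hs'.2]
      have hq : |s' - s| * ‖(F' s p).2‖ < r' := by
        rw [hqn]
        have : |s' - s| * lam ≤ 2 * T * lam := mul_le_mul_of_nonneg_right hss.le hlam0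
        linarith
      have h1 := h'.dist_eq (F' s p) (s' - s) hq1 hq
      rw [h'.add p (s' - s) s hp1' (hsr' s hs), hqn] at h1
      have he : s' - s + s = s' := by ring
      rw [he] at h1
      rw [h1, abs_sub_comm, mul_comm])
    0 ⟨by linarith, hT0⟩ t (abs_lt.1 hT)
  have hv0 := (h'.vel p 0 hp1' (by simpa using h'.r_pos)).2
  have hvt := (h'.vel p t hp1' (hsr' t (abs_lt.1 hT))).2
  have k1 := key.1
  rw [hvt, hv0, h'.zero p (h'.sub12 hp1'), sub_zero] at k1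
  exact k1.symm

end

end Claimed.Agent.R213.Geo
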