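import Claimed.Agent.R213.Geo.HopfRinow
import Claimed.Agent.R213.Mid.Defs

/-!
# Row 213, GEOMETRY layer, FINAL file: `Mid.Geom n M` (the GEOMETRY / MIDDLE boundary of helper788).

`Mid.pt Mid.fr Mid.cofr Mid.tmk Mid.gC` are `rfl`-equal to `(extChartAt ..).symm`, the two `mfderiv`s in
`tinv`/`tcoord`, `tinv`, `gChart`.  With `P = tinv z0 p`:
* `eC z0 y0 p = φ_{y0} (gflow 1 P).1` (`exp_eq`);
* `geom_vC`: `vC z0 y0 p = (tcoord y0 (gflow 1 P)).2`, since `t ↦ eC z0 y0 (p.1, (1+t) • p.2) = φ_{y0} (gflow (1+t) P).1`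
  (`exp_smul`) has derivative `(tcoord y0 (lift .. 1)).2` (`tcoord_mfderiv_curve`, `lift_gflow`);
* `geom_first_var`: `gflow_fv 1 P ξ` with `ξ = mfderiv (tinv z0) p δ`; `theta`, `dEn` in coordinates as in `LFVar.lean`
  (`inner_eq_gChart`; `φ ∘ π ∘ tinv z0 = fst`).
* `geom_nocorner`: `p = scal (-1) (gflow 1 ⟨y,-w₁⟩)`, `gflow 1 p = ⟨y,w₁⟩` (`gflow_flip`), `q = ⟨y,w₂⟩`, `nocorner_global` with `a = β = 1`.
-/

set_option autoImplicit false
set_option linter.unusedSectionVars false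
open Claims Claims.C0370 Claims.C0370.WeakMTWGlobalSupport
open scoped Manifold ContDiff Topology
open Set Filter Manifold Bundle

namespace Claimed.Agent.R213.Geo

noncomputable section

variable {n : ℕ} {M : Type*} [MetricSpace M] [ChartedSpace (WeakMTW.Model n) M]
  [IsManifold (WeakMTW.model n) ∞ M]
  [RiemannianBundle (fun x : M => TangentSpace (WeakMTW.model n) x)]
  [IsContMDiffRiemannianBundle (WeakMTW.model n) ∞ (WeakMTW.Model n)
    (fun x : M => TangentSpace (WeakMTW.model n) x)]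
  [IsRiemannianManifold (WeakMTW.model n) M] [CompactSpace M]

theorem geom_geod (x : M) (v : TangentSpace (WeakMTW.model n) x) :
    WeakMTW.CompleteGeodesicWithInitialData x v (fun t : ℝ => WeakMTW.exp x (t • v)) := by
  have h := gflow_geodesic x v
  have : (fun t : ℝ => WeakMTW.exp x (t • v)) = fun t => (gflow t (⟨x, v⟩ : TM n M)).1 :=
    funext fun t => exp_smul x v t
  rw [this]
  exact h

theorem geom_shift (x : M) (v : TangentSpace (WeakMTW.model n) x) :
    ∃ w : TangentSpace (WeakMTW.model n) (WeakMTW.exp x v),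
      ∀ s : ℝ, WeakMTW.exp (WeakMTW.exp x v) (s • w) = WeakMTW.exp x ((1 + s) • v) := by
  have key : ∀ (P : TM n M) (z : M), z = P.1 →
      ∃ w : TangentSpace (WeakMTW.model n) z, (⟨z, w⟩ : TM n M) = P := by
    rintro P z rfl
    exact ⟨P.2, rfl⟩
  obtain ⟨w, hw⟩ := key (gflow 1 (⟨x, v⟩ : TM n M)) (WeakMTW.exp x v) (exp_eq x v)
  refine ⟨w, fun s => ?_⟩
  rw [exp_smul, exp_smul, hw, gflow_add, add_comm]

theorem geom_nocorner (y : M) (w₁ w₂ : TangentSpace (WeakMTW.model n) y) (hn : ‖w₁‖ = ‖w₂‖)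
    (hd : dist (WeakMTW.exp y (-w₁)) (WeakMTW.exp y w₂) = 2 * ‖w₁‖) : w₁ = w₂ := by
  have hflip : gflow 1 (scal (-1) (gflow 1 (⟨y, -w₁⟩ : TM n M))) = (⟨y, w₁⟩ : TM n M) := by
    rw [gflow_flip]
    simp [scal]
  have hnorm : ‖(scal (-1) (gflow 1 (⟨y, -w₁⟩ : TM n M))).2‖ = ‖w₁‖ := by
    have h := norm_gflow 1 (⟨y, -w₁⟩ : TM n M)
    have h2 : ‖(scal (-1) (gflow 1 (⟨y, -w₁⟩ : TM n M))).2‖
        = ‖(gflow 1 (⟨y, -w₁⟩ : TM n M)).2‖ := by
      simp only [scal, neg_smul, one_smul]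
      exact norm_neg _
    rw [h2, h]
    exact norm_neg w₁
  have h := nocorner_global (scal (-1) (gflow 1 (⟨y, -w₁⟩ : TM n M))) (⟨y, w₂⟩ : TM n M) 1 1
    one_pos one_pos (by rw [hflip]) (by rw [hnorm]; exact hn.symm)
    (by
      rw [hnorm, ← exp_eq]
      have : (scal (-1) (gflow 1 (⟨y, -w₁⟩ : TM n M))).1 = WeakMTW.exp y (-w₁) :=
        (exp_eq y (-w₁)).symm
      rw [this, hd]
      ring)
  rw [hflip] at h
  exact (Bundle.TotalSpace.mk_inj.1 h).symm

theorem eC_eq (z0 y0 : M) (p : WeakMTW.Model n × WeakMTW.Model n) :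
    Mid.eC z0 y0 p = extChartAt (WeakMTW.model n) y0 (gflow 1 (tinv z0 p)).1 := by
  unfold Mid.eC
  rw [exp_eq]
  rfl

theorem geom_smooth (z0 y0 : M) (p : WeakMTW.Model n × WeakMTW.Model n) (hp : p ∈ Mid.dom z0 y0) :
    ContDiffAt ℝ ∞ (Mid.eC z0 y0) p := by
  have he : Mid.eC (n := n) z0 y0 = fun q => (tcoord y0 (gflow 1 (tinv z0 q))).1 :=
    funext fun q => eC_eq z0 y0 q
  have h1 : ContMDiffAt 𝓘(ℝ, WeakMTW.Model n × WeakMTW.Model n) (WeakMTW.model n).tangent ∞
      (tinv (M := M) z0) p :=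
    (contMDiffOn_tinv z0).contMDiffAt ((isOpen_ttarget z0).mem_nhds hp.1)
  have h2 : ContMDiffAt (WeakMTW.model n).tangent (WeakMTW.model n).tangent ∞
      (gflow (n := n) (M := M) 1) (tinv z0 p) := contMDiff_gflow 1 _
  have hs : (gflow 1 (tinv z0 p)).1 ∈ (chartAt (WeakMTW.Model n) y0).source := by
    have h := hp.2
    rw [exp_eq, extChartAt_source] at h
    exact h
  have h3 : ContMDiffAt (WeakMTW.model n).tangent 𝓘(ℝ, WeakMTW.Model n × WeakMTW.Model n) ∞
      (tcoord y0) (gflow 1 (tinv z0 p)) :=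
    (contMDiffOn_tcoord y0).contMDiffAt ((isOpen_tsource y0).mem_nhds hs)
  have h4 := (h3.comp _ h2).comp p h1
  have h5 : ContDiffAt ℝ ∞ (fun q => tcoord y0 (gflow 1 (tinv z0 q))) p :=
    contMDiffAt_iff_contDiffAt.1 h4
  rw [he]
  exact h5.fst

theorem geom_vC (z0 y0 : M) (p : WeakMTW.Model n × WeakMTW.Model n) (hp : p ∈ Mid.dom z0 y0) :
    Mid.vC z0 y0 p = (tcoord y0 (gflow 1 (tinv z0 p))).2 := by
  set P : TM n M := tinv z0 p with hP
  have hsm : DifferentiableAt ℝ (Mid.eC z0 y0) p :=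
    (geom_smooth z0 y0 p hp).differentiableAt (by simp)
  have hc : HasDerivAt
      (fun t : ℝ => ((p.1, (1 + t) • p.2) : WeakMTW.Model n × WeakMTW.Model n)) (0, p.2) 0 := by
    have h1 : HasDerivAt (fun t : ℝ => (1 + t) • p.2) p.2 0 := by
      have := ((hasDerivAt_id (0 : ℝ)).const_add 1).smul_const p.2
      simpa using this
    exact (hasDerivAt_const 0 p.1).prodMk h1
  have hp0 : ((p.1, (1 + (0 : ℝ)) • p.2) : WeakMTW.Model n × WeakMTW.Model n) = p := by simp
  have h1 : HasDerivAt (fun t : ℝ => Mid.eC z0 y0 (p.1, (1 + t) • p.2))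
      (fderiv ℝ (Mid.eC z0 y0) p (0, p.2)) 0 := by
    have h0 : HasFDerivAt (Mid.eC z0 y0) (fderiv ℝ (Mid.eC z0 y0) p)
        ((p.1, (1 + (0 : ℝ)) • p.2) : WeakMTW.Model n × WeakMTW.Model n) := by
      rw [hp0]; exact hsm.hasFDerivAt
    exact h0.comp_hasDerivAt 0 hc
  have hγ : ContMDiff 𝓘(ℝ, ℝ) (WeakMTW.model n) ∞ (fun s => (gflow s P).1) :=
    contMDiff_gflow_proj P
  have hsrc : (gflow 1 P).1 ∈ (chartAt (WeakMTW.Model n) y0).source := by
    have h := hp.2
    rw [extChartAt_source, exp_eq] at h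
    exact h
  have h2 := tcoord_mfderiv_curve (c := y0) (γ := fun s => (gflow s P).1) (t := 1)
    (hγ.mdifferentiableAt (by simp)) hsrc
  have h3 : (⟨(gflow 1 P).1, mfderiv 𝓘(ℝ, ℝ) (WeakMTW.model n) (fun s => (gflow s P).1) 1
      (1 : ℝ)⟩ : TM n M) = gflow 1 P := lift_gflow P 1
  rw [h3] at h2
  have h4 : HasDerivAt (fun t : ℝ => extChartAt (WeakMTW.model n) y0 (gflow (1 + t) P).1)
      (tcoord y0 (gflow 1 P)).2 0 := by
    have h2' : HasDerivAt (fun s : ℝ => extChartAt (WeakMTW.model n) y0 (gflow s P).1)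
        (tcoord y0 (gflow 1 P)).2 ((1 : ℝ) + 0) := by
      rw [add_zero]; exact h2
    exact HasDerivAt.comp_const_add (1 : ℝ) (0 : ℝ) h2'
  have h5 : (fun t : ℝ => Mid.eC z0 y0 (p.1, (1 + t) • p.2))
      = fun t : ℝ => extChartAt (WeakMTW.model n) y0 (gflow (1 + t) P).1 := by
    funext t
    have e1 : Mid.fr z0 p.1 ((1 + t) • p.2) = (1 + t) • Mid.fr z0 p.1 p.2 := map_smul _ _ _
    show extChartAt (WeakMTW.model n) y0
      (WeakMTW.exp (n := n) (Mid.pt z0 p.1) (Mid.fr z0 p.1 ((1 + t) • p.2))) = _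
    rw [e1, exp_smul]
    rfl
  rw [h5] at h1
  exact h1.unique h4

theorem geom_first_var (z0 y0 : M) (p : WeakMTW.Model n × WeakMTW.Model n)
    (hp : p ∈ Mid.dom z0 y0) (δ : WeakMTW.Model n × WeakMTW.Model n) :
    fderiv ℝ (fun q : WeakMTW.Model n × WeakMTW.Model n => Mid.gC z0 q.1 q.2 q.2 / 2) p δ =
      Mid.gC y0 (Mid.eC z0 y0 p) (Mid.vC z0 y0 p) (fderiv ℝ (Mid.eC z0 y0) p δ)
        - Mid.gC z0 p.1 p.2 δ.1 := by
  set P : TM n M := tinv z0 p with hP
  have htin : MDifferentiableAt 𝓘(ℝ, WeakMTW.Model n × WeakMTW.Model n) (WeakMTW.model n).tangent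
      (tinv (M := M) z0) p :=
    ((contMDiffOn_tinv z0).contMDiffAt ((isOpen_ttarget z0).mem_nhds hp.1)).mdifferentiableAt
      (by simp)
  set ξ : TangentSpace (WeakMTW.model n).tangent P :=
    mfderiv 𝓘(ℝ, WeakMTW.Model n × WeakMTW.Model n) (WeakMTW.model n).tangent
      (tinv (M := M) z0) p δ with hξ
  have hfv := gflow_fv 1 P ξ
  have hsrc : (gflow 1 P).1 ∈ (chartAt (WeakMTW.Model n) y0).source := by
    have h := hp.2
    rw [extChartAt_source, exp_eq] at h
    exact h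
  -- the energy
  have hE : dEn P ξ
      = fderiv ℝ (fun q : WeakMTW.Model n × WeakMTW.Model n => Mid.gC z0 q.1 q.2 q.2 / 2) p δ := by
    have hfun : (fun q : WeakMTW.Model n × WeakMTW.Model n => Mid.gC z0 q.1 q.2 q.2 / 2)
        = En (n := n) (M := M) ∘ tinv z0 := by
      funext q
      simp only [Mid.gC, Function.comp, En]
      rw [real_inner_self_eq_norm_sq]
      rfl
    rw [hfun]
    have h := mfderiv_comp p
      ((contMDiff_En (n := n) (M := M)).mdifferentiableAt (by simp) (x := tinv z0 p)) htin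
    rw [← mfderiv_eq_fderiv, h]
    rfl
  -- `theta` at the source
  have hθ0 : theta P ξ = Mid.gC z0 p.1 p.2 δ.1 := by
    have h1 := (lfv_mdifferentiableAt_proj P).hasMFDerivAt.comp p htin.hasMFDerivAt
    have h0 : MDifferentiableAt 𝓘(ℝ, WeakMTW.Model n) (WeakMTW.model n)
        (extChartAt (WeakMTW.model n) z0).symm p.1 := by
      have := mdifferentiableWithinAt_extChartAt_symm (I := WeakMTW.model n) hp.1
      rwa [ModelWithCorners.range_eq_univ, mdifferentiableWithinAt_univ] at this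
    have hfst : HasMFDerivAt 𝓘(ℝ, WeakMTW.Model n × WeakMTW.Model n) 𝓘(ℝ, WeakMTW.Model n)
        (Prod.fst : WeakMTW.Model n × WeakMTW.Model n → WeakMTW.Model n) p
        (ContinuousLinearMap.fst ℝ (WeakMTW.Model n) (WeakMTW.Model n)) :=
      (hasFDerivAt_fst).hasMFDerivAt
    have h2 := h0.hasMFDerivAt.comp p hfst
    have h3 := hasMFDerivAt_unique h1 h2
    have h4 : mfderiv (WeakMTW.model n).tangent (WeakMTW.model n) (fun q : TM n M => q.1) P ξ
        = Mid.fr z0 p.1 δ.1 := congrArg (fun L => L δ) h3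
    rw [theta, h4]
    rfl
  -- `theta` at the target
  have hθ1 : theta (gflow 1 P)
      (mfderiv (WeakMTW.model n).tangent (WeakMTW.model n).tangent (gflow 1) P ξ)
      = Mid.gC y0 (Mid.eC z0 y0 p) (Mid.vC z0 y0 p) (fderiv ℝ (Mid.eC z0 y0) p δ) := by
    have h1 := ((mdifferentiableAt_extChartAt (I := WeakMTW.model n) hsrc).hasMFDerivAt.comp
      (gflow 1 P) (lfv_mdifferentiableAt_proj (gflow 1 P)).hasMFDerivAt).comp P
      ((contMDiff_gflow (n := n) (M := M) 1).mdifferentiableAt (by simp) (x := P)).hasMFDerivAt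
    have h2 := h1.comp p htin.hasMFDerivAt
    have hfun : Mid.eC z0 y0 = ((extChartAt (WeakMTW.model n) y0 ∘ fun q : TM n M => q.1) ∘
        gflow 1) ∘ tinv (M := M) z0 := by
      funext q
      exact eC_eq z0 y0 q
    have h3 : fderiv ℝ (Mid.eC z0 y0) p δ
        = mfderiv (WeakMTW.model n) 𝓘(ℝ, WeakMTW.Model n) (extChartAt (WeakMTW.model n) y0)
          (gflow 1 P).1
          (mfderiv (WeakMTW.model n).tangent (WeakMTW.model n) (fun q : TM n M => q.1) (gflow 1 P)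
            (mfderiv (WeakMTW.model n).tangent (WeakMTW.model n).tangent (gflow 1) P ξ)) := by
      rw [← mfderiv_eq_fderiv, hfun, h2.mfderiv]
      rfl
    rw [theta, inner_eq_gChart hsrc, geom_vC z0 y0 p hp, eC_eq z0 y0 p, h3]
    rfl
  rw [hθ1, hθ0, one_mul, hE] at hfv
  exact hfv.symm

/-- **The deliverable of the GEOMETRY layer.** -/
theorem geom : Mid.Geom n M where
  geod := geom_geod
  shift := geom_shift
  hopf_rinow := hopf_rinow
  nocorner := geom_nocorner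
  cont_exp := cont_exp
  smooth := geom_smooth
  first_var := geom_first_var

end

end Claimed.Agent.R213.Geo
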