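import Claimed.Agent.R213.Geo.Metric
import Claimed.Agent.R213.ODE.SmoothFlow

/-!
# Row 213, GEOMETRY layer, LEVEL A, file A2: the geodesic flow of a `GMetric`

The spray is not compactly supported; cut it off (`ODE.exists_smooth_flow` needs compact support)
and use conservation of the energy (`fderiv_energy_spray`, `lower`, `upper`) as an a-priori bound:
a spray curve starting at `(x,v)` satisfies `‖v(t)‖ ≤ sqrt(hi/lo)‖v‖`, `‖x(t)-x‖ ≤ |t| sqrt(hi/lo)‖v‖`.
-/

set_option autoImplicit false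
set_option linter.unusedSectionVars false
open scoped ContDiff Topology
open Set

namespace Claimed.Agent.R213.Geo

noncomputable section

variable {E : Type*} [NormedAddCommGroup E] [NormedSpace ℝ E] [FiniteDimensional ℝ E]

namespace GMetric

variable (G : GMetric E)

/-- comparison constant for the a-priori bound. -/
def gfK : ℝ := 1 + |G.hi| / G.lo

theorem gfK_one_le : 1 ≤ G.gfK := by
  unfold gfK
  have := G.lo_pos
  have : 0 ≤ |G.hi| / G.lo := by positivity
  linarith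

theorem gfK_sq : G.hi / G.lo ≤ G.gfK ^ 2 := by
  have h1 := G.gfK_one_le
  have h2 : G.hi / G.lo ≤ G.gfK := by
    unfold gfK
    have : G.hi / G.lo ≤ |G.hi| / G.lo := div_le_div_of_nonneg_right (le_abs_self _) G.lo_pos.le
    linarith
  nlinarith

/-- the cut-off function, equal to one on the ball of radius `R`. -/
def gfBump (R : ℝ) : ContDiffBump (0 : E × E) :=
  ⟨|R| + 1, |R| + 2, by positivity, by linarith⟩

/-- the cut-off spray. -/
def gfField (R : ℝ) (p : E × E) : E × E := (gfBump (E := E) R) p • G.spray p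

theorem gf_contDiff_field (R : ℝ) : ContDiff ℝ ∞ (G.gfField R) :=
  (gfBump (E := E) R).contDiff.smul G.contDiff_spray

theorem gf_supp_field (R : ℝ) : HasCompactSupport (G.gfField R) :=
  (gfBump (E := E) R).hasCompactSupport.smul_right

theorem gf_field_eq {R : ℝ} {p : E × E} (h : ‖p‖ ≤ R) : G.gfField R p = G.spray p := by
  unfold gfField
  rw [(gfBump R).one_of_mem_closedBall, one_smul]
  rw [mem_closedBall_zero_iff]
  change ‖p‖ ≤ |R| + 1
  have := le_abs_self R
  linarith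

/-- the flow of the cut-off spray. -/
def gfFl (R : ℝ) : ℝ → E × E → E × E :=
  Classical.choose (ODE.exists_smooth_flow (G.gfField R) (G.gf_contDiff_field R)
    (G.gf_supp_field R))

theorem gfFl_isFlow (R : ℝ) : ODE.IsFlow (G.gfField R) (G.gfFl R) :=
  (Classical.choose_spec (ODE.exists_smooth_flow (G.gfField R) (G.gf_contDiff_field R)
    (G.gf_supp_field R))).1

theorem gfFl_contDiff (R : ℝ) : ContDiff ℝ ∞ (fun q : ℝ × (E × E) => G.gfFl R q.1 q.2) :=
  (Classical.choose_spec (ODE.exists_smooth_flow (G.gfField R) (G.gf_contDiff_field R)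
    (G.gf_supp_field R))).2.1

/-- uniqueness for the cut-off field. -/
theorem gfFl_unique (R : ℝ) {α : ℝ → E × E} {a b t₀ : ℝ} (h0 : t₀ ∈ Ioo a b)
    (hα : ∀ t ∈ Ioo a b, HasDerivAt α (G.gfField R (α t)) t) :
    ∀ t ∈ Ioo a b, α t = G.gfFl R (t - t₀) (α t₀) := by
  obtain ⟨K, hK⟩ := ODE.exists_lipschitz (G.gfField R) (G.gf_contDiff_field R) (G.gf_supp_field R)
  exact (G.gfFl_isFlow R).eq_of_Ioo' hK h0 hα

/-- a curve whose velocity is a multiple of the spray conserves the energy. -/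
theorem gf_energy_const {c : ℝ → E × E} {l : ℝ → ℝ}
    (hc : ∀ t, HasDerivAt c (l t • G.spray (c t)) t) (t s : ℝ) :
    G.energy (c t) = G.energy (c s) := by
  have hd : ∀ s, HasDerivAt (fun s => G.energy (c s)) 0 s := by
    intro s
    have h2 : HasFDerivAt G.energy (fderiv ℝ G.energy (c s)) (c s) :=
      ((G.contDiff_energy.differentiable (by simp)) (c s)).hasFDerivAt
    have h3 := h2.comp_hasDerivAt s (hc s)
    rw [map_smul, G.fderiv_energy_spray, smul_zero] at h3
    exact h3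
  exact is_const_of_deriv_eq_zero (f := fun s => G.energy (c s))
    (fun s => (hd s).differentiableAt) (fun s => (hd s).deriv) t s

theorem gf_norm_le_of_energy {p q : E × E} (h : G.energy q = G.energy p) :
    ‖q.2‖ ≤ G.gfK * ‖p.2‖ := by
  have h1 := G.lower q.1 q.2
  have h2 := G.upper p.1 p.2
  have h3 : G.g q.1 q.2 q.2 = G.g p.1 p.2 p.2 := by
    unfold energy at h; linarith
  have hlo := G.lo_pos
  have h4 : ‖q.2‖ ^ 2 ≤ G.hi / G.lo * ‖p.2‖ ^ 2 := by
    rw [div_mul_eq_mul_div, le_div_iff₀ hlo]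
    linarith
  have h5 : ‖q.2‖ ^ 2 ≤ (G.gfK * ‖p.2‖) ^ 2 := by
    rw [mul_pow]
    exact h4.trans (mul_le_mul_of_nonneg_right G.gfK_sq (by positivity))
  have hK := G.gfK_one_le
  exact le_of_sq_le_sq h5 (by positivity)

theorem gfFl_snd_le (R t : ℝ) (p : E × E) : ‖(G.gfFl R t p).2‖ ≤ G.gfK * ‖p.2‖ := by
  apply G.gf_norm_le_of_energy
  have := G.gf_energy_const (c := fun s => G.gfFl R s p) (l := fun s => (gfBump (E := E) R) (G.gfFl R s p))
    (fun s => (G.gfFl_isFlow R).2 p s) t 0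
  rwa [(G.gfFl_isFlow R).1] at this

theorem gfFl_fst_le (R t : ℝ) (p : E × E) :
    ‖(G.gfFl R t p).1 - p.1‖ ≤ G.gfK * ‖p.2‖ * |t| := by
  have hd : ∀ s ∈ (univ : Set ℝ), HasDerivWithinAt (fun s => (G.gfFl R s p).1)
      ((G.gfField R (G.gfFl R s p)).1) univ s := by
    intro s _
    have h1 := (ContinuousLinearMap.fst ℝ E E).hasFDerivAt.comp_hasDerivAt s
      ((G.gfFl_isFlow R).2 p s)
    exact h1.hasDerivWithinAt
  have hb : ∀ s ∈ (univ : Set ℝ), ‖(G.gfField R (G.gfFl R s p)).1‖ ≤ G.gfK * ‖p.2‖ := by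
    intro s _
    unfold gfField spray
    simp only [Prod.smul_fst]
    rw [norm_smul, Real.norm_of_nonneg (gfBump R).nonneg]
    calc _ ≤ 1 * ‖(G.gfFl R s p).2‖ :=
          mul_le_mul_of_nonneg_right (gfBump R).le_one (norm_nonneg _)
      _ ≤ _ := by rw [one_mul]; exact G.gfFl_snd_le R s p
  have := Convex.norm_image_sub_le_of_norm_hasDerivWithin_le hd hb convex_univ
    (mem_univ 0) (mem_univ t)
  simpa [(G.gfFl_isFlow R).1] using this

/-- radius of the region reached up to time `T`. -/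
def gfRad (T : ℝ) (p : E × E) : ℝ := ‖p.1‖ + G.gfK * ‖p.2‖ * (T + 1)

theorem gfFl_norm_le (R : ℝ) {t T : ℝ} (ht : |t| ≤ T) (p : E × E) :
    ‖G.gfFl R t p‖ ≤ G.gfRad T p := by
  have hK := G.gfK_one_le
  have h0 : 0 ≤ G.gfK * ‖p.2‖ := by positivity
  have hT : 0 ≤ T := (abs_nonneg t).trans ht
  unfold gfRad
  rw [Prod.norm_def, max_le_iff]
  constructor
  · have h1 := G.gfFl_fst_le R t p
    have h2 : ‖(G.gfFl R t p).1‖ ≤ ‖p.1‖ + ‖(G.gfFl R t p).1 - p.1‖ := by
      have := norm_add_le p.1 ((G.gfFl R t p).1 - p.1)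
      simpa using this
    have h3 : G.gfK * ‖p.2‖ * |t| ≤ G.gfK * ‖p.2‖ * (T + 1) :=
      mul_le_mul_of_nonneg_left (by linarith) h0
    linarith
  · have h1 := G.gfFl_snd_le R t p
    have h3 : G.gfK * ‖p.2‖ * 1 ≤ G.gfK * ‖p.2‖ * (T + 1) :=
      mul_le_mul_of_nonneg_left (by linarith) h0
    have := norm_nonneg p.1
    linarith

/-- the cut-off flow solves the true equation as long as the radius is large enough. -/
theorem gfFl_hasDerivAt {R t T : ℝ} (ht : |t| ≤ T) {p : E × E} (hR : G.gfRad T p ≤ R) :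
    HasDerivAt (fun s => G.gfFl R s p) (G.spray (G.gfFl R t p)) t := by
  have := (G.gfFl_isFlow R).2 p t
  rwa [G.gf_field_eq ((G.gfFl_norm_le R ht p).trans hR)] at this

/-- the cut-off flows agree. -/
theorem gfFl_agree {R R' t T : ℝ} (ht : |t| < T) {p : E × E} (hR : G.gfRad T p ≤ R)
    (hR' : G.gfRad T p ≤ R') : G.gfFl R t p = G.gfFl R' t p := by
  have hT : 0 < T := (abs_nonneg t).trans_lt ht
  have h := G.gfFl_unique R' (α := fun s => G.gfFl R s p) (a := -T) (b := T) (t₀ := 0)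
    ⟨by linarith, hT⟩ (fun s hs => by
      have hs' : |s| ≤ T := (abs_lt.2 hs).le
      have := G.gfFl_hasDerivAt hs' hR
      rwa [← G.gf_field_eq ((G.gfFl_norm_le R hs' p).trans hR')] at this) t (abs_lt.1 ht)
  simpa [(G.gfFl_isFlow R).1] using h

theorem gfRad_le {T T' : ℝ} {p p' : E × E} (hT0 : 0 ≤ T) (hT : T ≤ T') (hp : ‖p‖ ≤ ‖p'‖ + 1) :
    G.gfRad T p ≤ (‖p'‖ + 1) + G.gfK * (‖p'‖ + 1) * (T' + 1) := by
  have hK := G.gfK_one_le
  unfold gfRad
  have h1 : ‖p.1‖ ≤ ‖p'‖ + 1 := (norm_fst_le p).trans hp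
  have h2 : ‖p.2‖ ≤ ‖p'‖ + 1 := (norm_snd_le p).trans hp
  have h3 : G.gfK * ‖p.2‖ * (T + 1) ≤ G.gfK * (‖p'‖ + 1) * (T' + 1) := by
    apply mul_le_mul _ (by linarith) (by linarith) (by positivity)
    exact mul_le_mul_of_nonneg_left h2 (by linarith)
  linarith

/-- **A2.1** existence of the complete, jointly smooth geodesic flow. -/
theorem exists_flow : ∃ Φ : ℝ → E × E → E × E,
    ContDiff ℝ ∞ (fun q : ℝ × (E × E) => Φ q.1 q.2) ∧ (∀ p, Φ 0 p = p) ∧
    ∀ t p, HasDerivAt (fun s => Φ s p) (G.spray (Φ t p)) t := by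
  -- local description
  have key : ∀ (t₀ : ℝ) (p₀ : E × E), ∃ R₀ : ℝ, ∀ (t : ℝ) (p : E × E), |t| < |t₀| + 1 →
      ‖p‖ ≤ ‖p₀‖ + 1 → G.gfRad (|t| + 1) p ≤ R₀ ∧
        G.gfFl (G.gfRad (|t| + 1) p) t p = G.gfFl R₀ t p := by
    intro t₀ p₀
    refine ⟨(‖p₀‖ + 1) + G.gfK * (‖p₀‖ + 1) * ((|t₀| + 2) + 1), fun t p ht hp => ?_⟩
    have h1 : G.gfRad (|t| + 1) p ≤ (‖p₀‖ + 1) + G.gfK * (‖p₀‖ + 1) * ((|t₀| + 2) + 1) :=
      G.gfRad_le (by positivity) (by linarith) hp
    exact ⟨h1, G.gfFl_agree (T := |t| + 1) (by linarith) le_rfl h1⟩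
  refine ⟨fun t p => G.gfFl (G.gfRad (|t| + 1) p) t p, ?_, fun p => (G.gfFl_isFlow _).1 p, ?_⟩
  · rw [contDiff_iff_contDiffAt]
    rintro ⟨t₀, p₀⟩
    obtain ⟨R₀, hR₀⟩ := key t₀ p₀
    refine (G.gfFl_contDiff R₀).contDiffAt.congr_of_eventuallyEq ?_
    have hU : {q : ℝ × (E × E) | |q.1| < |t₀| + 1 ∧ ‖q.2‖ < ‖p₀‖ + 1} ∈ 𝓝 (t₀, p₀) := by
      apply IsOpen.mem_nhds
      · exact (isOpen_lt (continuous_abs.comp continuous_fst) continuous_const).inter
          (isOpen_lt (continuous_norm.comp continuous_snd) continuous_const)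
      · exact ⟨by simp, by simp⟩
    filter_upwards [hU] with q hq
    exact (hR₀ q.1 q.2 hq.1 hq.2.le).2
  · intro t p
    obtain ⟨R₀, hR₀⟩ := key t p
    have h1 := hR₀ t p (by linarith) (by linarith)
    simp only
    rw [h1.2]
    have h2 : HasDerivAt (fun s => G.gfFl R₀ s p) (G.spray (G.gfFl R₀ t p)) t :=
      G.gfFl_hasDerivAt (T := |t| + 1) (by linarith) h1.1
    refine h2.congr_of_eventuallyEq ?_
    have hU : {s : ℝ | |s| < |t| + 1} ∈ 𝓝 t :=
      (isOpen_lt continuous_abs continuous_const).mem_nhds (by simp)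
    filter_upwards [hU] with s hs
    exact (hR₀ s p hs (by linarith)).2

/-- the geodesic flow on `E × E`. -/
def flow : ℝ → E × E → E × E := Classical.choose G.exists_flow

theorem contDiff_flow : ContDiff ℝ ∞ (fun q : ℝ × (E × E) => G.flow q.1 q.2) :=
  (Classical.choose_spec G.exists_flow).1

theorem flow_zero (p : E × E) : G.flow 0 p = p := (Classical.choose_spec G.exists_flow).2.1 p

theorem hasDerivAt_flow (t : ℝ) (p : E × E) :
    HasDerivAt (fun s => G.flow s p) (G.spray (G.flow t p)) t :=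
  (Classical.choose_spec G.exists_flow).2.2 t p

theorem contDiff_flow_time (t : ℝ) : ContDiff ℝ ∞ (G.flow t) :=
  G.contDiff_flow.comp (contDiff_const.prodMk contDiff_id)

/-- two spray curves on an open interval which agree at one time agree. -/
theorem gf_spray_unique {c d : ℝ → E × E} {a b t₀ : ℝ} (ht₀ : t₀ ∈ Ioo a b)
    (hc : ∀ t ∈ Ioo a b, HasDerivAt c (G.spray (c t)) t)
    (hd : ∀ t ∈ Ioo a b, HasDerivAt d (G.spray (d t)) t) (h0 : c t₀ = d t₀) :
    ∀ t ∈ Ioo a b, c t = d t := by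
  intro t ht
  -- a compact subinterval containing `t₀` and `t` in its interior
  set a' : ℝ := (a + min t₀ t) / 2 with ha'
  set b' : ℝ := (max t₀ t + b) / 2 with hb'
  have hm1 : a < min t₀ t := lt_min ht₀.1 ht.1
  have hm2 : max t₀ t < b := max_lt ht₀.2 ht.2
  have h1 : a < a' := by rw [ha']; linarith
  have h2 : a' < min t₀ t := by rw [ha']; linarith
  have h3 : max t₀ t < b' := by rw [hb']; linarith
  have h4 : b' < b := by rw [hb']; linarith
  have hsub : Icc a' b' ⊆ Ioo a b := fun s hs => ⟨h1.trans_le hs.1, hs.2.trans_lt h4⟩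
  have hcc : ContinuousOn c (Icc a' b') := fun s hs => (hc s (hsub hs)).continuousAt.continuousWithinAt
  have hdc : ContinuousOn d (Icc a' b') := fun s hs => (hd s (hsub hs)).continuousAt.continuousWithinAt
  obtain ⟨C, hC⟩ := isCompact_Icc.exists_bound_of_continuousOn hcc
  obtain ⟨D, hD⟩ := isCompact_Icc.exists_bound_of_continuousOn hdc
  have hI : Ioo a' b' ⊆ Icc a' b' := Ioo_subset_Icc_self
  have ht₀' : t₀ ∈ Ioo a' b' := ⟨h2.trans_le (min_le_left _ _), (le_max_left _ _).trans_lt h3⟩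
  have ht' : t ∈ Ioo a' b' := ⟨h2.trans_le (min_le_right _ _), (le_max_right _ _).trans_lt h3⟩
  have e1 := G.gfFl_unique (max C D) ht₀' (α := c) (fun s hs => by
    rw [G.gf_field_eq ((hC s (hI hs)).trans (le_max_left _ _))]
    exact hc s (hsub (hI hs))) t ht'
  have e2 := G.gfFl_unique (max C D) ht₀' (α := d) (fun s hs => by
    rw [G.gf_field_eq ((hD s (hI hs)).trans (le_max_right _ _))]
    exact hd s (hsub (hI hs))) t ht'
  rw [e1, e2, h0]

/-- **A2.2** uniqueness of spray curves on an open interval. -/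
theorem flow_unique {c : ℝ → E × E} {a b t₀ : ℝ} (ht₀ : t₀ ∈ Ioo a b)
    (hc : ∀ t ∈ Ioo a b, HasDerivAt c (G.spray (c t)) t) :
    ∀ t ∈ Ioo a b, c t = G.flow (t - t₀) (c t₀) := by
  refine G.gf_spray_unique ht₀ hc (fun t _ => ?_) (by rw [sub_self, G.flow_zero])
  exact (G.hasDerivAt_flow (t - t₀) (c t₀)).comp_sub_const t t₀

theorem flow_add (s t : ℝ) (p : E × E) : G.flow (s + t) p = G.flow s (G.flow t p) := by
  have h := G.flow_unique (c := fun r => G.flow (r + t) p) (a := -(|s| + 1)) (b := |s| + 1)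
    (t₀ := 0) ⟨by have := abs_nonneg s; linarith, by positivity⟩
    (fun r _ => (G.hasDerivAt_flow (r + t) p).comp_add_const r t) s
    (by rw [mem_Ioo, ← abs_lt]; exact lt_add_one _)
  simpa using h

/-- **A2.3** conservation of the energy. -/
theorem energy_flow (t : ℝ) (p : E × E) : G.energy (G.flow t p) = G.energy p := by
  have := G.gf_energy_const (c := fun s => G.flow s p) (l := fun _ => 1)
    (fun s => by rw [one_smul]; exact G.hasDerivAt_flow s p) t 0
  rwa [G.flow_zero] at this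

theorem nrm_flow (t : ℝ) (p : E × E) :
    G.nrm (G.flow t p).1 (G.flow t p).2 = G.nrm p.1 p.2 := by
  have h := G.energy_flow t p
  unfold energy at h
  unfold nrm
  congr 1
  linarith

end GMetric

end

end Claimed.Agent.R213.Geo
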