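import Claimed.Agent.R213.Geo.GFlow

/-!
# Row 213, GEOMETRY layer, LEVEL A, file A2b: homogeneity, reversibility, confinement of the geodesic
flow; the exponential map `e` and the final velocity `ev`.
-/

set_option autoImplicit false
set_option linter.unusedSectionVars false
open scoped ContDiff Topology
open Set

namespace Claimed.Agent.R213.Geo

noncomputable section

variable {E : Type*} [NormedAddCommGroup E] [NormedSpace ℝ E] [FiniteDimensional ℝ E]

namespace GMetric

variable (G : GMetric E)

/-- the first component of a flow line has the second component as velocity. -/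
theorem hasDerivAt_flow_fst (t : ℝ) (p : E × E) :
    HasDerivAt (fun s => (G.flow s p).1) (G.flow t p).2 t :=
  (G.hasDerivAt_flow t p).fst

/-- the second component of a flow line. -/
theorem hasDerivAt_flow_snd (t : ℝ) (p : E × E) :
    HasDerivAt (fun s => (G.flow s p).2) (- G.chris (G.flow t p).1 (G.flow t p).2) t :=
  (G.hasDerivAt_flow t p).snd

/-- **A2.4** homogeneity. -/
theorem flow_smul (t c : ℝ) (x v : E) :
    G.flow t (x, c • v) = ((G.flow (c * t) (x, v)).1, c • (G.flow (c * t) (x, v)).2) := by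
  have hlin : ∀ s : ℝ, HasDerivAt (fun r : ℝ => c * r) c s := fun s => by
    simpa using (hasDerivAt_id s).const_mul c
  have hc : ∀ s ∈ Ioo (-(|t| + 1)) (|t| + 1),
      HasDerivAt (fun r => ((G.flow (c * r) (x, v)).1, c • (G.flow (c * r) (x, v)).2))
        (G.spray ((G.flow (c * s) (x, v)).1, c • (G.flow (c * s) (x, v)).2)) s := by
    intro s _
    have h1 : HasDerivAt (fun r => (G.flow (c * r) (x, v)).1) (c • (G.flow (c * s) (x, v)).2) s :=
      (G.hasDerivAt_flow_fst (c * s) (x, v)).scomp s (hlin s)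
    have h2 : HasDerivAt (fun r => (G.flow (c * r) (x, v)).2)
        (c • (- G.chris (G.flow (c * s) (x, v)).1 (G.flow (c * s) (x, v)).2)) s :=
      (G.hasDerivAt_flow_snd (c * s) (x, v)).scomp s (hlin s)
    have h3 := h1.prodMk (h2.const_smul c)
    have h4 : G.spray ((G.flow (c * s) (x, v)).1, c • (G.flow (c * s) (x, v)).2)
        = (c • (G.flow (c * s) (x, v)).2,
            c • c • (- G.chris (G.flow (c * s) (x, v)).1 (G.flow (c * s) (x, v)).2)) := by
      unfold spray
      simp only [chris_smul]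
      rw [smul_smul, smul_neg, pow_two]
    rw [h4]
    exact h3
  have h0 : (0 : ℝ) ∈ Ioo (-(|t| + 1)) (|t| + 1) :=
    ⟨by have := abs_nonneg t; linarith, by positivity⟩
  have ht : t ∈ Ioo (-(|t| + 1)) (|t| + 1) := by
    rw [mem_Ioo, ← abs_lt]; exact lt_add_one _
  have := G.flow_unique h0 hc t ht
  simp only [mul_zero, flow_zero, sub_zero] at this
  exact this.symm

/-- **A2.5** reversibility. -/
theorem flow_flip (t : ℝ) (p : E × E) :
    G.flow t ((G.flow t p).1, - (G.flow t p).2) = (p.1, - p.2) := by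
  have h1 := G.flow_smul t (-1) (G.flow t p).1 (G.flow t p).2
  have h2 : G.flow (-1 * t) ((G.flow t p).1, (G.flow t p).2) = p := by
    have : ((G.flow t p).1, (G.flow t p).2) = G.flow t p := rfl
    rw [this, ← G.flow_add]
    simp [flow_zero]
  rw [h2] at h1
  simpa using h1

/-- **A2.6** confinement. -/
theorem norm_flow_sub_le (t : ℝ) (p : E × E) :
    Real.sqrt G.lo * ‖(G.flow t p).1 - p.1‖ ≤ |t| * G.nrm p.1 p.2 := by
  have hs : 0 < Real.sqrt G.lo := Real.sqrt_pos.2 G.lo_pos
  have hb : ∀ s ∈ (univ : Set ℝ), ‖(G.flow s p).2‖ ≤ G.nrm p.1 p.2 / Real.sqrt G.lo := by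
    intro s _
    rw [le_div_iff₀ hs, mul_comm, ← G.nrm_flow s p]
    exact G.sqrt_lo_mul_norm_le _ _
  have h1 := Convex.norm_image_sub_le_of_norm_hasDerivWithin_le
    (f := fun s => (G.flow s p).1) (f' := fun s => (G.flow s p).2) (s := univ) (x := 0) (y := t)
    (fun s _ => (G.hasDerivAt_flow_fst s p).hasDerivWithinAt) hb convex_univ (mem_univ _)
    (mem_univ _)
  simp only [flow_zero, sub_zero, Real.norm_eq_abs] at h1
  calc Real.sqrt G.lo * ‖(G.flow t p).1 - p.1‖
      ≤ Real.sqrt G.lo * (G.nrm p.1 p.2 / Real.sqrt G.lo * |t|) := by gcongr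
    _ = |t| * G.nrm p.1 p.2 := by field_simp

/-- the exponential map of `G`. -/
def e (x v : E) : E := (G.flow 1 (x, v)).1

/-- the velocity at time one. -/
def ev (x v : E) : E := (G.flow 1 (x, v)).2

theorem e_smul (x v : E) (t : ℝ) : G.e x (t • v) = (G.flow t (x, v)).1 := by
  unfold e
  rw [flow_smul, mul_one]

theorem e_zero (x : E) : G.e x 0 = x := by
  have := G.e_smul x 0 0
  rwa [zero_smul, flow_zero] at this

theorem ev_smul (x v : E) (t : ℝ) : G.ev x (t • v) = t • (G.flow t (x, v)).2 := by
  unfold ev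
  rw [flow_smul, mul_one]

theorem contDiff_e : ContDiff ℝ ∞ (fun p : E × E => G.e p.1 p.2) := by
  unfold e
  exact contDiff_fst.comp (G.contDiff_flow_time 1)

/-- `D_v e(x,0) = id`. -/
theorem hasFDerivAt_e_zero (x : E) :
    HasFDerivAt (fun v => G.e x v) (ContinuousLinearMap.id ℝ E) 0 := by
  have hsm : ContDiff ℝ ∞ (fun v => G.e x v) :=
    G.contDiff_e.comp (contDiff_const.prodMk contDiff_id)
  have hd : DifferentiableAt ℝ (fun v => G.e x v) 0 :=
    (hsm.differentiable (by simp)).differentiableAt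
  have hL := hd.hasFDerivAt
  have key : fderiv ℝ (fun v => G.e x v) 0 = ContinuousLinearMap.id ℝ E := by
    ext v
    have h1 : HasDerivAt (fun t : ℝ => t • v) v 0 := by
      simpa using (hasDerivAt_id (0 : ℝ)).smul_const v
    have hL' : HasFDerivAt (fun v => G.e x v) (fderiv ℝ (fun v => G.e x v) 0) ((0 : ℝ) • v) := by
      rw [zero_smul]; exact hL
    have h2 : HasDerivAt (fun t : ℝ => G.e x (t • v)) (fderiv ℝ (fun v => G.e x v) 0 v) 0 :=
      HasFDerivAt.comp_hasDerivAt (f := fun t : ℝ => t • v) (l := fun v => G.e x v) 0 hL' h1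
    have h3 : HasDerivAt (fun t : ℝ => G.e x (t • v)) v 0 := by
      have := G.hasDerivAt_flow_fst 0 (x, v)
      rw [flow_zero] at this
      simpa only [e_smul] using this
    simpa using h2.unique h3
  rw [← key]
  exact hL

end GMetric

end

end Claimed.Agent.R213.Geo
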