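import Claimed.Agent.R213.Geo.GFlow

/-!
# Row 213, GEOMETRY layer, LEVEL A, file A3: variational equation and FIRST VARIATION FORMULA.

Proof of `first_variation`: with `(x,v) = flow t p`, `(J,K) = D(flow t)(p) q` one has `J' = K`,
`K' = -D(chris)(x,v)(J,K)` (variational equation) and
`d/dt g_x(v,J) = Dg_x[v](v,J) + g_x(v',J) + g_x(v,K) = Dg_x[J](v,v)/2 + g_x(v,K)
  = D energy (x,v)(J,K) = D(energy ∘ flow t)(p) q = D energy (p) q` (use `g_chris`, `energy_flow`).
The variational equation follows from joint smoothness (symmetry of second derivatives) or from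
`exists_flow_C1` in `ODE/FlowC1.lean`.
-/

set_option autoImplicit false
set_option linter.unusedSectionVars false
open scoped ContDiff Topology
open Set

namespace Claimed.Agent.R213.Geo

noncomputable section

variable {E : Type*} [NormedAddCommGroup E] [NormedSpace ℝ E] [FiniteDimensional ℝ E]

namespace GMetric

variable (G : GMetric E)

/-- **A2.7** the variational equation. -/
theorem hasDerivAt_fderiv_flow (t : ℝ) (p q : E × E) :
    HasDerivAt (fun s => fderiv ℝ (G.flow s) p q)
      (fderiv ℝ G.spray (G.flow t p) (fderiv ℝ (G.flow t) p q)) t := by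
  set F : ℝ × (E × E) → E × E := fun z => G.flow z.1 z.2 with hF
  have hFs : ContDiff ℝ ∞ F := G.contDiff_flow
  have hFd : ∀ z, HasFDerivAt F (fderiv ℝ F z) z := fun z =>
    (hFs.differentiable (by simp) z).hasFDerivAt
  -- partial derivative in the space variable
  have hsp : ∀ s : ℝ, fderiv ℝ (G.flow s) p q = fderiv ℝ F (s, p) ((0 : ℝ), q) := by
    intro s
    have h1 : HasFDerivAt (fun p' : E × E => (s, p'))
        (ContinuousLinearMap.inr ℝ ℝ (E × E)) p := hasFDerivAt_prodMk_right s p
    have h2 : HasFDerivAt (fun p' : E × E => F (s, p'))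
        ((fderiv ℝ F (s, p)).comp (ContinuousLinearMap.inr ℝ ℝ (E × E))) p :=
      (hFd (s, p)).comp p h1
    have h3 : (fun p' : E × E => F (s, p')) = G.flow s := rfl
    rw [h3] at h2
    rw [h2.fderiv]
    simp
  -- partial derivative in the time variable
  have htm : ∀ z : ℝ × (E × E), fderiv ℝ F z ((1 : ℝ), (0 : E × E)) = G.spray (F z) := by
    intro z
    have h1 : HasDerivAt (fun s : ℝ => (s, z.2)) ((1 : ℝ), (0 : E × E)) z.1 :=
      (hasDerivAt_id z.1).prodMk (hasDerivAt_const z.1 z.2)
    have hz : HasFDerivAt F (fderiv ℝ F z) (z.1, z.2) := hFd z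
    have h2 : HasDerivAt (fun s : ℝ => F (s, z.2)) (fderiv ℝ F z ((1 : ℝ), (0 : E × E))) z.1 :=
      HasFDerivAt.comp_hasDerivAt (l := F) (f := fun s : ℝ => (s, z.2)) z.1 hz h1
    exact h2.unique (G.hasDerivAt_flow z.1 z.2)
  have hF1 : ContDiff ℝ ∞ (fderiv ℝ F) := hFs.fderiv_right (by simp)
  have hF1d : HasFDerivAt (fderiv ℝ F) (fderiv ℝ (fderiv ℝ F) (t, p)) (t, p) :=
    (hF1.differentiable (by simp) _).hasFDerivAt
  have hsymm : IsSymmSndFDerivAt ℝ F (t, p) :=
    hFs.contDiffAt.isSymmSndFDerivAt (by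
      rw [minSmoothness_of_isRCLikeNormedField]; exact ENat.LEInfty.out)
  -- derivative of `s ↦ DF(s,p)(0,q)`
  have hA : HasDerivAt (fun s : ℝ => fderiv ℝ F (s, p) ((0 : ℝ), q))
      (fderiv ℝ (fderiv ℝ F) (t, p) ((1 : ℝ), (0 : E × E)) ((0 : ℝ), q)) t := by
    have h1 : HasDerivAt (fun s : ℝ => (s, p)) ((1 : ℝ), (0 : E × E)) t :=
      (hasDerivAt_id t).prodMk (hasDerivAt_const t p)
    have h2 : HasDerivAt (fun s : ℝ => fderiv ℝ F (s, p))
        (fderiv ℝ (fderiv ℝ F) (t, p) ((1 : ℝ), (0 : E × E))) t :=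
      hF1d.comp_hasDerivAt t h1
    have h3 := h2.clm_apply (hasDerivAt_const t ((0 : ℝ), q))
    simpa using h3
  -- derivative of `z ↦ DF(z)(1,0) = spray (F z)` in the direction `(0,q)`
  have hB : fderiv ℝ (fderiv ℝ F) (t, p) ((0 : ℝ), q) ((1 : ℝ), (0 : E × E)) =
      fderiv ℝ G.spray (F (t, p)) (fderiv ℝ F (t, p) ((0 : ℝ), q)) := by
    have h1 : HasFDerivAt (fun z => fderiv ℝ F z ((1 : ℝ), (0 : E × E)))
        ((fderiv ℝ (fderiv ℝ F) (t, p)).flip ((1 : ℝ), (0 : E × E))) (t, p) := by
      have := hF1d.clm_apply (hasFDerivAt_const ((1 : ℝ), (0 : E × E)) (t, p))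
      simpa using this
    have h2 : HasFDerivAt (fun z => G.spray (F z))
        ((fderiv ℝ G.spray (F (t, p))).comp (fderiv ℝ F (t, p))) (t, p) :=
      ((G.contDiff_spray.differentiable (by simp) _).hasFDerivAt).comp (t, p) (hFd (t, p))
    have h3 : (fun z => fderiv ℝ F z ((1 : ℝ), (0 : E × E))) = fun z => G.spray (F z) :=
      funext htm
    rw [h3] at h1
    have := h1.unique h2
    have := congrArg (fun L => L ((0 : ℝ), q)) this
    simpa using this
  have hfun : (fun s => fderiv ℝ (G.flow s) p q) = fun s : ℝ => fderiv ℝ F (s, p) ((0 : ℝ), q) :=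
    funext hsp
  rw [hfun, hsp t]
  rw [hsymm _ _, hB] at hA
  exact hA

/-- **A3 (first variation formula).** -/
theorem first_variation (t : ℝ) (p q : E × E) :
    G.g (G.flow t p).1 (G.flow t p).2 (fderiv ℝ (G.flow t) p q).1 - G.g p.1 p.2 q.1
      = t * fderiv ℝ G.energy p q := by
  set c : ℝ := fderiv ℝ G.energy p q with hc
  -- first component of the derivative of the spray
  have hspray1 : ∀ z w : E × E, (fderiv ℝ G.spray z w).1 = w.2 := by
    intro z w
    have h1 : HasFDerivAt G.spray (fderiv ℝ G.spray z) z :=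
      (G.contDiff_spray.differentiable (by simp) z).hasFDerivAt
    have h2 : HasFDerivAt (fun y : E × E => (G.spray y).1)
        ((ContinuousLinearMap.fst ℝ E E).comp (fderiv ℝ G.spray z)) z := h1.fst
    have h3 : HasFDerivAt (fun y : E × E => (G.spray y).1) (ContinuousLinearMap.snd ℝ E E) z :=
      hasFDerivAt_snd
    have := congrArg (fun L => L w) (h2.unique h3)
    simpa using this
  -- the energy is invariant
  have hen : ∀ s : ℝ, fderiv ℝ G.energy (G.flow s p) (fderiv ℝ (G.flow s) p q) = c := by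
    intro s
    have h1 : HasFDerivAt G.energy (fderiv ℝ G.energy (G.flow s p)) (G.flow s p) :=
      (G.contDiff_energy.differentiable (by simp) _).hasFDerivAt
    have h2 : HasFDerivAt (G.flow s) (fderiv ℝ (G.flow s) p) p :=
      ((G.contDiff_flow_time s).differentiable (by simp) _).hasFDerivAt
    have h3 := h1.comp p h2
    have h4 : G.energy ∘ G.flow s = G.energy := funext (fun y => G.energy_flow s y)
    rw [h4] at h3
    rw [hc, h3.fderiv]
    rfl
  have hder : ∀ s : ℝ, HasDerivAt
      (fun s => G.g (G.flow s p).1 (G.flow s p).2 (fderiv ℝ (G.flow s) p q).1) c s := by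
    intro s
    have hfl := G.hasDerivAt_flow s p
    have hx : HasDerivAt (fun s => (G.flow s p).1) (G.flow s p).2 s := hfl.fst
    have hv : HasDerivAt (fun s => (G.flow s p).2)
        (- G.chris (G.flow s p).1 (G.flow s p).2) s := hfl.snd
    have hJK := G.hasDerivAt_fderiv_flow s p q
    have hJ : HasDerivAt (fun s => (fderiv ℝ (G.flow s) p q).1) (fderiv ℝ (G.flow s) p q).2 s := by
      have : HasDerivAt (fun s => (fderiv ℝ (G.flow s) p q).1)
          (fderiv ℝ G.spray (G.flow s p) (fderiv ℝ (G.flow s) p q)).1 s := hJK.fst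
      rwa [hspray1] at this
    have hg : HasFDerivAt G.g (fderiv ℝ G.g (G.flow s p).1) (G.flow s p).1 :=
      (G.smooth.differentiable (by simp) _).hasFDerivAt
    have h1 : HasDerivAt (fun s => G.g (G.flow s p).1)
        (fderiv ℝ G.g (G.flow s p).1 (G.flow s p).2) s :=
      HasFDerivAt.comp_hasDerivAt (l := G.g) (f := fun s => (G.flow s p).1) s hg hx
    have h2 := (h1.clm_apply hv).clm_apply hJ
    have hval : (fderiv ℝ G.g (G.flow s p).1 (G.flow s p).2 (G.flow s p).2 +
          G.g (G.flow s p).1 (-G.chris (G.flow s p).1 (G.flow s p).2))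
        (fderiv ℝ (G.flow s) p q).1 +
      G.g (G.flow s p).1 (G.flow s p).2 (fderiv ℝ (G.flow s) p q).2 = c := by
      rw [← hen s, G.fderiv_energy]
      simp only [add_apply, map_neg, neg_apply, G.g_chris]
      ring
    rw [hval] at h2
    exact h2
  have hconst : ∀ s : ℝ, HasDerivAt
      (fun s => G.g (G.flow s p).1 (G.flow s p).2 (fderiv ℝ (G.flow s) p q).1 - s * c) 0 s := by
    intro s
    have := (hder s).fun_sub ((hasDerivAt_id s).mul_const c)
    simp only [id, one_mul, sub_self] at this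
    exact this
  have hcst := is_const_of_deriv_eq_zero (fun s => (hconst s).differentiableAt)
    (fun s => (hconst s).deriv) t 0
  have h0 : G.flow 0 = id := funext (fun y => G.flow_zero y)
  simp only [h0, zero_mul, sub_zero, id_eq, fderiv_id, ContinuousLinearMap.coe_id'] at hcst
  linarith

end GMetric

end

end Claimed.Agent.R213.Geo
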