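import Claimed.Agent.R213.Geo.ChartMetric
import Claimed.Agent.R213.TMTop

/-!
# Row 213, GEOMETRY layer, LEVEL B, file B0t: topological facts on `TM`
(fields `t2 cpt cont_norm lin cont_inner` of `Soft`).

The sequence versions are in `Claimed/Agent/R213/TMTop.lean` (trivialization at the limit point);
here they are restated for `TM n M` and generalised to arbitrary filters.
-/

set_option autoImplicit false
set_option linter.unusedSectionVars false
open Claims Claims.C0370 Claims.C0370.WeakMTWGlobalSupport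
open scoped Manifold ContDiff Topology
open Set Filter Manifold Bundle

namespace Claimed.Agent.R213.Geo

noncomputable section

variable {n : ℕ} {M : Type*} [MetricSpace M] [ChartedSpace (WeakMTW.Model n) M]
  [IsManifold (WeakMTW.model n) ∞ M]
  [RiemannianBundle (fun x : M => TangentSpace (WeakMTW.model n) x)]
  [IsContMDiffRiemannianBundle (WeakMTW.model n) ∞ (WeakMTW.Model n)
    (fun x : M => TangentSpace (WeakMTW.model n) x)]

/-! ### topology of `TM` -/

theorem t2Space_tm : T2Space (TM n M) := tm_t2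

theorem continuous_norm_tm : Continuous (fun p : TM n M => ‖p.2‖) := tm_cont_norm

theorem tendsto_lin_tm {ι : Type*} {l : Filter ι} (x : ι → M) (xl : M)
    (v w : ∀ k, TangentSpace (WeakMTW.model n) (x k))
    (vl wl : TangentSpace (WeakMTW.model n) xl) (a b : ι → ℝ) (al bl : ℝ)
    (hv : Tendsto (fun k => (⟨x k, v k⟩ : TM n M)) l (𝓝 ⟨xl, vl⟩))
    (hw : Tendsto (fun k => (⟨x k, w k⟩ : TM n M)) l (𝓝 ⟨xl, wl⟩))
    (ha : Tendsto a l (𝓝 al)) (hb : Tendsto b l (𝓝 bl)) :
    Tendsto (fun k => (⟨x k, a k • v k + b k • w k⟩ : TM n M)) l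
      (𝓝 ⟨xl, al • vl + bl • wl⟩) := by
  have hv' := (tm_tendsto_iff x xl v vl).1 hv
  have hw' := (tm_tendsto_iff x xl w wl).1 hw
  refine (tm_tendsto_iff x xl (fun k => a k • v k + b k • w k) (al • vl + bl • wl)).2
    ⟨hv'.1, ?_⟩
  have hbase : ∀ᶠ k in l, x k ∈ (tmTriv (n := n) xl).baseSet :=
    hv'.1 ((tmTriv (n := n) xl).open_baseSet.mem_nhds (tm_mem_baseSet xl))
  rw [tm_triv_lin xl (tm_mem_baseSet xl)]
  refine ((ha.smul hv'.2).add (hb.smul hw'.2)).congr' ?_
  filter_upwards [hbase] with k hk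
  rw [tm_triv_lin xl hk]

theorem tendsto_inner_tm {ι : Type*} {l : Filter ι} (x : ι → M) (xl : M)
    (v w : ∀ k, TangentSpace (WeakMTW.model n) (x k))
    (vl wl : TangentSpace (WeakMTW.model n) xl)
    (hv : Tendsto (fun k => (⟨x k, v k⟩ : TM n M)) l (𝓝 ⟨xl, vl⟩))
    (hw : Tendsto (fun k => (⟨x k, w k⟩ : TM n M)) l (𝓝 ⟨xl, wl⟩)) :
    Tendsto (fun k => inner ℝ (v k) (w k)) l (𝓝 (inner ℝ vl wl)) := by
  have hp := tendsto_lin_tm x xl v w vl wl (fun _ => 1) (fun _ => 1) 1 1 hv hw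
    tendsto_const_nhds tendsto_const_nhds
  have hm := tendsto_lin_tm x xl v w vl wl (fun _ => 1) (fun _ => -1) 1 (-1) hv hw
    tendsto_const_nhds tendsto_const_nhds
  have hp' := (continuous_norm_tm (n := n) (M := M)).continuousAt.tendsto.comp hp
  have hm' := (continuous_norm_tm (n := n) (M := M)).continuousAt.tendsto.comp hm
  have key : ∀ (y : M) (a b : TangentSpace (WeakMTW.model n) y),
      inner ℝ a b = (‖(1:ℝ) • a + (1:ℝ) • b‖ ^ 2 - ‖(1:ℝ) • a + (-1:ℝ) • b‖ ^ 2) / 4 := by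
    intro y a b
    rw [one_smul, one_smul, neg_smul, one_smul, ← sub_eq_add_neg,
      norm_add_sq_real, norm_sub_sq_real]
    ring
  rw [key xl vl wl]
  simp only [key]
  exact ((hp'.pow 2).sub (hm'.pow 2)).div_const 4

theorem exists_subseq_tm (x : ℕ → M) (xl : M) (v : ∀ k, TangentSpace (WeakMTW.model n) (x k))
    (R : ℝ) (hx : Tendsto x atTop (𝓝 xl)) (hv : ∀ k, ‖v k‖ ≤ R) :
    ∃ (vl : TangentSpace (WeakMTW.model n) xl) (φ : ℕ → ℕ), StrictMono φ ∧
      Tendsto (fun k => (⟨x (φ k), v (φ k)⟩ : TM n M)) atTop (𝓝 ⟨xl, vl⟩) :=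
  tm_cpt x xl v R hx hv

end

end Claimed.Agent.R213.Geo
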