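import Claimed.Agent.R213.Geo.GlobalFlow
import Claimed.Agent.R213.Geo.TMTop

/-!
# Row 213, GEOMETRY layer, GLOBAL part, file C5: smoothness of `gflow t` on `TM`, continuity in time,
global first variation formula.

`gflow t = (gflow (t/N))^[N]` (`gflow_add`), and near `q₀` (on the open set `dist q.1 q₀.1 < rs`, `|t/N| ‖q.2‖ < rs`,
open by `continuous_norm_tm`) `gflow (t/N) = locF q₀.1 (t/N)` (`gflow_eq_locF`), which is smooth at `q₀`
(field `smooth`).  First variation: telescoping, `(F ∘ F')^*θ - θ = F'^*(F^*θ - θ) + (F'^*θ - θ)` and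
`En ∘ gflow s = En` (`norm_gflow`), so `dEn (gflow s p) (mfderiv (gflow s) p ξ) = dEn p ξ`.
-/

set_option autoImplicit false
set_option linter.unusedSectionVars false
open Claims Claims.C0370 Claims.C0370.WeakMTWGlobalSupport
open scoped Manifold ContDiff Topology
open Set Filter Manifold Bundle

namespace Claimed.Agent.R213.Geo

noncomputable section

variable {n : ℕ} {M : Type*} [MetricSpace M] [ChartedSpace (WeakMTW.Model n) M]
  [IsManifold (WeakMTW.model n) ∞ M]
  [RiemannianBundle (fun x : M => TangentSpace (WeakMTW.model n) x)]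
  [IsContMDiffRiemannianBundle (WeakMTW.model n) ∞ (WeakMTW.Model n)
    (fun x : M => TangentSpace (WeakMTW.model n) x)]
  [IsRiemannianManifold (WeakMTW.model n) M] [CompactSpace M]

/-! ### small times -/

/-- near `q₀` and for small times, `gflow s` is the local flow around `q₀.1`. -/
theorem gs_eventually_eq_locF (q₀ : TM n M) {s : ℝ} (hs : |s| * ‖q₀.2‖ < rs n M) :
    gflow (n := n) (M := M) s =ᶠ[𝓝 q₀] locF q₀.1 s := by
  have h1 : ∀ᶠ q : TM n M in 𝓝 q₀, dist q.1 q₀.1 < rs n M := by
    have hc : Continuous fun q : TM n M => dist q.1 q₀.1 :=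
      (FiberBundle.continuous_proj (WeakMTW.Model n)
        (fun x : M => TangentSpace (WeakMTW.model n) x)).dist continuous_const
    exact hc.continuousAt.eventually_lt continuousAt_const (by simpa using rs_pos)
  have h2 : ∀ᶠ q : TM n M in 𝓝 q₀, |s| * ‖q.2‖ < rs n M := by
    have hc : Continuous fun q : TM n M => |s| * ‖q.2‖ := continuous_const.mul continuous_norm_tm
    exact hc.continuousAt.eventually_lt continuousAt_const hs
  filter_upwards [h1, h2] with q hq1 hq2
  exact gflow_eq_locF hq1 hq2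

/-- the facts on `locF q₀.1` at `q₀`. -/
theorem gs_locF_at (q₀ : TM n M) : ∃ (N0 N1 N2 : Set M) (r : ℝ),
    IsLocalFlow N0 N1 N2 r (locF (n := n) q₀.1) ∧ q₀.1 ∈ N1 ∧ rs n M ≤ r := by
  obtain ⟨N0, N1, N2, r, hF, hb, hr⟩ := locF_spec (n := n) q₀.1
  have h0 := rs_pos (n := n) (M := M)
  exact ⟨N0, N1, N2, r, hF, hF.sub01 (hb (Metric.mem_ball_self (by linarith))), by linarith⟩

theorem gs_contMDiffAt_small (q₀ : TM n M) {s : ℝ} (hs : |s| * ‖q₀.2‖ < rs n M) :
    ContMDiffAt (WeakMTW.model n).tangent (WeakMTW.model n).tangent ∞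
      (gflow (n := n) (M := M) s) q₀ := by
  obtain ⟨N0, N1, N2, r, hF, hq, hr⟩ := gs_locF_at q₀
  exact (hF.smooth q₀ s hq (lt_of_lt_of_le hs hr)).congr_of_eventuallyEq
    (gs_eventually_eq_locF q₀ hs)

theorem gs_gflow_succ (k : ℕ) (s : ℝ) :
    gflow (n := n) (M := M) (((k + 1 : ℕ) : ℝ) * s) = gflow s ∘ gflow ((k : ℝ) * s) := by
  funext q
  rw [Function.comp, gflow_add]
  congr 1
  push_cast
  ring

theorem gs_contMDiffAt_mul (k : ℕ) (p : TM n M) {s : ℝ} (hs : |s| * ‖p.2‖ < rs n M) :
    ContMDiffAt (WeakMTW.model n).tangent (WeakMTW.model n).tangent ∞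
      (gflow (n := n) (M := M) ((k : ℝ) * s)) p := by
  induction k with
  | zero =>
    have : gflow (n := n) (M := M) (((0 : ℕ) : ℝ) * s) = id := by
      funext q
      simp [gflow_zero]
    rw [this]
    exact contMDiffAt_id
  | succ k ih =>
    rw [gs_gflow_succ]
    exact (gs_contMDiffAt_small _ (by rwa [norm_gflow])).comp p ih

/-- every time is a multiple of a small time. -/
theorem gs_exists_small (t : ℝ) (p : TM n M) :
    ∃ (k : ℕ) (s : ℝ), |s| * ‖p.2‖ < rs n M ∧ t = (k : ℝ) * s := by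
  obtain ⟨k, hk⟩ := exists_nat_gt (|t| * ‖p.2‖ / rs n M)
  have h0 := rs_pos (n := n) (M := M)
  have hk0 : (0 : ℝ) < k := lt_of_le_of_lt (by positivity) hk
  refine ⟨k, t / k, ?_, by field_simp⟩
  rw [abs_div, abs_of_pos hk0, div_mul_eq_mul_div, div_lt_iff₀ hk0]
  rw [div_lt_iff₀ h0] at hk
  linarith

/-- **C5.1** -/
theorem contMDiff_gflow (t : ℝ) :
    ContMDiff (WeakMTW.model n).tangent (WeakMTW.model n).tangent ∞ (gflow (n := n) (M := M) t) := by
  intro p
  obtain ⟨k, s, hs, rfl⟩ := gs_exists_small t p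
  exact gs_contMDiffAt_mul k p hs

/-- **C5.2** -/
theorem continuous_gflow_time (p : TM n M) : Continuous (fun t => gflow t p) := by
  rw [continuous_iff_continuousAt]
  intro t₀
  obtain ⟨q, hq⟩ : ∃ q, q = gflow t₀ p := ⟨_, rfl⟩
  have h0 : ContinuousAt (fun u => gflow u q) 0 := by
    obtain ⟨N0, N1, N2, r, hF, hq1, hr⟩ := gs_locF_at q
    have hc := hF.cont_time q 0 hq1 (by simpa using hF.r_pos)
    refine hc.congr ?_
    have h2 : ∀ᶠ u : ℝ in 𝓝 0, |u| * ‖q.2‖ < rs n M := by
      have hcc : Continuous fun u : ℝ => |u| * ‖q.2‖ := continuous_abs.mul continuous_const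
      exact hcc.continuousAt.eventually_lt continuousAt_const (by simpa using rs_pos)
    filter_upwards [h2] with u hu
    exact (gflow_eq_locF (by simpa using rs_pos) hu).symm
  have h1 : (fun t => gflow t p) = (fun u => gflow u q) ∘ fun t => t - t₀ := by
    funext t
    rw [Function.comp, hq, gflow_add, sub_add_cancel]
  rw [h1]
  apply ContinuousAt.comp
  · rw [sub_self]; exact h0
  · fun_prop

/-- the energy is smooth on `TM`. -/
theorem contMDiff_En : ContMDiff (WeakMTW.model n).tangent 𝓘(ℝ, ℝ) ∞ (En (n := n) (M := M)) := by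
  have hid : ContMDiff (WeakMTW.model n).tangent ((WeakMTW.model n).prod 𝓘(ℝ, WeakMTW.Model n)) ∞
      (fun q : TM n M => (⟨q.1, q.2⟩ : TotalSpace (WeakMTW.Model n)
        (fun x : M => TangentSpace (WeakMTW.model n) x))) := contMDiff_id
  have h := ContMDiff.inner_bundle (b := fun q : TM n M => q.1) (v := fun q => q.2)
    (w := fun q => q.2) hid hid
  have h2 : En (n := n) (M := M) = fun q => (1 / 2 : ℝ) * inner ℝ q.2 q.2 := by
    funext q
    rw [En, real_inner_self_eq_norm_sq]
    ring
  rw [h2]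
  exact contMDiff_const.mul h

/-- the energy is invariant, infinitesimal version. -/
theorem gs_dEn_gflow (t : ℝ) (p : TM n M) (ξ : TangentSpace (WeakMTW.model n).tangent p) :
    dEn (gflow t p)
      (mfderiv (WeakMTW.model n).tangent (WeakMTW.model n).tangent (gflow t) p ξ) = dEn p ξ := by
  have h1 : En (n := n) (M := M) ∘ gflow t = En := by
    funext q
    simp [En, norm_gflow]
  have h2 := mfderiv_comp p
    ((contMDiff_En (n := n) (M := M)).mdifferentiableAt (by simp) (x := gflow t p))
    ((contMDiff_gflow (n := n) (M := M) t).mdifferentiableAt (by simp) (x := p))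
  rw [h1] at h2
  unfold dEn
  rw [h2]
  rfl

theorem gs_fv_small (q : TM n M) {s : ℝ} (hs : |s| * ‖q.2‖ < rs n M)
    (ξ : TangentSpace (WeakMTW.model n).tangent q) :
    theta (gflow s q) (mfderiv (WeakMTW.model n).tangent (WeakMTW.model n).tangent (gflow s) q ξ)
      - theta q ξ = s * dEn q ξ := by
  obtain ⟨N0, N1, N2, r, hF, hq, hr⟩ := gs_locF_at q
  have h := hF.fv q s hq (lt_of_lt_of_le hs hr) ξ
  have e1 := (gs_eventually_eq_locF q hs).mfderiv_eq (I := (WeakMTW.model n).tangent)
    (I' := (WeakMTW.model n).tangent)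
  have e2 : gflow s q = locF q.1 s q := (gs_eventually_eq_locF q hs).eq_of_nhds
  rw [← h]
  congr 1
  rw [e1]
  congr 1

theorem gs_fv_mul (k : ℕ) (p : TM n M) {s : ℝ} (hs : |s| * ‖p.2‖ < rs n M)
    (ξ : TangentSpace (WeakMTW.model n).tangent p) :
    theta (gflow ((k : ℝ) * s) p)
      (mfderiv (WeakMTW.model n).tangent (WeakMTW.model n).tangent (gflow ((k : ℝ) * s)) p ξ)
      - theta p ξ = ((k : ℝ) * s) * dEn p ξ := by
  induction k with
  | zero =>
    have : gflow (n := n) (M := M) (((0 : ℕ) : ℝ) * s) = id := by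
      funext q
      simp [gflow_zero]
    rw [this, mfderiv_id]
    simp
  | succ k ih =>
    rw [gs_gflow_succ, mfderiv_comp p
      ((contMDiff_gflow (n := n) (M := M) s).mdifferentiableAt (by simp))
      ((contMDiff_gflow (n := n) (M := M) ((k : ℝ) * s)).mdifferentiableAt (by simp))]
    have h1 := gs_fv_small (gflow ((k : ℝ) * s) p) (s := s) (by rwa [norm_gflow])
      (mfderiv (WeakMTW.model n).tangent (WeakMTW.model n).tangent (gflow ((k : ℝ) * s)) p ξ)
    rw [gs_dEn_gflow] at h1
    have h2 : theta ((gflow s ∘ gflow ((k : ℝ) * s)) p)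
        (((mfderiv (WeakMTW.model n).tangent (WeakMTW.model n).tangent (gflow s)
          (gflow ((k : ℝ) * s) p)).comp
          (mfderiv (WeakMTW.model n).tangent (WeakMTW.model n).tangent (gflow ((k : ℝ) * s)) p)) ξ)
        = theta (gflow s (gflow ((k : ℝ) * s) p))
          (mfderiv (WeakMTW.model n).tangent (WeakMTW.model n).tangent (gflow s)
            (gflow ((k : ℝ) * s) p)
            (mfderiv (WeakMTW.model n).tangent (WeakMTW.model n).tangent
              (gflow ((k : ℝ) * s)) p ξ)) := rfl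
    rw [h2]
    push_cast
    linarith

/-- **C5.3** global first variation formula. -/
theorem gflow_fv (t : ℝ) (p : TM n M) (ξ : TangentSpace (WeakMTW.model n).tangent p) :
    theta (gflow t p) (mfderiv (WeakMTW.model n).tangent (WeakMTW.model n).tangent (gflow t) p ξ)
      - theta p ξ = t * dEn p ξ := by
  obtain ⟨k, s, hs, rfl⟩ := gs_exists_small t p
  exact gs_fv_mul k p hs ξ

end

end Claimed.Agent.R213.Geo
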