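import Claimed.Agent.R213.Geo.Geodesic
import Claimed.Agent.R213.Geo.GlobalSmooth

/-!
# Row 213, GEOMETRY layer, GLOBAL part, file C6: metric facts (uniform injectivity radius, global
no-corner lemma, rays, non-crossing).

`nocorner_global`: let `lam = ‖p.2‖`, choose `0 < η` small (`2 η lam < rs`, `η ≤ a`, `η ≤ β`).  By the triangle inequality
and `dist_gflow_le`, `dist (gflow (a-η) p).1 (gflow η ⟨y,b⟩).1 = 2 η lam`.  Apply the field `nocorner` of
`locF_spec x₀`, `x₀ = (gflow (a-η) p).1`, to `gflow (a-η) p`, `ε = δ = η` (`gflow_eq_locF`, `gflow_add`).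
-/

set_option autoImplicit false
set_option linter.unusedSectionVars false
open Claims Claims.C0370 Claims.C0370.WeakMTWGlobalSupport
open scoped Manifold ContDiff Topology
open Set Filter Manifold Bundle

namespace Claimed.Agent.R213.Geo

noncomputable section

variable {n : ℕ} {M : Type*} [MetricSpace M] [ChartedSpace (WeakMTW.Model n) M]
  [IsManifold (WeakMTW.model n) ∞ M]
  [RiemannianBundle (fun x : M => TangentSpace (WeakMTW.model n) x)]
  [IsContMDiffRiemannianBundle (WeakMTW.model n) ∞ (WeakMTW.Model n)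
    (fun x : M => TangentSpace (WeakMTW.model n) x)]
  [IsRiemannianManifold (WeakMTW.model n) M] [CompactSpace M]

/-- orbits are `‖p.2‖`-Lipschitz. -/
theorem dist_gflow_le (p : TM n M) (s t : ℝ) :
    dist (gflow s p).1 (gflow t p).1 ≤ |t - s| * ‖p.2‖ := by
  obtain ⟨N, hN⟩ := exists_nat_gt (|t - s| * ‖p.2‖ / rs n M)
  have hrs := rs_pos (n := n) (M := M)
  have hN0 : (0 : ℝ) < N := lt_of_le_of_lt (by positivity) hN
  set u : ℕ → ℝ := fun j => s + j * ((t - s) / N) with hu
  have hstep : ∀ j : ℕ, dist (gflow (u j) p).1 (gflow (u (j + 1)) p).1 = |t - s| / N * ‖p.2‖ := by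
    intro j
    have h1 : u (j + 1) - u j = (t - s) / N := by
      simp only [hu]; push_cast; ring
    have h2 : |u (j + 1) - u j| = |t - s| / N := by
      rw [h1, abs_div, abs_of_pos hN0]
    rw [dist_gflow_small p (s := u j) (t := u (j + 1)), h2]
    rw [h2]
    rw [div_lt_iff₀ hrs] at hN
    rw [div_mul_eq_mul_div, div_lt_iff₀ hN0]
    linarith
  have h0 : u 0 = s := by simp [hu]
  have hNt : u N = t := by
    simp only [hu]; field_simp; ring
  have := dist_le_range_sum_dist (fun j => (gflow (u j) p).1) N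
  simp only [hstep, h0, hNt, Finset.sum_const, Finset.card_range, nsmul_eq_mul] at this
  calc dist (gflow s p).1 (gflow t p).1 ≤ N * (|t - s| / N * ‖p.2‖) := this
    _ = |t - s| * ‖p.2‖ := by field_simp

theorem dist_exp_le (x : M) (v : TangentSpace (WeakMTW.model n) x) :
    dist x (WeakMTW.exp x v) ≤ ‖v‖ := by
  have := dist_gflow_le (⟨x, v⟩ : TM n M) 0 1
  rw [gflow_zero, ← exp_eq] at this
  simpa using this

theorem exp_zero (x : M) : WeakMTW.exp x (0 : TangentSpace (WeakMTW.model n) x) = x := by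
  have := dist_exp_le x (0 : TangentSpace (WeakMTW.model n) x)
  rw [norm_zero] at this
  exact (dist_le_zero.1 this).symm

/-- uniform injectivity radius, 1. -/
theorem dist_exp_small {x : M} {v : TangentSpace (WeakMTW.model n) x} (hv : ‖v‖ < rs n M) :
    dist x (WeakMTW.exp x v) = ‖v‖ := by
  have := dist_gflow_small (⟨x, v⟩ : TM n M) (s := 0) (t := 1) (by simpa using hv)
  rw [gflow_zero, ← exp_eq] at this
  simpa using this

/-- uniform injectivity radius, 2. -/
theorem exists_exp_small {x y : M} (h : dist x y < rs n M) :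
    ∃ v : TangentSpace (WeakMTW.model n) x, ‖v‖ = dist x y ∧ WeakMTW.exp x v = y := by
  obtain ⟨N0, N1, N2, r, hF, hb, hr⟩ := locF_spec (n := n) x
  have hrs := rs_pos (n := n) (M := M)
  have hx : x ∈ N1 := hF.sub01 (hb (Metric.mem_ball_self (by linarith)))
  obtain ⟨v, hv, hy⟩ := hF.surj x y hx (by linarith)
  refine ⟨v, hv, ?_⟩
  rw [exp_eq, gflow_eq_locF (x₀ := x) (by simpa using hrs) (by simpa [hv] using h), hy]

/-- uniform injectivity radius, 3. -/
theorem exp_inj_small {x : M} {v w : TangentSpace (WeakMTW.model n) x} (hv : ‖v‖ < rs n M)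
    (hw : ‖w‖ < rs n M) (h : WeakMTW.exp x v = WeakMTW.exp x w) : v = w := by
  obtain ⟨N0, N1, N2, r, hF, hb, hr⟩ := locF_spec (n := n) x
  have hrs := rs_pos (n := n) (M := M)
  have hx : x ∈ N1 := hF.sub01 (hb (Metric.mem_ball_self (by linarith)))
  rw [exp_eq, exp_eq, gflow_eq_locF (x₀ := x) (by simpa using hrs) (by simpa using hv),
    gflow_eq_locF (x₀ := x) (by simpa using hrs) (by simpa using hw)] at h
  exact hF.inj x v w hx (by linarith) (by linarith) h

/-- **C6.1** global no-corner lemma. -/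
theorem nocorner_global (p q : TM n M) (a β : ℝ) (ha : 0 < a) (hβ : 0 < β)
    (hq : q.1 = (gflow a p).1) (hb : ‖q.2‖ = ‖p.2‖)
    (hd : dist p.1 (gflow β q).1 = (a + β) * ‖p.2‖) : q = gflow a p := by
  have hrs := rs_pos (n := n) (M := M)
  set lam := ‖p.2‖ with hlam
  have hlam0 : 0 ≤ lam := norm_nonneg _
  -- choice of `η`
  obtain ⟨η, hη0, hηa, hηβ, hηs⟩ : ∃ η : ℝ, 0 < η ∧ η ≤ a ∧ η ≤ β ∧ 2 * (η * lam) < rs n M := by
    refine ⟨min (min a β) (rs n M / (4 * (lam + 1))), by positivity,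
      (min_le_left _ _).trans (min_le_left _ _), (min_le_left _ _).trans (min_le_right _ _), ?_⟩
    have h1 : min (min a β) (rs n M / (4 * (lam + 1))) * lam ≤ rs n M / (4 * (lam + 1)) * lam :=
      mul_le_mul_of_nonneg_right (min_le_right _ _) hlam0
    have h2 : rs n M / (4 * (lam + 1)) * lam ≤ rs n M / 4 := by
      rw [div_mul_eq_mul_div, div_le_div_iff₀ (by positivity) (by norm_num)]
      nlinarith
    linarith
  set p' := gflow (a - η) p with hp'
  have hnp' : ‖p'.2‖ = lam := norm_gflow _ _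
  have hflow : gflow η p' = gflow a p := by
    rw [hp', gflow_add]; congr 1; ring
  -- the distance between `p'.1` and `(gflow η q).1`
  have hA : dist p.1 p'.1 ≤ (a - η) * lam := by
    have := dist_gflow_le p 0 (a - η)
    rw [gflow_zero, sub_zero, abs_of_nonneg (by linarith)] at this
    exact this
  have hB : dist (gflow η q).1 (gflow β q).1 ≤ (β - η) * lam := by
    have := dist_gflow_le q η β
    rw [abs_of_nonneg (by linarith), hb] at this
    exact this
  have hC : dist p'.1 q.1 ≤ η * lam := by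
    have := dist_gflow_le p' 0 η
    rw [gflow_zero, sub_zero, abs_of_pos hη0, hflow, ← hq, hnp'] at this
    exact this
  have hD : dist q.1 (gflow η q).1 ≤ η * lam := by
    have := dist_gflow_le q 0 η
    rw [gflow_zero, sub_zero, abs_of_pos hη0, hb] at this
    exact this
  have hE : dist p'.1 (gflow η q).1 = (η + η) * lam := by
    have h1 := dist_triangle p.1 p'.1 (gflow β q).1
    have h2 := dist_triangle p'.1 (gflow η q).1 (gflow β q).1
    have h3 := dist_triangle p'.1 q.1 (gflow η q).1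
    apply le_antisymm
    · linarith
    · nlinarith
  obtain ⟨N0, N1, N2, r, hF, hball, hr⟩ := locF_spec (n := n) p'.1
  have hx : p'.1 ∈ N0 := hball (Metric.mem_ball_self (by linarith))
  have hF1 : locF p'.1 η p' = gflow a p := by
    rw [← hflow, gflow_eq_locF (x₀ := p'.1) (by simpa using hrs)]
    rw [abs_of_pos hη0, hnp']; linarith
  have hF2 : locF p'.1 η q = gflow η q := by
    rw [gflow_eq_locF (x₀ := p'.1)]
    · rw [dist_comm]; linarith
    · rw [abs_of_pos hη0, hb]; linarith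
  have key := hF.nocorner p' η η
  rw [hF1] at key
  obtain ⟨y, b⟩ := q
  simp only at hq
  subst hq
  refine key b hx hη0 hη0 ?_ ?_ ?_
  · rw [hnp']; linarith
  · rw [hnp']; exact hb
  · rw [hF2, hnp']; exact hE

/-- **C6.2** field `ray` of `Soft`. -/
theorem ray (x : M) (v : TangentSpace (WeakMTW.model n) x) (hv : v ∈ Ibar x)
    (r t : ℝ) (hr : 0 ≤ r) (hrt : r ≤ t) (ht : t ≤ 1) :
    dist (WeakMTW.exp x (r • v)) (WeakMTW.exp x (t • v)) = (t - r) * ‖v‖ := by
  have hv' : dist x (WeakMTW.exp x v) = ‖v‖ := hv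
  set p : TM n M := ⟨x, v⟩ with hp
  rw [exp_smul, exp_smul]
  rw [exp_eq] at hv'
  have h1 := dist_gflow_le p r t
  have h2 := dist_gflow_le p 0 r
  have h3 := dist_gflow_le p t 1
  rw [abs_of_nonneg (by linarith)] at h1 h2 h3
  rw [gflow_zero] at h2
  have h4 := dist_triangle p.1 (gflow r p).1 (gflow 1 p).1
  have h5 := dist_triangle (gflow r p).1 (gflow t p).1 (gflow 1 p).1
  have h6 : dist p.1 (gflow 1 p).1 = ‖p.2‖ := hv'
  have h7 : ‖p.2‖ = ‖v‖ := rfl
  rw [h7] at h1 h2 h3 h6
  apply le_antisymm h1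
  linarith

/-- field `vel` of `Soft`. -/
theorem vel (x : M) (e : TangentSpace (WeakMTW.model n) x) :
    ∃ E : ∀ ε : ℝ, TangentSpace (WeakMTW.model n) (WeakMTW.exp x (ε • e)),
      (∀ ε : ℝ, WeakMTW.exp (WeakMTW.exp x (ε • e)) ((-ε) • E ε) = x) ∧
      Tendsto (fun ε : ℝ => mk (WeakMTW.exp x (ε • e)) (E ε)) (𝓝 0) (𝓝 (mk x e)) := by
  have hex : ∀ ε : ℝ, ∃ w : TangentSpace (WeakMTW.model n) (WeakMTW.exp x (ε • e)),
      mk (WeakMTW.exp x (ε • e)) w = gflow ε (⟨x, e⟩ : TM n M) := by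
    intro ε
    rw [exp_smul]
    exact ⟨(gflow ε (⟨x, e⟩ : TM n M)).2, rfl⟩
  choose E hE using hex
  refine ⟨E, fun ε => ?_, ?_⟩
  · rw [exp_smul]
    have : (⟨WeakMTW.exp x (ε • e), E ε⟩ : TM n M) = gflow ε (⟨x, e⟩ : TM n M) := hE ε
    rw [this, gflow_add, neg_add_cancel, gflow_zero]
  · simp only [hE]
    have := (continuous_gflow_time (⟨x, e⟩ : TM n M)).tendsto 0
    rwa [gflow_zero] at this

/-- field `cont_exp` of `Soft`. -/
theorem cont_exp : Continuous (fun p : TM n M => WeakMTW.exp p.1 p.2) := by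
  have h : (fun p : TM n M => WeakMTW.exp p.1 p.2) = fun p : TM n M => (gflow 1 p).1 := by
    funext p
    exact exp_eq p.1 p.2
  rw [h]
  exact (FiberBundle.continuous_proj (WeakMTW.Model n)
    (fun x : M => TangentSpace (WeakMTW.model n) x)).comp (contMDiff_gflow 1).continuous

/-- **C6.3** field `nocross` of `Soft`. -/
theorem nocross (x₁ x₂ : M) (v₁ : TangentSpace (WeakMTW.model n) x₁)
    (v₂ : TangentSpace (WeakMTW.model n) x₂) (r : ℝ) (hr : 0 < r) (hr1 : r < 1)
    (h1 : v₁ ∈ Ibar x₁) (h2 : v₂ ∈ Ibar x₂) (hn : ‖v₁‖ = ‖v₂‖)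
    (he : WeakMTW.exp x₁ (r • v₁) = WeakMTW.exp x₂ (r • v₂))
    (hd : dist x₁ (WeakMTW.exp x₂ v₂) = ‖v₁‖) : mk x₁ v₁ = mk x₂ v₂ := by
  set p1 : TM n M := ⟨x₁, v₁⟩ with hp1
  set p2 : TM n M := ⟨x₂, v₂⟩ with hp2
  rw [exp_smul, exp_smul] at he
  rw [exp_eq] at hd
  have hkey : gflow r p2 = gflow r p1 := by
    refine nocorner_global p1 (gflow r p2) r (1 - r) hr (by linarith) he.symm ?_ ?_
    · rw [norm_gflow]; exact hn.symm
    · rw [gflow_add]
      have h1 : (1 - r + r : ℝ) = 1 := by ring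
      have h2 : (r + (1 - r) : ℝ) = 1 := by ring
      rw [h1, h2, one_mul]
      exact hd
  have := congrArg (gflow (-r)) hkey
  rw [gflow_add, gflow_add, neg_add_cancel, gflow_zero, gflow_zero] at this
  exact this.symm

end

end Claimed.Agent.R213.Geo
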