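import Claimed.Agent.R213.Geo.GlobalFlow

/-!
# Row 213, GEOMETRY layer, GLOBAL part, file C4: orbits of `gflow` are the complete geodesics of
`Def_0370`; `WeakMTW.exp x v = (gflow 1 ⟨x,v⟩).1`.

Near a time `t₀`: `gflow t p = gflow (t - t₀) (gflow t₀ p) = locF x₀ (t - t₀) (gflow t₀ p)`, `x₀ = (gflow t₀ p).1`
(`gflow_add`, `gflow_eq_locF`), then use the fields `vel`, `dist_eq`, `add`, `norm_eq` of `locF_spec x₀`.
Uniqueness: by `IsLocalFlow.lift_eq`, `t ↦ gflow (-t) (lift γ t)` is locally constant on `ℝ`, hence constant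
(`IsLocallyConstant.apply_eq_of_isPreconnected` / `IsLocallyConstant.exists_eq_const`).
-/

set_option autoImplicit false
set_option linter.unusedSectionVars false
open Claims Claims.C0370 Claims.C0370.WeakMTWGlobalSupport
open scoped Manifold ContDiff Topology
open Set Filter Manifold Bundle

namespace Claimed.Agent.R213.Geo

noncomputable section

variable {n : ℕ} {M : Type*} [MetricSpace M] [ChartedSpace (WeakMTW.Model n) M]
  [IsManifold (WeakMTW.model n) ∞ M]
  [RiemannianBundle (fun x : M => TangentSpace (WeakMTW.model n) x)]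
  [IsContMDiffRiemannianBundle (WeakMTW.model n) ∞ (WeakMTW.Model n)
    (fun x : M => TangentSpace (WeakMTW.model n) x)]
  [IsRiemannianManifold (WeakMTW.model n) M] [CompactSpace M]

/-- small times form a neighbourhood. -/
theorem eventually_small_time (c t R : ℝ) (hR : 0 < R) : ∀ᶠ s in 𝓝 t, |s - t| * c < R := by
  have hc : Continuous fun s : ℝ => |s - t| * c := by fun_prop
  have h := hc.tendsto t
  simp only [sub_self, abs_zero, zero_mul] at h
  exact h.eventually_lt_const hR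

/-- near `t₀` the orbit is an orbit of the local flow around `(gflow t₀ p).1`. -/
theorem gflow_eq_locF_shift (p : TM n M) {s t₀ : ℝ} (h : |s - t₀| * ‖p.2‖ < rs n M) :
    gflow s p = locF (gflow t₀ p).1 (s - t₀) (gflow t₀ p) := by
  rw [← gflow_eq_locF (by simpa using rs_pos) (by rwa [norm_gflow]), gflow_add, sub_add_cancel]

/-- equality in `TM` gives the cast of `Def_0370`. -/
theorem tm_cast_of_eq {a x : M} {w : TangentSpace (WeakMTW.model n) a}
    {v : TangentSpace (WeakMTW.model n) x} (h : (⟨a, w⟩ : TM n M) = ⟨x, v⟩) :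
    ∃ h' : a = x, (h' ▸ w) = v := by
  cases h
  exact ⟨rfl, rfl⟩

theorem tm_eq_of_cast {a x : M} {w : TangentSpace (WeakMTW.model n) a}
    {v : TangentSpace (WeakMTW.model n) x} (h' : a = x) (h : (h' ▸ w) = v) :
    (⟨a, w⟩ : TM n M) = ⟨x, v⟩ := by
  subst h'
  subst h
  rfl

/-- linear reparametrisation of a lift. -/
theorem lift_comp_mul (γ : ℝ → M) (a t : ℝ)
    (h : MDifferentiableAt 𝓘(ℝ, ℝ) (WeakMTW.model n) γ (a * t)) :
    lift (n := n) (fun s => γ (a * s)) t = scal a (lift γ (a * t)) := by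
  have hf : MDifferentiableAt 𝓘(ℝ, ℝ) 𝓘(ℝ, ℝ) (fun s : ℝ => a * s) t :=
    ((differentiableAt_id).const_mul a).mdifferentiableAt
  have h1 := mfderiv_comp (I := 𝓘(ℝ, ℝ)) (I' := 𝓘(ℝ, ℝ)) (I'' := WeakMTW.model n) t
    (g := γ) (f := fun s : ℝ => a * s) h hf
  have h2 : mfderiv 𝓘(ℝ, ℝ) 𝓘(ℝ, ℝ) (fun s : ℝ => a * s) t (1 : ℝ) = a := by
    have hd : HasDerivAt (fun s : ℝ => a * s) a t := by
      simpa using (hasDerivAt_id t).const_mul a
    have e : (ContinuousLinearMap.toSpanSingleton ℝ a : ℝ →L[ℝ] ℝ) (1 : ℝ) = a := by simp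
    rw [hd.hasFDerivAt.hasMFDerivAt.mfderiv]
    exact e
  have aux : ∀ (L : ℝ →L[ℝ] WeakMTW.Model n), L a = a • L 1 := by
    intro L
    have := L.map_smul a 1
    rwa [smul_eq_mul, mul_one] at this
  have h3 : mfderiv 𝓘(ℝ, ℝ) (WeakMTW.model n) (fun s => γ (a * s)) t (1 : ℝ)
      = a • mfderiv 𝓘(ℝ, ℝ) (WeakMTW.model n) γ (a * t) (1 : ℝ) := by
    have h4 : (fun s => γ (a * s)) = γ ∘ fun s : ℝ => a * s := rfl
    rw [h4, h1]
    exact (congrArg (mfderiv 𝓘(ℝ, ℝ) (WeakMTW.model n) γ (a * t)) h2).trans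
      (aux (mfderiv 𝓘(ℝ, ℝ) (WeakMTW.model n) γ (a * t)))
  unfold lift scal
  simp only
  rw [h3]

/-- **C4.1** velocity of an orbit. -/
theorem lift_gflow (p : TM n M) (t : ℝ) : lift (fun s => (gflow s p).1) t = gflow t p := by
  obtain ⟨N0, N1, N2, r, hF, hball, hr⟩ := locF_spec (n := n) (gflow t p).1
  have hrs := rs_pos (n := n) (M := M)
  have hq0 : (gflow t p).1 ∈ N0 := hball (Metric.mem_ball_self (by linarith))
  have hv := hF.vel (gflow t p) 0 (hF.sub01 hq0) (by simpa using hF.r_pos)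
  have hev : (fun s => (gflow s p).1) =ᶠ[𝓝 t]
      fun s => (locF (gflow t p).1 (s - t) (gflow t p)).1 := by
    filter_upwards [eventually_small_time ‖p.2‖ t _ hrs] with s hs
    rw [gflow_eq_locF_shift p hs]
  rw [lift_congr hev, lift_comp_sub (fun s => (locF (gflow t p).1 s (gflow t p)).1) t t
    (by rw [sub_self]; exact hv.1.mdifferentiableAt (by simp)), sub_self, hv.2,
    hF.zero _ (hF.sub12 (hF.sub01 hq0))]

theorem contMDiff_gflow_proj (p : TM n M) :
    ContMDiff 𝓘(ℝ, ℝ) (WeakMTW.model n) ∞ (fun s => (gflow s p).1) := by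
  intro t
  obtain ⟨N0, N1, N2, r, hF, hball, hr⟩ := locF_spec (n := n) (gflow t p).1
  have hrs := rs_pos (n := n) (M := M)
  have hq0 : (gflow t p).1 ∈ N0 := hball (Metric.mem_ball_self (by linarith))
  have hv := hF.vel (gflow t p) 0 (hF.sub01 hq0) (by simpa using hF.r_pos)
  have hev : (fun s => (gflow s p).1) =ᶠ[𝓝 t]
      fun s => (locF (gflow t p).1 (s - t) (gflow t p)).1 := by
    filter_upwards [eventually_small_time ‖p.2‖ t _ hrs] with s hs
    rw [gflow_eq_locF_shift p hs]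
  have h1 : ContMDiffAt 𝓘(ℝ, ℝ) 𝓘(ℝ, ℝ) ∞ (fun s : ℝ => s - t) t :=
    (contDiff_id.sub contDiff_const).contMDiff.contMDiffAt
  have hcomp : ContMDiffAt 𝓘(ℝ, ℝ) (WeakMTW.model n) ∞
      (fun s => (locF (gflow t p).1 (s - t) (gflow t p)).1) t :=
    ContMDiffAt.comp (g := fun s => (locF (gflow t p).1 s (gflow t p)).1) t
      (by rw [sub_self]; exact hv.1) h1
  exact hcomp.congr_of_eventuallyEq hev

/-- **C4.2** orbits are locally distance realising, with a uniform scale. -/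
theorem dist_gflow_small (p : TM n M) {s t : ℝ} (h : |t - s| * ‖p.2‖ < rs n M) :
    dist (gflow s p).1 (gflow t p).1 = |t - s| * ‖p.2‖ := by
  obtain ⟨N0, N1, N2, r, hF, hball, hr⟩ := locF_spec (n := n) (gflow s p).1
  have hrs := rs_pos (n := n) (M := M)
  have hq0 : (gflow s p).1 ∈ N0 := hball (Metric.mem_ball_self (by linarith))
  rw [gflow_eq_locF_shift p h, hF.dist_eq _ _ (hF.sub01 hq0) (by rw [norm_gflow]; linarith),
    norm_gflow]

/-- **C4.3** -/
theorem gflow_geodesic (x : M) (v : TangentSpace (WeakMTW.model n) x) :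
    WeakMTW.CompleteGeodesicWithInitialData x v (fun t => (gflow t (⟨x, v⟩ : TM n M)).1) := by
  refine ⟨contMDiff_gflow_proj _, ?_⟩
  have h0 := lift_gflow (⟨x, v⟩ : TM n M) 0
  rw [gflow_zero] at h0
  obtain ⟨h', hv⟩ := tm_cast_of_eq h0
  refine ⟨h', hv, fun t => ?_⟩
  have hrs := rs_pos (n := n) (M := M)
  refine ⟨rs n M / (2 * (‖v‖ + 1)), by positivity, fun s hs r hr => ?_⟩
  rw [Metric.mem_ball, Real.dist_eq] at hs hr
  have hpos : 0 < 2 * (‖v‖ + 1) := by positivity
  have h1 : |r - s| < 2 * (rs n M / (2 * (‖v‖ + 1))) := by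
    have : r - s = (r - t) - (s - t) := by ring
    rw [this]
    calc |(r - t) - (s - t)| ≤ |r - t| + |s - t| := abs_sub _ _
      _ < _ := by linarith
  have h2 : |r - s| * ‖v‖ < rs n M := by
    have h3 : 2 * (rs n M / (2 * (‖v‖ + 1))) * (‖v‖ + 1) = rs n M := by field_simp
    have h4 : |r - s| * ‖v‖ ≤ |r - s| * (‖v‖ + 1) := by gcongr; linarith
    have h5 : |r - s| * (‖v‖ + 1) < 2 * (rs n M / (2 * (‖v‖ + 1))) * (‖v‖ + 1) := by gcongr
    linarith
  rw [dist_gflow_small (⟨x, v⟩ : TM n M) h2, abs_sub_comm, mul_comm]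

/-- **C4.4** uniqueness of complete geodesics. -/
theorem gflow_unique {x : M} {v : TangentSpace (WeakMTW.model n) x} {γ : ℝ → M}
    (h : WeakMTW.CompleteGeodesicWithInitialData x v γ) (t : ℝ) :
    lift γ t = gflow t (⟨x, v⟩ : TM n M) := by
  obtain ⟨-, h0, hv0, hloc⟩ := h
  have hrs := rs_pos (n := n) (M := M)
  have hstart : lift (n := n) γ 0 = ⟨x, v⟩ := tm_eq_of_cast h0 hv0
  have hlc : IsLocallyConstant (fun t => gflow (-t) (lift (n := n) γ t)) := by
    rw [IsLocallyConstant.iff_eventually_eq]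
    intro t₀
    obtain ⟨ε, hε, hiso⟩ := hloc t₀
    obtain ⟨N0, N1, N2, r, hF, hball, hr⟩ := locF_spec (n := n) (γ t₀)
    obtain ⟨η, hη, hηε, hηv⟩ : ∃ η : ℝ, 0 < η ∧ η ≤ ε ∧ 2 * η * ‖v‖ < rs n M := by
      refine ⟨min ε (rs n M / (2 * (‖v‖ + 1)) / 2), by positivity, min_le_left _ _, ?_⟩
      have h1 : min ε (rs n M / (2 * (‖v‖ + 1)) / 2) ≤ rs n M / (2 * (‖v‖ + 1)) / 2 :=
        min_le_right _ _
      have h2 : 2 * (rs n M / (2 * (‖v‖ + 1)) / 2) * (‖v‖ + 1) = rs n M / 2 := by field_simp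
      have h3 : 2 * min ε (rs n M / (2 * (‖v‖ + 1)) / 2) * ‖v‖
          ≤ 2 * (rs n M / (2 * (‖v‖ + 1)) / 2) * (‖v‖ + 1) := by
        gcongr
        linarith
      linarith
    have hsub : ∀ s ∈ Ioo (t₀ - η) (t₀ + η), s ∈ Metric.ball t₀ ε := by
      intro s hs
      rw [Metric.mem_ball, Real.dist_eq, abs_lt]
      constructor <;> linarith [hs.1, hs.2]
    have ht₀ : t₀ ∈ Ioo (t₀ - η) (t₀ + η) := ⟨by linarith, by linarith⟩
    have habs : ∀ s ∈ Ioo (t₀ - η) (t₀ + η), |s - t₀| < η := by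
      intro s hs
      rw [abs_lt]
      constructor <;> linarith [hs.1, hs.2]
    have key := hF.lift_eq (γ := γ) (lam := ‖v‖) (a := t₀ - η) (b := t₀ + η) (norm_nonneg _)
      (by
        have : t₀ + η - (t₀ - η) = 2 * η := by ring
        rw [this]; linarith)
      (fun s hs => hball (by
        rw [Metric.mem_ball, hiso s (hsub s hs) t₀ (hsub t₀ ht₀)]
        have := habs s hs
        have h1 : ‖v‖ * |s - t₀| ≤ ‖v‖ * η := by gcongr
        nlinarith [norm_nonneg v]))
      (fun s hs s' hs' => hiso s (hsub s hs) s' (hsub s' hs'))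
    filter_upwards [Ioo_mem_nhds ht₀.1 ht₀.2] with s hs
    obtain ⟨h1, h2⟩ := key t₀ ht₀ s hs
    have h3 : gflow (s - t₀) (lift (n := n) γ t₀) = locF (γ t₀) (s - t₀) (lift γ t₀) := by
      refine gflow_eq_locF ?_ ?_
      · change dist (γ t₀) (γ t₀) < _
        simpa using hrs
      · rw [h2]
        have := habs s hs
        have h1 : |s - t₀| * ‖v‖ ≤ η * ‖v‖ := by gcongr
        nlinarith [norm_nonneg v]
    rw [h1, ← h3, gflow_add]
    congr 1
    ring
  have hconst := hlc.apply_eq_of_isPreconnected isPreconnected_univ (mem_univ t) (mem_univ (0 : ℝ))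
  simp only [neg_zero, gflow_zero, hstart] at hconst
  rw [← hconst, gflow_add, add_neg_cancel, gflow_zero]

/-- **C4.5** -/
theorem exp_eq (x : M) (v : TangentSpace (WeakMTW.model n) x) :
    WeakMTW.exp x v = (gflow 1 (⟨x, v⟩ : TM n M)).1 := by
  have hex : ∃ y, WeakMTW.ExpEndpoint x v y := ⟨_, _, gflow_geodesic x v, rfl⟩
  unfold WeakMTW.exp
  rw [dif_pos hex]
  obtain ⟨γ, hγ, h1⟩ := Classical.choose_spec hex
  rw [← h1]
  exact congrArg (fun q : TM n M => q.1) (gflow_unique hγ 1)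

/-- **C4.6** homogeneity. -/
theorem gflow_scal (a t : ℝ) (p : TM n M) : gflow t (scal a p) = scal a (gflow (a * t) p) := by
  have hrs := rs_pos (n := n) (M := M)
  have hlift : ∀ s, lift (n := n) (fun s => (gflow (a * s) p).1) s = scal a (gflow (a * s) p) := by
    intro s
    rw [lift_comp_mul (fun s => (gflow s p).1) a s
      ((contMDiff_gflow_proj p).mdifferentiable (by simp) _), lift_gflow]
  have hgeo : WeakMTW.CompleteGeodesicWithInitialData p.1 (a • p.2)
      (fun s => (gflow (a * s) p).1) := by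
    refine ⟨?_, ?_⟩
    · have h1 : ContMDiff 𝓘(ℝ, ℝ) 𝓘(ℝ, ℝ) ∞ (fun s : ℝ => a * s) :=
        (contDiff_const.mul contDiff_id).contMDiff
      exact (contMDiff_gflow_proj p).comp h1
    · have h0 := hlift 0
      rw [mul_zero, gflow_zero] at h0
      obtain ⟨h', hv⟩ := tm_cast_of_eq h0
      refine ⟨h', hv, fun t => ?_⟩
      refine ⟨rs n M / (2 * (‖a • p.2‖ + 1)), by positivity, fun s hs r hr => ?_⟩
      rw [Metric.mem_ball, Real.dist_eq] at hs hr
      have h1 : |r - s| < 2 * (rs n M / (2 * (‖a • p.2‖ + 1))) := by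
        have : r - s = (r - t) - (s - t) := by ring
        rw [this]
        calc |(r - t) - (s - t)| ≤ |r - t| + |s - t| := abs_sub _ _
          _ < _ := by linarith
      have h2 : |r - s| * ‖a • p.2‖ < rs n M := by
        have h3 : 2 * (rs n M / (2 * (‖a • p.2‖ + 1))) * (‖a • p.2‖ + 1) = rs n M := by
          field_simp
        have h4 : |r - s| * ‖a • p.2‖ ≤ |r - s| * (‖a • p.2‖ + 1) := by gcongr; linarith
        have h5 : |r - s| * (‖a • p.2‖ + 1)
            < 2 * (rs n M / (2 * (‖a • p.2‖ + 1))) * (‖a • p.2‖ + 1) := by gcongr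
        linarith
      have h6 : |a * r - a * s| * ‖p.2‖ = |r - s| * ‖a • p.2‖ := by
        rw [← mul_sub, abs_mul, norm_smul, Real.norm_eq_abs]; ring
      rw [dist_gflow_small p (by rw [h6]; exact h2), h6, abs_sub_comm, mul_comm]
  have := gflow_unique hgeo t
  rw [hlift] at this
  exact this.symm

theorem exp_smul (x : M) (v : TangentSpace (WeakMTW.model n) x) (t : ℝ) :
    WeakMTW.exp x (t • v) = (gflow t (⟨x, v⟩ : TM n M)).1 := by
  rw [exp_eq]
  have := gflow_scal t 1 (⟨x, v⟩ : TM n M)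
  rw [mul_one] at this
  have h2 := congrArg (fun q : TM n M => q.1) this
  exact h2

/-- reversibility. -/
theorem gflow_flip (t : ℝ) (p : TM n M) : gflow t (scal (-1) (gflow t p)) = scal (-1) p := by
  rw [gflow_scal, gflow_add]
  have : -1 * t + t = 0 := by ring
  rw [this, gflow_zero]

end

end Claimed.Agent.R213.Geo
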