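import Mathlib

/-!
# Row 213, GEOMETRY layer, GLOBAL part, file C2: a local one-parameter group with uniform time
extends to a global one (pure algebra).

`Φ t p = (S (t/N))^[N] p` with `N = ⌈|t| ν p / rs⌉₊ + 1`.  Steps: `(S τ)^[j] p = S (j τ) p` while `|j τ| ν p < rs`;
independence of `N` (compare `N` and `N K`); small `S a`, `S b` commute; group law with a common large `N`.

Implementation: the algebra is done for a local homomorphism `f : ℝ → M` into a monoid
(`ge_monoid_ext`), and applied to `M = Function.End {q // ν q = c}` for every level `c`.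
-/

set_option autoImplicit false

namespace Claimed.Agent.R213.Geo

section monoid

variable {M : Type*} [Monoid M] {c rs : ℝ} {f : ℝ → M}

theorem ge_sm_mono (hc : 0 ≤ c) {t u : ℝ} (h : |t| * c < rs) (hu : |u| ≤ |t|) : |u| * c < rs :=
  lt_of_le_of_lt (mul_le_mul_of_nonneg_right hu hc) h

theorem ge_pow_eq (hc : 0 ≤ c) (h0 : f 0 = 1)
    (hadd : ∀ s t, |s| * c < rs → |t| * c < rs → |s + t| * c < rs → f (s + t) = f s * f t)
    (τ : ℝ) (j : ℕ) (h : |(j : ℝ) * τ| * c < rs) : f τ ^ j = f (j * τ) := by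
  induction j with
  | zero => simp [h0]
  | succ j ih =>
    have e : ((j + 1 : ℕ) : ℝ) * τ = j * τ + τ := by push_cast; ring
    have h1 : |(j : ℝ) * τ| ≤ |((j + 1 : ℕ) : ℝ) * τ| := by
      rw [abs_mul, abs_mul, Nat.abs_cast, Nat.abs_cast]
      push_cast
      nlinarith [abs_nonneg τ]
    have h2 : |τ| ≤ |((j + 1 : ℕ) : ℝ) * τ| := by
      rw [abs_mul, Nat.abs_cast]
      push_cast
      nlinarith [abs_nonneg τ, (Nat.cast_nonneg j : (0 : ℝ) ≤ j)]
    rw [pow_succ, ih (ge_sm_mono hc h h1), e,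
      hadd _ _ (ge_sm_mono hc h h1) (ge_sm_mono hc h h2) (by rw [← e]; exact h)]

theorem ge_pow_mul (hc : 0 ≤ c) (h0 : f 0 = 1)
    (hadd : ∀ s t, |s| * c < rs → |t| * c < rs → |s + t| * c < rs → f (s + t) = f s * f t)
    (t : ℝ) (N K : ℕ) (hN : 0 < N) (hK : 0 < K) (h : |t / N| * c < rs) :
    f (t / ((N * K : ℕ) : ℝ)) ^ (N * K) = f (t / N) ^ N := by
  have hN' : (N : ℝ) ≠ 0 := by positivity
  have hK' : (K : ℝ) ≠ 0 := by positivity
  have e : (K : ℝ) * (t / ((N * K : ℕ) : ℝ)) = t / N := by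
    push_cast
    field_simp
  rw [pow_mul', ge_pow_eq hc h0 hadd _ K (by rw [e]; exact h), e]

theorem ge_pow_indep (hc : 0 ≤ c) (h0 : f 0 = 1)
    (hadd : ∀ s t, |s| * c < rs → |t| * c < rs → |s + t| * c < rs → f (s + t) = f s * f t)
    (t : ℝ) (N K : ℕ) (hN : 0 < N) (hK : 0 < K) (h : |t / N| * c < rs) (h' : |t / K| * c < rs) :
    f (t / N) ^ N = f (t / K) ^ K := by
  rw [← ge_pow_mul hc h0 hadd t N K hN hK h, ← ge_pow_mul hc h0 hadd t K N hK hN h', Nat.mul_comm]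

theorem ge_exists_N (hrs : 0 < rs) (t : ℝ) :
    ∃ N : ℕ, 0 < N ∧ ∀ N' : ℕ, N ≤ N' → |t / N'| * c < rs := by
  refine ⟨⌈|t| * c / rs⌉₊ + 1, Nat.succ_pos _, fun N' hN' => ?_⟩
  have h1 : |t| * c / rs < N' := by
    calc |t| * c / rs ≤ (⌈|t| * c / rs⌉₊ : ℝ) := Nat.le_ceil _
      _ < ((⌈|t| * c / rs⌉₊ + 1 : ℕ) : ℝ) := by push_cast; linarith
      _ ≤ N' := by exact_mod_cast hN'
  have hpos : (0 : ℝ) < N' := by
    have : 0 < N' := lt_of_lt_of_le (Nat.succ_pos _) hN'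
    exact_mod_cast this
  rw [div_lt_iff₀ hrs] at h1
  rw [abs_div, Nat.abs_cast, div_mul_eq_mul_div, div_lt_iff₀ hpos]
  linarith

/-- a local homomorphism from an interval around `0` to a monoid extends to `ℝ`. -/
theorem ge_monoid_ext (hrs : 0 < rs) (hc : 0 ≤ c) (h0 : f 0 = 1)
    (hadd : ∀ s t, |s| * c < rs → |t| * c < rs → |s + t| * c < rs → f (s + t) = f s * f t) :
    ∃ F : ℝ → M, (∀ s t, F (s + t) = F s * F t) ∧ ∀ t, |t| * c < rs → F t = f t := by
  choose N hN0 hN using ge_exists_N (c := c) hrs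
  refine ⟨fun t => f (t / N t) ^ N t, fun s t => ?_, fun t ht => ?_⟩
  · obtain ⟨K, hKdef⟩ : ∃ K : ℕ, K = N s + N t + N (s + t) := ⟨_, rfl⟩
    have hK : 0 < K := by have := hN0 s; omega
    have a1 : |s / K| * c < rs := hN s K (by omega)
    have a2 : |t / K| * c < rs := hN t K (by omega)
    have a3 : |(s + t) / K| * c < rs := hN (s + t) K (by omega)
    have e1 : f (s / N s) ^ N s = f (s / K) ^ K :=
      ge_pow_indep hc h0 hadd s _ K (hN0 s) hK (hN s _ le_rfl) a1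
    have e2 : f (t / N t) ^ N t = f (t / K) ^ K :=
      ge_pow_indep hc h0 hadd t _ K (hN0 t) hK (hN t _ le_rfl) a2
    have e3 : f ((s + t) / N (s + t)) ^ N (s + t) = f ((s + t) / K) ^ K :=
      ge_pow_indep hc h0 hadd (s + t) _ K (hN0 _) hK (hN _ _ le_rfl) a3
    show f ((s + t) / N (s + t)) ^ N (s + t) = f (s / N s) ^ N s * f (t / N t) ^ N t
    rw [e1, e2, e3]
    have hab : f ((s + t) / K) = f (s / K) * f (t / K) := by
      rw [add_div]
      exact hadd _ _ a1 a2 (by rw [← add_div]; exact a3)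
    have hba : f ((s + t) / K) = f (t / K) * f (s / K) := by
      rw [add_comm s t, add_div]
      exact hadd _ _ a2 a1 (by rw [← add_div, add_comm t s]; exact a3)
    have hcomm : Commute (f (s / K)) (f (t / K)) := hab.symm.trans hba
    rw [hab, hcomm.mul_pow]
  · have := ge_pow_indep hc h0 hadd t (N t) 1 (hN0 t) one_pos (hN t _ le_rfl) (by simpa using ht)
    simpa using this

end monoid

theorem exists_group_extension {X : Type*} (ν : X → ℝ) (hν0 : ∀ p, 0 ≤ ν p) (S : ℝ → X → X)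
    {rs : ℝ} (hrs : 0 < rs) (hν : ∀ p t, |t| * ν p < rs → ν (S t p) = ν p) (h0 : ∀ p, S 0 p = p)
    (hadd : ∀ p s t, |s| * ν p < rs → |t| * ν p < rs → |s + t| * ν p < rs →
      S s (S t p) = S (s + t) p) :
    ∃ Φ : ℝ → X → X, (∀ s t p, Φ s (Φ t p) = Φ (s + t) p) ∧
      (∀ p t, |t| * ν p < rs → Φ t p = S t p) ∧ ∀ t p, ν (Φ t p) = ν p := by
  classical
  have key : ∀ c : ℝ, 0 ≤ c → ∃ F : ℝ → {q : X // ν q = c} → {q : X // ν q = c},
      (∀ s t q, F (s + t) q = F s (F t q)) ∧ ∀ t, |t| * c < rs → ∀ q, (F t q).1 = S t q.1 := by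
    intro c hc
    obtain ⟨f, hf⟩ : ∃ f : ℝ → {q : X // ν q = c} → {q : X // ν q = c},
        ∀ t, |t| * c < rs → ∀ q, (f t q).1 = S t q.1 := by
      refine ⟨fun t => if h : |t| * c < rs then
        (fun q => ⟨S t q.1, by rw [hν q.1 t (by rw [q.2]; exact h), q.2]⟩) else id, ?_⟩
      intro t ht q
      simp only [dif_pos ht]
    obtain ⟨F, hF1, hF2⟩ := ge_monoid_ext (M := Function.End {q : X // ν q = c}) (f := f) hrs hc
      (by
        funext q
        apply Subtype.ext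
        rw [hf 0 (by simpa using hrs)]
        exact h0 q.1)
      (by
        intro s t hs ht hst
        funext q
        apply Subtype.ext
        rw [hf _ hst]
        show _ = (f s (f t q)).1
        rw [hf s hs, hf t ht, hadd q.1 s t (by rw [q.2]; exact hs) (by rw [q.2]; exact ht)
          (by rw [q.2]; exact hst)])
    refine ⟨F, fun s t q => ?_, fun t ht q => ?_⟩
    · exact congrFun (hF1 s t) q
    · have h1 : F t q = f t q := congrFun (hF2 t ht) q
      rw [h1, hf t ht]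
  choose F hF1 hF2 using key
  have tr : ∀ (c : ℝ) (hc : 0 ≤ c) (q : X) (h : ν q = c) (s : ℝ),
      (F (ν q) (hν0 q) s ⟨q, rfl⟩).1 = (F c hc s ⟨q, h⟩).1 := by
    intro c hc q h s
    subst h
    rfl
  refine ⟨fun t p => (F (ν p) (hν0 p) t ⟨p, rfl⟩).1, ?_, ?_, ?_⟩
  · intro s t p
    show (F (ν _) _ s ⟨(F (ν p) (hν0 p) t ⟨p, rfl⟩).1, rfl⟩).1
      = (F (ν p) (hν0 p) (s + t) ⟨p, rfl⟩).1
    rw [tr (ν p) (hν0 p) _ (F (ν p) (hν0 p) t ⟨p, rfl⟩).2 s, hF1]
  · intro p t ht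
    exact hF2 _ _ t ht _
  · intro t p
    exact (F (ν p) (hν0 p) t ⟨p, rfl⟩).2

end Claimed.Agent.R213.Geo
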