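import Claimed.Agent.R213.Geo.LFReg
import Claimed.Agent.R213.Geo.TMTop

/-!
# Row 213, GEOMETRY layer, LEVEL B, file B2e: first variation formula for the chart flow
(`fv` of `IsLocalFlow`).

Transport `GMetric.first_variation` by the diffeomorphism `tcoord c`.  With `q = tcoord c p`,
`q̇ = mfderiv (tcoord c) p ξ`:  `theta p ξ = G.g q.1 q.2 q̇.1` (because `φ ∘ π = fst ∘ tcoord c`),
`dEn p ξ = fderiv G.energy q q̇` (because `En = G.energy ∘ tcoord c` near `p`, `norm_eq_nrm`),
`mfderiv (tcoord c) (LF t p) (mfderiv (LF t) p ξ) = fderiv (G.flow t) q q̇` (`tcoord_LF` near `p`).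
-/

set_option autoImplicit false
set_option linter.unusedSectionVars false
open Claims Claims.C0370 Claims.C0370.WeakMTWGlobalSupport
open scoped Manifold ContDiff Topology
open Set Filter Manifold Bundle

namespace Claimed.Agent.R213.Geo

noncomputable section

variable {n : ℕ} {M : Type*} [MetricSpace M] [ChartedSpace (WeakMTW.Model n) M]
  [IsManifold (WeakMTW.model n) ∞ M]
  [RiemannianBundle (fun x : M => TangentSpace (WeakMTW.model n) x)]
  [IsContMDiffRiemannianBundle (WeakMTW.model n) ∞ (WeakMTW.Model n)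
    (fun x : M => TangentSpace (WeakMTW.model n) x)]
  [IsRiemannianManifold (WeakMTW.model n) M]

theorem lfv_mdifferentiableAt_tcoord {c : M} {p : TM n M}
    (hp : p.1 ∈ (chartAt (WeakMTW.Model n) c).source) :
    MDifferentiableAt (WeakMTW.model n).tangent 𝓘(ℝ, WeakMTW.Model n × WeakMTW.Model n)
      (tcoord c) p :=
  ((contMDiffOn_tcoord c).contMDiffAt ((isOpen_tsource c).mem_nhds hp)).mdifferentiableAt (by simp)

theorem lfv_mdifferentiableAt_proj (p : TM n M) :
    MDifferentiableAt (WeakMTW.model n).tangent (WeakMTW.model n) (fun q : TM n M => q.1) p :=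
  ((Bundle.contMDiff_proj (IB := WeakMTW.model n) (n := ∞) (F := WeakMTW.Model n)
    (TangentSpace (WeakMTW.model n) : M → Type _)).contMDiffAt).mdifferentiableAt (by simp)

/-- the first component of the derivative of the coordinates. -/
theorem lfv_mfderiv_tcoord_fst {c : M} {p : TM n M}
    (hp : p.1 ∈ (chartAt (WeakMTW.Model n) c).source)
    (ξ : TangentSpace (WeakMTW.model n).tangent p) :
    (show WeakMTW.Model n × WeakMTW.Model n from
        mfderiv (WeakMTW.model n).tangent 𝓘(ℝ, WeakMTW.Model n × WeakMTW.Model n)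
          (tcoord c) p ξ).1
      = mfderiv (WeakMTW.model n) 𝓘(ℝ, WeakMTW.Model n) (extChartAt (WeakMTW.model n) c) p.1
        (mfderiv (WeakMTW.model n).tangent (WeakMTW.model n) (fun q : TM n M => q.1) p ξ) := by
  have h1 := (mdifferentiableAt_extChartAt (I := WeakMTW.model n) hp).hasMFDerivAt.comp p
    (lfv_mdifferentiableAt_proj p).hasMFDerivAt
  have hfst : HasMFDerivAt 𝓘(ℝ, WeakMTW.Model n × WeakMTW.Model n) 𝓘(ℝ, WeakMTW.Model n)
      (Prod.fst : WeakMTW.Model n × WeakMTW.Model n → WeakMTW.Model n) (tcoord c p)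
      (ContinuousLinearMap.fst ℝ (WeakMTW.Model n) (WeakMTW.Model n)) :=
    (hasFDerivAt_fst).hasMFDerivAt
  have h2 := hfst.comp p (lfv_mdifferentiableAt_tcoord hp).hasMFDerivAt
  have h3 := hasMFDerivAt_unique h2 h1
  exact congrArg (fun L => L ξ) h3

namespace ChartData

variable {c : M} (D : ChartData (n := n) c)

/-- `theta` in coordinates. -/
theorem theta_eq {p : TM n M} (hp : p.1 ∈ D.reg D.R)
    (ξ : TangentSpace (WeakMTW.model n).tangent p) :
    theta p ξ = D.G.g (tcoord c p).1 (tcoord c p).2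
      (show WeakMTW.Model n × WeakMTW.Model n from
        mfderiv (WeakMTW.model n).tangent 𝓘(ℝ, WeakMTW.Model n × WeakMTW.Model n)
          (tcoord c) p ξ).1 := by
  rw [theta, inner_eq_gChart hp.1, ← D.eq _ hp.2, lfv_mfderiv_tcoord_fst hp.1]
  rfl

/-- the energy in coordinates. -/
theorem En_eq {p : TM n M} (hp : p.1 ∈ D.reg D.R) : En p = D.G.energy (tcoord c p) := by
  rw [En, D.norm_eq_nrm hp, GMetric.nrm_sq, GMetric.energy]

/-- `dEn` in coordinates. -/
theorem dEn_eq {p : TM n M} (hp : p.1 ∈ D.reg D.R)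
    (ξ : TangentSpace (WeakMTW.model n).tangent p) :
    dEn p ξ = fderiv ℝ D.G.energy (tcoord c p)
      (show WeakMTW.Model n × WeakMTW.Model n from
        mfderiv (WeakMTW.model n).tangent 𝓘(ℝ, WeakMTW.Model n × WeakMTW.Model n)
          (tcoord c) p ξ) := by
  have hopen : IsOpen {q : TM n M | q.1 ∈ D.reg D.R} :=
    (D.isOpen_reg D.R).preimage
      (FiberBundle.continuous_proj (WeakMTW.Model n) (TangentSpace (WeakMTW.model n)))
  have hev : (En (n := n) (M := M)) =ᶠ[𝓝 p] (D.G.energy ∘ tcoord c) := by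
    filter_upwards [hopen.mem_nhds hp] with q hq
    exact D.En_eq hq
  have hE : HasMFDerivAt 𝓘(ℝ, WeakMTW.Model n × WeakMTW.Model n) 𝓘(ℝ, ℝ) D.G.energy (tcoord c p)
      (fderiv ℝ D.G.energy (tcoord c p)) :=
    ((D.G.contDiff_energy.differentiable (by simp)) _).hasFDerivAt.hasMFDerivAt
  have h2 := hE.comp p (lfv_mdifferentiableAt_tcoord hp.1).hasMFDerivAt
  rw [dEn, hev.mfderiv_eq, h2.mfderiv]
  rfl

theorem LF_fv {p : TM n M} {t : ℝ} (hp : p.1 ∈ D.reg D.ρ) (ht : |t| * ‖p.2‖ < D.r)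
    (ξ : TangentSpace (WeakMTW.model n).tangent p) :
    theta (D.LF t p) (mfderiv (WeakMTW.model n).tangent (WeakMTW.model n).tangent (D.LF t) p ξ)
      - theta p ξ = t * dEn p ξ := by
  have hρ : 0 < D.ρ := D.normal.ρ_pos
  have hs : D.ρ + D.ρ / 4 ≤ D.R := by linarith [D.ρ_le]
  have hpR : p.1 ∈ D.reg D.R := D.reg_mono (by linarith [D.ρ_le]) hp
  have hLR : (D.LF t p).1 ∈ D.reg D.R := D.LF_stay1 hp ht
  have hc := (D.tcoord_LF hs hp ht).1
  have hopen : IsOpen {q : TM n M | q.1 ∈ D.reg D.ρ ∧ |t| * ‖q.2‖ < D.r} :=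
    ((D.isOpen_reg D.ρ).preimage
      (FiberBundle.continuous_proj (WeakMTW.Model n) (TangentSpace (WeakMTW.model n)))).inter
      (isOpen_lt (continuous_const.mul continuous_norm_tm) continuous_const)
  have hev : (tcoord c ∘ D.LF t) =ᶠ[𝓝 p] (D.G.flow t ∘ tcoord c) := by
    filter_upwards [hopen.mem_nhds ⟨hp, ht⟩] with q hq
    exact (D.tcoord_LF hs hq.1 hq.2).1
  have h1 := (lfv_mdifferentiableAt_tcoord hLR.1).hasMFDerivAt.comp p
    ((D.LF_smooth hp ht).mdifferentiableAt (by simp)).hasMFDerivAt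
  have hF : HasMFDerivAt 𝓘(ℝ, WeakMTW.Model n × WeakMTW.Model n)
      𝓘(ℝ, WeakMTW.Model n × WeakMTW.Model n) (D.G.flow t) (tcoord c p)
      (fderiv ℝ (D.G.flow t) (tcoord c p)) :=
    (((D.G.contDiff_flow_time t).differentiable (by simp)) _).hasFDerivAt.hasMFDerivAt
  have h2 := hF.comp p (lfv_mdifferentiableAt_tcoord hpR.1).hasMFDerivAt
  have h3 := hasMFDerivAt_unique h1 (h2.congr_of_eventuallyEq hev)
  have h4 : (show WeakMTW.Model n × WeakMTW.Model n from
        mfderiv (WeakMTW.model n).tangent 𝓘(ℝ, WeakMTW.Model n × WeakMTW.Model n) (tcoord c)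
          (D.LF t p)
          (mfderiv (WeakMTW.model n).tangent (WeakMTW.model n).tangent (D.LF t) p ξ))
      = fderiv ℝ (D.G.flow t) (tcoord c p)
        (show WeakMTW.Model n × WeakMTW.Model n from
          mfderiv (WeakMTW.model n).tangent 𝓘(ℝ, WeakMTW.Model n × WeakMTW.Model n)
            (tcoord c) p ξ) := congrArg (fun L => L ξ) h3
  rw [D.theta_eq hLR, D.theta_eq hpR, D.dEn_eq hpR, h4, hc]
  exact D.G.first_variation t (tcoord c p) _

end ChartData

end

end Claimed.Agent.R213.Geo
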