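import Claimed.Agent.R213.Geo.LFCorner
import Claimed.Agent.R213.Geo.LFVar

/-!
# Row 213, GEOMETRY layer, LEVEL B, file B2f: assembly of the local package.
-/

set_option autoImplicit false
set_option linter.unusedSectionVars false
open Claims Claims.C0370 Claims.C0370.WeakMTWGlobalSupport
open scoped Manifold ContDiff Topology
open Set Filter Manifold Bundle

namespace Claimed.Agent.R213.Geo

noncomputable section

variable {n : ℕ} {M : Type*} [MetricSpace M] [ChartedSpace (WeakMTW.Model n) M]
  [IsManifold (WeakMTW.model n) ∞ M]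
  [RiemannianBundle (fun x : M => TangentSpace (WeakMTW.model n) x)]
  [IsContMDiffRiemannianBundle (WeakMTW.model n) ∞ (WeakMTW.Model n)
    (fun x : M => TangentSpace (WeakMTW.model n) x)]
  [IsRiemannianManifold (WeakMTW.model n) M]

theorem ChartData.isLocalFlow {c : M} (D : ChartData (n := n) c) :
    IsLocalFlow (D.reg (D.ρ / 2)) (D.reg D.ρ) (D.reg D.R) D.r D.LF where
  open0 := D.isOpen_reg _
  open1 := D.isOpen_reg _
  sub01 := D.reg_mono (by have := D.normal.ρ_pos; linarith)
  sub12 := D.reg_mono (by have := D.normal.ρ_pos; have := D.ρ_le; linarith)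
  r_pos := D.normal.r_pos
  zero := fun _ hp => D.LF_zero hp
  stay0 := fun _ _ hp ht => D.LF_stay0 hp ht
  stay1 := fun _ _ hp ht => D.LF_stay1 hp ht
  norm_eq := fun _ _ hp ht => D.LF_norm hp ht
  add := fun _ s _ hp ht => D.LF_add s hp ht
  homog := fun p a t _ => D.LF_homog p a t
  vel := fun _ _ hp ht => D.LF_vel hp ht
  dist_eq := fun _ _ hp ht => D.LF_dist hp ht
  surj := fun _ _ hx hy => D.LF_surj hx hy
  inj := fun _ _ _ hx hv hw h => D.LF_inj hx hv hw h
  nocorner := fun p ε δ b hp hε hδ h hb hd => D.LF_nocorner p ε δ b hp hε hδ h hb hd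
  smooth := fun _ _ hp ht => D.LF_smooth hp ht
  cont_time := fun _ _ hp ht => D.LF_cont_time hp ht
  fv := fun _ _ hp ht ξ => D.LF_fv hp ht ξ

/-- **The only statement of LEVEL B (local part) used by the global part.** -/
theorem exists_localFlow (c : M) : ∃ (N0 N1 N2 : Set M) (r : ℝ) (F : ℝ → TM n M → TM n M),
    c ∈ N0 ∧ IsLocalFlow N0 N1 N2 r F := by
  obtain ⟨D⟩ := exists_chartData (n := n) c
  exact ⟨_, _, _, _, _, D.self_mem_reg (by have := D.normal.ρ_pos; linarith), D.isLocalFlow⟩

end

end Claimed.Agent.R213.Geo
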