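import Claimed.Agent.R213.Geo.Core
import Claimed.Agent.R213.Geo.LFAll
import Claimed.Agent.R213.Geo.GroupExt

/-!
# Row 213, GEOMETRY layer, GLOBAL part, file C3: the global geodesic flow `gflow` on `TM`.

`exists_uniform`: finite subcover of the cover `N0 c` (`exists_localFlow`), Lebesgue number, minimum of the `r c`.
`stepF t p = locF p.1 t p`; local group law by `IsLocalFlow.indep` (+ `add`, `dist_eq`, `norm_eq`);
`gflow` from `exists_group_extension` with `ν p = ‖p.2‖`.
-/

set_option autoImplicit false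
set_option linter.unusedSectionVars false
open Claims Claims.C0370 Claims.C0370.WeakMTWGlobalSupport
open scoped Manifold ContDiff Topology
open Set Filter Manifold Bundle

namespace Claimed.Agent.R213.Geo

noncomputable section

variable {n : ℕ} {M : Type*} [MetricSpace M] [ChartedSpace (WeakMTW.Model n) M]
  [IsManifold (WeakMTW.model n) ∞ M]
  [RiemannianBundle (fun x : M => TangentSpace (WeakMTW.model n) x)]
  [IsContMDiffRiemannianBundle (WeakMTW.model n) ∞ (WeakMTW.Model n)
    (fun x : M => TangentSpace (WeakMTW.model n) x)]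
  [IsRiemannianManifold (WeakMTW.model n) M]

variable [CompactSpace M]

/-- a finite family of positive numbers has a positive lower bound. -/
theorem exists_pos_le_of_finset {ι : Type*} (t : Finset ι) (r : ι → ℝ) (h : ∀ i ∈ t, 0 < r i) :
    ∃ ε : ℝ, 0 < ε ∧ ∀ i ∈ t, ε ≤ r i := by
  classical
  induction t using Finset.induction_on with
  | empty => exact ⟨1, one_pos, by simp⟩
  | insert a s _ ih =>
    obtain ⟨ε, hε, hle⟩ := ih (fun i hi => h i (Finset.mem_insert_of_mem hi))
    refine ⟨min ε (r a), lt_min hε (h a (Finset.mem_insert_self a s)), ?_⟩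
    intro i hi
    rcases Finset.mem_insert.1 hi with rfl | hi
    · exact min_le_right _ _
    · exact (min_le_left _ _).trans (hle i hi)

/-- **C3.1** uniform local flows. -/
theorem exists_uniform : ∃ rs : ℝ, 0 < rs ∧ ∀ x : M,
    ∃ (F : ℝ → TM n M → TM n M) (N0 N1 N2 : Set M) (r : ℝ),
      IsLocalFlow N0 N1 N2 r F ∧ Metric.ball x (4 * rs) ⊆ N0 ∧ 4 * rs ≤ r := by
  classical
  choose N0 N1 N2 r F hc hF using fun c : M => exists_localFlow (n := n) c
  obtain ⟨t, ht⟩ := isCompact_univ.elim_finite_subcover N0 (fun c => (hF c).open0)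
    (fun x _ => mem_iUnion.2 ⟨x, hc x⟩)
  obtain ⟨δ, hδ, hleb⟩ := lebesgue_number_lemma_of_metric (ι := t) (c := fun i => N0 i)
    isCompact_univ (fun i => (hF i).open0) (by
      intro x hx
      obtain ⟨i, hi⟩ := mem_iUnion.1 (ht hx)
      obtain ⟨hit, hxi⟩ := mem_iUnion.1 hi
      exact mem_iUnion.2 ⟨⟨i, hit⟩, hxi⟩)
  obtain ⟨ε, hε, hle⟩ := exists_pos_le_of_finset t r (fun i _ => (hF i).r_pos)
  refine ⟨min δ ε / 4, by have := lt_min hδ hε; positivity, fun x => ?_⟩
  obtain ⟨i, hi⟩ := hleb x (mem_univ x)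
  refine ⟨F i, N0 i, N1 i, N2 i, r i, hF i, ?_, ?_⟩
  · refine (Metric.ball_subset_ball ?_).trans hi
    have : 4 * (min δ ε / 4) = min δ ε := by ring
    rw [this]; exact min_le_left _ _
  · have : 4 * (min δ ε / 4) = min δ ε := by ring
    rw [this]; exact (min_le_right _ _).trans (hle i i.2)

variable (n M) in
/-- the uniform radius. -/
def rs : ℝ := Classical.choose (exists_uniform (n := n) (M := M))

theorem rs_pos : 0 < rs n M := (Classical.choose_spec (exists_uniform (n := n) (M := M))).1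

/-- a local flow around `x`. -/
def locF (x : M) : ℝ → TM n M → TM n M :=
  Classical.choose ((Classical.choose_spec (exists_uniform (n := n) (M := M))).2 x)

theorem locF_spec (x : M) : ∃ (N0 N1 N2 : Set M) (r : ℝ),
    IsLocalFlow N0 N1 N2 r (locF (n := n) x) ∧ Metric.ball x (4 * rs n M) ⊆ N0 ∧ 4 * rs n M ≤ r :=
  Classical.choose_spec ((Classical.choose_spec (exists_uniform (n := n) (M := M))).2 x)

/-- the step flow. -/
def stepF (t : ℝ) (p : TM n M) : TM n M := locF p.1 t p

/-- **C3.2** the local flows around nearby points agree. -/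
theorem locF_eq_locF {x₀ : M} {q : TM n M} {s : ℝ} (hq : dist q.1 x₀ < rs n M)
    (hs : |s| * ‖q.2‖ < rs n M) : locF q.1 s q = locF x₀ s q := by
  obtain ⟨N0, N1, N2, r, hF, hb, hr⟩ := locF_spec (n := n) q.1
  obtain ⟨N0', N1', N2', r', hF', hb', hr'⟩ := locF_spec (n := n) x₀
  have hpos := rs_pos (n := n) (M := M)
  refine hF.indep hF' (ε₀ := 3 * rs n M) (by positivity) ?_ ?_
  · intro y hy
    rw [Metric.mem_ball] at hy
    refine ⟨hb ?_, hb' ?_⟩
    · rw [Metric.mem_ball]; linarith
    · rw [Metric.mem_ball]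
      have := dist_triangle y q.1 x₀
      linarith
  · refine lt_min (lt_min ?_ ?_) ?_ <;> linarith

theorem stepF_norm (p : TM n M) (t : ℝ) (ht : |t| * ‖p.2‖ < rs n M) :
    ‖(stepF t p).2‖ = ‖p.2‖ := by
  obtain ⟨N0, N1, N2, r, hF, hb, hr⟩ := locF_spec (n := n) p.1
  have hpos := rs_pos (n := n) (M := M)
  exact hF.norm_eq p t (hF.sub01 (hb (Metric.mem_ball_self (by positivity)))) (by linarith)

theorem stepF_zero (p : TM n M) : stepF 0 p = p := by
  obtain ⟨N0, N1, N2, r, hF, hb, hr⟩ := locF_spec (n := n) p.1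
  have hpos := rs_pos (n := n) (M := M)
  exact hF.zero p (hF.sub12 (hF.sub01 (hb (Metric.mem_ball_self (by positivity)))))

/-- **C3.3** local group law. -/
theorem stepF_add (p : TM n M) (s t : ℝ) (hs : |s| * ‖p.2‖ < rs n M) (ht : |t| * ‖p.2‖ < rs n M)
    (_hst : |s + t| * ‖p.2‖ < rs n M) : stepF s (stepF t p) = stepF (s + t) p := by
  obtain ⟨N0, N1, N2, r, hF, hb, hr⟩ := locF_spec (n := n) p.1
  have hpos := rs_pos (n := n) (M := M)
  have hp1 : p.1 ∈ N1 := hF.sub01 (hb (Metric.mem_ball_self (by positivity)))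
  have htr : |t| * ‖p.2‖ < r := by linarith
  have hd : dist (stepF t p).1 p.1 < rs n M := by
    rw [dist_comm]
    have := hF.dist_eq p t hp1 htr
    change dist p.1 (locF p.1 t p).1 < rs n M
    rw [this]; exact ht
  have hn : |s| * ‖(stepF t p).2‖ < rs n M := by rw [stepF_norm p t ht]; exact hs
  change locF (stepF t p).1 s (stepF t p) = locF p.1 (s + t) p
  rw [locF_eq_locF hd hn]
  exact hF.add p s t hp1 htr

theorem exists_gflow : ∃ Φ : ℝ → TM n M → TM n M, (∀ s t p, Φ s (Φ t p) = Φ (s + t) p) ∧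
    (∀ p t, |t| * ‖p.2‖ < rs n M → Φ t p = stepF t p) ∧ ∀ t p, ‖(Φ t p).2‖ = ‖p.2‖ :=
  exists_group_extension (fun p : TM n M => ‖p.2‖) (fun _ => norm_nonneg _) stepF rs_pos
    stepF_norm stepF_zero stepF_add

/-- **the geodesic flow of `M`.** -/
def gflow : ℝ → TM n M → TM n M := Classical.choose (exists_gflow (n := n) (M := M))

theorem gflow_add (s t : ℝ) (p : TM n M) : gflow s (gflow t p) = gflow (s + t) p :=
  (Classical.choose_spec (exists_gflow (n := n) (M := M))).1 s t p

theorem gflow_small {p : TM n M} {t : ℝ} (ht : |t| * ‖p.2‖ < rs n M) : gflow t p = stepF t p :=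
  (Classical.choose_spec (exists_gflow (n := n) (M := M))).2.1 p t ht

theorem norm_gflow (t : ℝ) (p : TM n M) : ‖(gflow t p).2‖ = ‖p.2‖ :=
  (Classical.choose_spec (exists_gflow (n := n) (M := M))).2.2 t p

theorem gflow_zero (p : TM n M) : gflow 0 p = p := by
  rw [gflow_small (by simpa using rs_pos), stepF_zero]

/-- **C3.4** for small times `gflow` is the local flow around any nearby point. -/
theorem gflow_eq_locF {x₀ : M} {q : TM n M} {s : ℝ} (hq : dist q.1 x₀ < rs n M)
    (hs : |s| * ‖q.2‖ < rs n M) : gflow s q = locF x₀ s q := by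
  rw [gflow_small hs, stepF, locF_eq_locF hq hs]

end

end Claimed.Agent.R213.Geo
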