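import Claimed.Agent.R213.Geo.GeoFacts
import Claimed.Agent.R213.HopfRinow.Metric

/-!
# Row 213, GEOMETRY layer, GLOBAL part, file C7: Hopf-Rinow for compact `M`.

`lambda_point`: from the metric Hopf-Rinow theorem `HopfRinow.exists_metric_geodesic`
(`R213/HopfRinow/Metric.lean`).

`hopf_rinow`: `d = dist x y`; if `d < rs` use `exists_exp_small`.  Otherwise let `m₁` be a point with `dist x m₁ = δ := rs/2`,
`dist m₁ y = d - δ`, `m₁ = exp x (δ • a)`, `‖a‖ = 1`, `p = ⟨x,a⟩`.  `T = {t ∈ [δ,d] | dist (gflow t p).1 y = d - t}` is closed,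
contains `δ`; if `t₀ = sup T < d`, take a `lambda_point` `m'` between `(gflow t₀ p).1` and `y` at distance `δ' = min (rs/2) (d-t₀)`,
`m' = exp .. (δ' • b)`; then `dist x m' = t₀ + δ'` and `nocorner_global` gives `m' = (gflow (t₀+δ') p).1`: contradiction.
-/

set_option autoImplicit false
set_option linter.unusedSectionVars false
open Claims Claims.C0370 Claims.C0370.WeakMTWGlobalSupport
open scoped Manifold ContDiff Topology
open Set Filter Manifold Bundle

namespace Claimed.Agent.R213.Geo

noncomputable section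

variable {n : ℕ} {M : Type*} [MetricSpace M] [ChartedSpace (WeakMTW.Model n) M]
  [IsManifold (WeakMTW.model n) ∞ M]
  [RiemannianBundle (fun x : M => TangentSpace (WeakMTW.model n) x)]
  [IsContMDiffRiemannianBundle (WeakMTW.model n) ∞ (WeakMTW.Model n)
    (fun x : M => TangentSpace (WeakMTW.model n) x)]
  [IsRiemannianManifold (WeakMTW.model n) M] [CompactSpace M]

include n in
/-- **C7.1** (`n` is an implicit argument: `lambda_point (n := n) x y l h0 h1`). -/
theorem lambda_point (x y : M) (l : ℝ) (h0 : 0 ≤ l) (h1 : l ≤ 1) :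
    ∃ m : M, dist x m = l * dist x y ∧ dist m y = (1 - l) * dist x y := by
  obtain ⟨g, hg0, hg1, hg⟩ := HopfRinow.exists_metric_geodesic (WeakMTW.model n) x y
  refine ⟨g l, ?_, ?_⟩
  · have := hg 0 ⟨le_rfl, zero_le_one⟩ l ⟨h0, h1⟩
    rw [hg0, zero_sub, abs_neg, abs_of_nonneg h0] at this
    exact this
  · have := hg l ⟨h0, h1⟩ 1 ⟨zero_le_one, le_rfl⟩
    rw [hg1, abs_sub_comm, abs_of_nonneg (by linarith)] at this
    exact this

/-- a point at distance `δ` on the way from `x` to `y`, written as `(gflow δ ⟨x,a⟩).1` with a unit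
vector `a`. -/
theorem exists_unit_step (x y : M) (δ : ℝ) (hδ : 0 < δ) (hδr : δ < rs n M) (hδd : δ ≤ dist x y) :
    ∃ a : TangentSpace (WeakMTW.model n) x, ‖a‖ = 1 ∧
      dist x (gflow δ (⟨x, a⟩ : TM n M)).1 = δ ∧
      dist (gflow δ (⟨x, a⟩ : TM n M)).1 y = dist x y - δ := by
  have hd : 0 < dist x y := lt_of_lt_of_le hδ hδd
  obtain ⟨m, hm1, hm2⟩ := lambda_point (n := n) x y (δ / dist x y) (by positivity)
    ((div_le_one hd).2 hδd)
  have e1 : dist x m = δ := by rw [hm1]; field_simp
  have e2 : dist m y = dist x y - δ := by rw [hm2]; field_simp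
  obtain ⟨v, hv, hvm⟩ := exists_exp_small (n := n) (x := x) (y := m) (by rw [e1]; exact hδr)
  refine ⟨δ⁻¹ • v, ?_, ?_⟩
  · rw [norm_smul, hv, e1, Real.norm_eq_abs, abs_of_pos (inv_pos.2 hδ)]
    field_simp
  · have e3 : (gflow δ (⟨x, δ⁻¹ • v⟩ : TM n M)).1 = m := by
      rw [← exp_smul, smul_smul, mul_inv_cancel₀ hδ.ne', one_smul, hvm]
    rw [e3]
    exact ⟨e1, e2⟩

/-- **C7.2** field `hopf_rinow` of `Soft`. -/
theorem hopf_rinow (x y : M) : (Vmin (n := n) x y).Nonempty := by
  have hrs : 0 < rs n M := rs_pos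
  by_cases hsmall : dist x y < rs n M
  · obtain ⟨v, hv, hvy⟩ := exists_exp_small (n := n) hsmall
    exact ⟨v, hvy, hv⟩
  rw [not_lt] at hsmall
  set d := dist x y with hd
  set δ := rs n M / 2 with hδ
  have hδ0 : 0 < δ := by positivity
  have hδr : δ < rs n M := by rw [hδ]; linarith
  have hδd : δ ≤ d := by linarith
  obtain ⟨a, ha, ha1, ha2⟩ := exists_unit_step (n := n) x y δ hδ0 hδr hδd
  set p : TM n M := ⟨x, a⟩ with hp
  have hp2 : ‖p.2‖ = 1 := ha
  have hcont : Continuous (fun t : ℝ => (gflow t p).1) := by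
    have hL : LipschitzWith 1 (fun t : ℝ => (gflow t p).1) := by
      apply LipschitzWith.of_dist_le_mul
      intro s t
      have := dist_gflow_le p s t
      rw [hp2, mul_one] at this
      rw [NNReal.coe_one, one_mul, Real.dist_eq, abs_sub_comm]
      exact this
    exact hL.continuous
  set T : Set ℝ := {t | t ∈ Icc δ d ∧ dist (gflow t p).1 y = d - t} with hT
  have hTcl : IsClosed T := by
    apply IsClosed.inter isClosed_Icc
    exact isClosed_eq (hcont.dist continuous_const) (continuous_const.sub continuous_id)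
  have hTne : T.Nonempty := ⟨δ, ⟨le_rfl, hδd⟩, ha2⟩
  have hTbdd : BddAbove T := ⟨d, fun t ht => ht.1.2⟩
  set t₀ := sSup T with ht₀
  have ht₀T : t₀ ∈ T := hTcl.csSup_mem hTne hTbdd
  obtain ⟨⟨h1, h2⟩, h3⟩ := ht₀T
  have ht₀pos : 0 < t₀ := lt_of_lt_of_le hδ0 h1
  rcases eq_or_lt_of_le h2 with heq | hlt
  · refine ⟨d • a, ?_, ?_⟩
    · rw [exp_smul]
      rw [heq, sub_self] at h3
      exact dist_eq_zero.1 h3
    · rw [norm_smul, ha, mul_one, Real.norm_eq_abs, abs_of_nonneg dist_nonneg]
  · exfalso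
    set z : M := (gflow t₀ p).1 with hz
    set δ' := min (rs n M / 2) (d - t₀) with hδ'
    have hδ'0 : 0 < δ' := lt_min (by positivity) (by linarith)
    have hδ'r : δ' < rs n M := lt_of_le_of_lt (min_le_left _ _) (by linarith)
    have hδ'd : δ' ≤ dist z y := by rw [h3]; exact min_le_right _ _
    obtain ⟨b, hb, hb1, hb2⟩ := exists_unit_step (n := n) z y δ' hδ'0 hδ'r hδ'd
    set q : TM n M := ⟨z, b⟩ with hq
    have hxz : dist x z ≤ t₀ := by
      have := dist_gflow_le p 0 t₀
      rw [gflow_zero, hp2, mul_one, sub_zero, abs_of_pos ht₀pos] at this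
      exact this
    have hdist : dist p.1 (gflow δ' q).1 = (t₀ + δ') * ‖p.2‖ := by
      rw [hp2, mul_one]
      apply le_antisymm
      · calc dist x (gflow δ' q).1 ≤ dist x z + dist z (gflow δ' q).1 := dist_triangle _ _ _
          _ ≤ t₀ + δ' := by rw [hb1]; linarith
      · have := dist_triangle x (gflow δ' q).1 y
        rw [hb2, h3] at this
        change t₀ + δ' ≤ dist x (gflow δ' q).1
        linarith
    have hqp : q = gflow t₀ p :=
      nocorner_global p q t₀ δ' ht₀pos hδ'0 rfl (by rw [hp2]; exact hb) hdist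
    have hmem : t₀ + δ' ∈ T := by
      refine ⟨⟨by linarith, ?_⟩, ?_⟩
      · have := min_le_right (rs n M / 2) (d - t₀)
        linarith
      · have e : gflow (t₀ + δ') p = gflow δ' q := by
          rw [hqp, gflow_add, add_comm]
        rw [e, hb2, h3]
        ring
    have := le_csSup hTbdd hmem
    linarith

end

end Claimed.Agent.R213.Geo
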