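import Claimed.Agent.R213.Geo.LocalFlow

/-!
# Row 213, GEOMETRY layer, LEVEL B, file B2a: algebraic properties of the chart flow `D.LF`
(`zero stay0 stay1 norm_eq add homog` of `IsLocalFlow`).

Everything follows from `tinv_tcoord`, `tcoord_tinv`, `inner_eq_gChart`, `D.eq`, and LEVEL A:
`flow_zero flow_add nrm_flow flow_smul norm_flow_sub_le`.  Displacement: `|t| nrm < r` and
`4 r ≤ sqrt lo * ρ` give `‖(flow t q).1 - q.1‖ < ρ/4`.
-/

set_option autoImplicit false
set_option linter.unusedSectionVars false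
open Claims Claims.C0370 Claims.C0370.WeakMTWGlobalSupport
open scoped Manifold ContDiff Topology
open Set Filter Manifold Bundle

namespace Claimed.Agent.R213.Geo

noncomputable section

variable {n : ℕ} {M : Type*} [MetricSpace M] [ChartedSpace (WeakMTW.Model n) M]
  [IsManifold (WeakMTW.model n) ∞ M]
  [RiemannianBundle (fun x : M => TangentSpace (WeakMTW.model n) x)]
  [IsContMDiffRiemannianBundle (WeakMTW.model n) ∞ (WeakMTW.Model n)
    (fun x : M => TangentSpace (WeakMTW.model n) x)]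
  [IsRiemannianManifold (WeakMTW.model n) M]

namespace ChartData

variable {c : M} (D : ChartData (n := n) c)

theorem isOpen_reg (s : ℝ) : IsOpen (D.reg s) := by
  have h := (continuousOn_extChartAt (I := WeakMTW.model n) c).isOpen_inter_preimage
    (isOpen_extChartAt_source (I := WeakMTW.model n) c)
    (Metric.isOpen_ball (x := extChartAt (WeakMTW.model n) c c) (ε := s))
  rw [extChartAt_source] at h
  exact h

theorem reg_mono {s s' : ℝ} (h : s ≤ s') : D.reg s ⊆ D.reg s' :=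
  fun _ hx => ⟨hx.1, Metric.ball_subset_ball h hx.2⟩

theorem self_mem_reg {s : ℝ} (hs : 0 < s) : c ∈ D.reg s :=
  ⟨mem_chart_source _ c, Metric.mem_ball_self hs⟩

/-- the Riemannian norm is the `G`-norm of the coordinates. -/
theorem norm_eq_nrm {p : TM n M} (hp : p.1 ∈ D.reg D.R) :
    ‖p.2‖ = D.G.nrm (tcoord c p).1 (tcoord c p).2 := by
  have h1 := inner_eq_gChart (c := c) hp.1 p.2 p.2
  have h2 := D.eq _ hp.2
  rw [← h2] at h1
  rw [norm_eq_sqrt_real_inner, h1]
  rfl

/-- the coordinates of `LF t p` as long as the flow stays in the chart. -/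
theorem tcoord_LF {p : TM n M} {t s : ℝ} (hs : s + D.ρ / 4 ≤ D.R) (hp : p.1 ∈ D.reg s)
    (ht : |t| * ‖p.2‖ < D.r) :
    tcoord c (D.LF t p) = D.G.flow t (tcoord c p) ∧ (D.LF t p).1 ∈ D.reg (s + D.ρ / 4) := by
  have hρ := D.normal.ρ_pos
  have hpR : p.1 ∈ D.reg D.R := D.reg_mono (by linarith) hp
  rw [D.norm_eq_nrm hpR] at ht
  have hlo : 0 < Real.sqrt D.G.lo := Real.sqrt_pos.2 D.G.lo_pos
  have h1 := D.G.norm_flow_sub_le t (tcoord c p)
  have h2 : Real.sqrt D.G.lo * ‖(D.G.flow t (tcoord c p)).1 - (tcoord c p).1‖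
      < Real.sqrt D.G.lo * (D.ρ / 4) := by
    have := D.r_le
    linarith
  have h3 : ‖(D.G.flow t (tcoord c p)).1 - (tcoord c p).1‖ < D.ρ / 4 :=
    lt_of_mul_lt_mul_left h2 hlo.le
  have h4 : (D.G.flow t (tcoord c p)).1 ∈
      Metric.ball (extChartAt (WeakMTW.model n) c c) (s + D.ρ / 4) := by
    have h5 : dist (tcoord c p).1 (extChartAt (WeakMTW.model n) c c) < s := hp.2
    rw [Metric.mem_ball]
    have h6 := dist_triangle (D.G.flow t (tcoord c p)).1 (tcoord c p).1
      (extChartAt (WeakMTW.model n) c c)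
    rw [← dist_eq_norm] at h3
    linarith
  have h7 : (D.G.flow t (tcoord c p)).1 ∈ (extChartAt (WeakMTW.model n) c).target :=
    D.sub (Metric.ball_subset_closedBall (Metric.ball_subset_ball hs h4))
  have h8 : tcoord c (D.LF t p) = D.G.flow t (tcoord c p) := tcoord_tinv h7
  refine ⟨h8, ?_, ?_⟩
  · have := (extChartAt (WeakMTW.model n) c).map_target h7
    rwa [extChartAt_source] at this
  · have h9 : extChartAt (WeakMTW.model n) c (D.LF t p).1 = (D.G.flow t (tcoord c p)).1 :=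
      congrArg Prod.fst h8
    rw [h9]
    exact h4

theorem LF_zero {p : TM n M} (hp : p.1 ∈ D.reg D.R) : D.LF 0 p = p := by
  unfold LF
  rw [D.G.flow_zero, tinv_tcoord hp.1]

theorem LF_stay0 {p : TM n M} {t : ℝ} (hp : p.1 ∈ D.reg (D.ρ / 2)) (ht : |t| * ‖p.2‖ < D.r) :
    (D.LF t p).1 ∈ D.reg D.ρ := by
  have hρ := D.normal.ρ_pos
  have := D.ρ_le
  exact D.reg_mono (by linarith) (D.tcoord_LF (by linarith) hp ht).2

theorem LF_stay1 {p : TM n M} {t : ℝ} (hp : p.1 ∈ D.reg D.ρ) (ht : |t| * ‖p.2‖ < D.r) :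
    (D.LF t p).1 ∈ D.reg D.R := by
  have hρ := D.normal.ρ_pos
  have := D.ρ_le
  exact D.reg_mono (by linarith) (D.tcoord_LF (by linarith) hp ht).2

theorem LF_norm {p : TM n M} {t : ℝ} (hp : p.1 ∈ D.reg D.ρ) (ht : |t| * ‖p.2‖ < D.r) :
    ‖(D.LF t p).2‖ = ‖p.2‖ := by
  have hρ := D.normal.ρ_pos
  have := D.ρ_le
  rw [D.norm_eq_nrm (D.LF_stay1 hp ht), (D.tcoord_LF (by linarith) hp ht).1, D.G.nrm_flow,
    ← D.norm_eq_nrm (D.reg_mono (by linarith) hp)]

theorem LF_add {p : TM n M} (s : ℝ) {t : ℝ} (hp : p.1 ∈ D.reg D.ρ) (ht : |t| * ‖p.2‖ < D.r) :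
    D.LF s (D.LF t p) = D.LF (s + t) p := by
  have hρ := D.normal.ρ_pos
  have := D.ρ_le
  have h := (D.tcoord_LF (by linarith) hp ht).1
  show tinv c (D.G.flow s (tcoord c (D.LF t p))) = tinv c (D.G.flow (s + t) (tcoord c p))
  rw [h, D.G.flow_add]

theorem LF_homog (p : TM n M) (a t : ℝ) : D.LF t (scal a p) = scal a (D.LF (a * t) p) := by
  have h1 : tcoord c (scal a p) = ((tcoord c p).1, a • (tcoord c p).2) := by
    refine Prod.ext rfl ?_
    exact map_smul (mfderiv (WeakMTW.model n) 𝓘(ℝ, WeakMTW.Model n)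
      (extChartAt (WeakMTW.model n) c) p.1) a p.2
  show tinv c (D.G.flow t (tcoord c (scal a p))) = scal a (tinv c (D.G.flow (a * t) (tcoord c p)))
  rw [h1, D.G.flow_smul]
  refine tm_ext rfl ?_
  exact map_smul (mfderiv 𝓘(ℝ, WeakMTW.Model n) (WeakMTW.model n)
    (extChartAt (WeakMTW.model n) c).symm (D.G.flow (a * t) (tcoord c p)).1) a
    (D.G.flow (a * t) (tcoord c p)).2

end ChartData

end

end Claimed.Agent.R213.Geo
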