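import Claimed.Agent.R213.Geo.LFDist

/-!
# Row 213, GEOMETRY layer, LEVEL B, file B2d: the local NO-CORNER lemma (`nocorner` of `IsLocalFlow`).

Let `λ = ‖p.2‖`, `x = p.1`, `y = (LF ε p).1`, `σ t = (LF t ⟨y,b⟩).1`.  By the triangle inequality and
`LF_dist`, `dist x (σ t) = (ε + t) λ` for `t ∈ [0,δ]`.  By `rad_eq_dist`,
`G.energy (φ x, lg (φ x) (φ (σ t))) = (ε+t)^2 λ^2 / 2`.  Differentiate at `t = 0` from the right with
`IsNormal.hasFDerivAt_cost_right`: `g_y(W, b̂) = ε λ^2` where `W = ev (φ x) (lg ..) = ε • (velocity of LF ε p)`,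
`b̂` = coordinates of `b`.  As `g(W,W) = ε^2 λ^2`, `g(b̂,b̂) = λ^2`, `GMetric.eq_of_g_eq` gives `W = ε b̂`.
(`λ = 0` is trivial.)
-/

set_option autoImplicit false
set_option linter.unusedSectionVars false
open Claims Claims.C0370 Claims.C0370.WeakMTWGlobalSupport
open scoped Manifold ContDiff Topology
open Set Filter Manifold Bundle

namespace Claimed.Agent.R213.Geo

noncomputable section

variable {n : ℕ} {M : Type*} [MetricSpace M] [ChartedSpace (WeakMTW.Model n) M]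
  [IsManifold (WeakMTW.model n) ∞ M]
  [RiemannianBundle (fun x : M => TangentSpace (WeakMTW.model n) x)]
  [IsContMDiffRiemannianBundle (WeakMTW.model n) ∞ (WeakMTW.Model n)
    (fun x : M => TangentSpace (WeakMTW.model n) x)]
  [IsRiemannianManifold (WeakMTW.model n) M]

namespace ChartData

variable {c : M} (D : ChartData (n := n) c)

theorem LF_nocorner (p : TM n M) (ε δ : ℝ) (b : TangentSpace (WeakMTW.model n) (D.LF ε p).1)
    (hp : p.1 ∈ D.reg (D.ρ / 2)) (hε : 0 < ε) (hδ : 0 < δ) (h : (ε + δ) * ‖p.2‖ < D.r)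
    (hb : ‖b‖ = ‖p.2‖)
    (hd : dist p.1 (D.LF δ ⟨(D.LF ε p).1, b⟩).1 = (ε + δ) * ‖p.2‖) :
    (⟨(D.LF ε p).1, b⟩ : TM n M) = D.LF ε p := by
  have hρ : 0 < D.ρ := D.normal.ρ_pos
  have hρR : 2 * D.ρ ≤ D.R := D.ρ_le
  obtain ⟨lam, hlam⟩ : ∃ lam : ℝ, lam = ‖p.2‖ := ⟨_, rfl⟩
  rw [← hlam] at h hb hd
  have hlam0 : 0 ≤ lam := hlam ▸ norm_nonneg _
  have hpρ : p.1 ∈ D.reg D.ρ := D.reg_mono (by linarith) hp
  have hpR : p.1 ∈ D.reg D.R := D.reg_mono (by linarith) hp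
  have hεr : |ε| * ‖p.2‖ < D.r := by
    rw [abs_of_pos hε, ← hlam]; nlinarith
  obtain ⟨hcε, hy34⟩ := D.tcoord_LF (p := p) (t := ε) (s := D.ρ / 2) (by linarith) hp hεr
  obtain ⟨P, hP⟩ : ∃ P : TM n M, P = ⟨(D.LF ε p).1, b⟩ := ⟨_, rfl⟩
  rw [← hP] at hd ⊢
  have hP1 : P.1 = (D.LF ε p).1 := by rw [hP]
  have hPn : ‖P.2‖ = lam := by rw [hP]; exact hb
  have hP34 : P.1 ∈ D.reg (D.ρ / 2 + D.ρ / 4) := hP1 ▸ hy34
  have hPρ : P.1 ∈ D.reg D.ρ := D.reg_mono (by linarith) hP34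
  have hPR : P.1 ∈ D.reg D.R := D.reg_mono (by linarith) hP34
  have hyR : (D.LF ε p).1 ∈ D.reg D.R := D.reg_mono (by linarith) hy34
  -- the curve `σ t = (LF t P).1`
  have hsm : ∀ t ∈ Icc (0 : ℝ) δ, |t| * ‖P.2‖ < D.r := by
    intro t ht
    rw [abs_of_nonneg ht.1, hPn]
    nlinarith [ht.1, ht.2]
  have hcoord : ∀ t ∈ Icc (0 : ℝ) δ, tcoord c (D.LF t P) = D.G.flow t (tcoord c P) ∧
      (D.LF t P).1 ∈ D.reg D.ρ := by
    intro t ht
    obtain ⟨h1, h2⟩ := D.tcoord_LF (p := P) (t := t) (s := D.ρ / 2 + D.ρ / 4) (by linarith) hP34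
      (hsm t ht)
    exact ⟨h1, D.reg_mono (by linarith) h2⟩
  have hd1 : dist p.1 P.1 = ε * lam := by
    rw [hP1, D.LF_dist hpρ hεr, abs_of_pos hε, hlam]
  have hdist : ∀ t ∈ Icc (0 : ℝ) δ, dist p.1 (D.LF t P).1 = (ε + t) * lam := by
    intro t ht
    have hd2 : dist P.1 (D.LF t P).1 = t * lam := by
      rw [D.LF_dist hPρ (hsm t ht), abs_of_nonneg ht.1, hPn]
    have hn : ‖(D.LF t P).2‖ = lam := by rw [D.LF_norm hPρ (hsm t ht), hPn]
    have hd3 : dist (D.LF t P).1 (D.LF δ P).1 = (δ - t) * lam := by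
      have hadd := D.LF_add (p := P) (δ - t) (t := t) hPρ (hsm t ht)
      rw [sub_add_cancel] at hadd
      have hs : |δ - t| * ‖(D.LF t P).2‖ < D.r := by
        rw [abs_of_nonneg (by linarith [ht.2]), hn]
        nlinarith [ht.1, ht.2]
      have := D.LF_dist (p := D.LF t P) (t := δ - t) (hcoord t ht).2 hs
      rw [hadd, abs_of_nonneg (by linarith [ht.2]), hn] at this
      exact this
    have t1 := dist_triangle p.1 P.1 (D.LF t P).1
    have t2 := dist_triangle p.1 (D.LF t P).1 (D.LF δ P).1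
    rw [hd1, hd2] at t1
    rw [hd, hd3] at t2
    linarith
  -- coordinates
  obtain ⟨u, hu⟩ : ∃ u, u = extChartAt (WeakMTW.model n) c p.1 := ⟨_, rfl⟩
  obtain ⟨vh, hvh⟩ : ∃ vh, vh = (tcoord c p).2 := ⟨_, rfl⟩
  have hcp : tcoord c p = (u, vh) := by rw [hu, hvh]; rfl
  obtain ⟨Q, hQ⟩ : ∃ Q, Q = tcoord c P := ⟨_, rfl⟩
  obtain ⟨wh, hwh⟩ : ∃ wh, wh = (tcoord c (D.LF ε p)).2 := ⟨_, rfl⟩
  have hQ1 : Q.1 = (tcoord c (D.LF ε p)).1 := by
    rw [hQ, hP]; rfl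
  have hen : ∀ t ∈ Icc (0 : ℝ) δ,
      D.G.energy (u, D.lg u (D.G.flow t Q).1) = ((ε + t) * lam) ^ 2 / 2 := by
    intro t ht
    have hlt : dist p.1 (D.LF t P).1 < D.r := by
      rw [hdist t ht]; nlinarith [ht.1, ht.2]
    have h1 := D.rad_eq_dist hpρ hlt
    have h2 : extChartAt (WeakMTW.model n) c (D.LF t P).1 = (D.G.flow t Q).1 := by
      rw [hQ, ← (hcoord t ht).1]; rfl
    rw [h2, ← hu, hdist t ht] at h1
    rw [← h1, D.G.nrm_sq]
    rfl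
  have hτ : HasDerivAt (fun t => (D.G.flow t Q).1) Q.2 0 := by
    have := D.G.hasDerivAt_flow_fst 0 Q
    rwa [D.G.flow_zero] at this
  have hpair : (u, (D.G.flow 0 Q).1) ∈
      D.G.pairSet (extChartAt (WeakMTW.model n) c c) D.ρ D.r := by
    have hlt : dist p.1 P.1 < D.r := by rw [hd1]; nlinarith
    have := (D.rad_le_dist hpρ hlt).2.1
    rw [D.G.flow_zero, hu, hQ]
    exact this
  have hF : HasDerivAt (fun t => D.G.energy (u, D.lg u (D.G.flow t Q).1))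
      (D.G.g (D.G.flow 0 Q).1 (D.G.ev u (D.lg u (D.G.flow 0 Q).1)) Q.2) 0 :=
    HasFDerivAt.comp_hasDerivAt (f := fun t => (D.G.flow t Q).1)
      (l := fun y' => D.G.energy (u, D.lg u y')) (0 : ℝ)
      (D.normal.hasFDerivAt_cost_right hpair) hτ
  have hF2 : HasDerivAt (fun t : ℝ => ((ε + t) * lam) ^ 2 / 2) (ε * lam ^ 2) 0 := by
    have h1 : HasDerivAt (fun t : ℝ => (ε + t) * lam) lam 0 := by
      simpa using ((hasDerivAt_id (0 : ℝ)).const_add ε).mul_const lam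
    have h2 := (h1.pow 2).div_const 2
    refine h2.congr_deriv ?_
    simp
    ring
  have h0 : (0 : ℝ) ∈ Icc (0 : ℝ) δ := ⟨le_rfl, hδ.le⟩
  have hder : D.G.g (D.G.flow 0 Q).1 (D.G.ev u (D.lg u (D.G.flow 0 Q).1)) Q.2 = ε * lam ^ 2 := by
    have h1 := hF.hasDerivWithinAt (s := Icc (0 : ℝ) δ)
    have h3 : HasDerivWithinAt (fun t => D.G.energy (u, D.lg u (D.G.flow t Q).1)) (ε * lam ^ 2)
        (Icc (0 : ℝ) δ) 0 :=
      (hF2.hasDerivWithinAt (s := Icc (0 : ℝ) δ)).congr (fun t ht => hen t ht) (hen 0 h0)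
    exact (uniqueDiffOn_Icc hδ 0 h0).eq_deriv _ h1 h3
  rw [D.G.flow_zero] at hder
  -- identify `lg u Q.1`
  have hnp : lam = D.G.nrm u vh := by
    have := D.norm_eq_nrm hpR
    rw [hcp, ← hlam] at this
    exact this
  have hQe : Q.1 = D.G.e u (ε • vh) := by
    rw [hQ1, hcε, hcp, D.G.e_smul]
  have hsmall : (u, ε • vh) ∈ D.G.smallSet (extChartAt (WeakMTW.model n) c c) D.ρ D.r := by
    refine ⟨hu ▸ hpρ.2, ?_⟩
    change D.G.nrm u (ε • vh) < D.r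
    rw [D.G.nrm_smul, ← hnp, abs_of_pos hε]
    nlinarith
  have hlg : D.lg u Q.1 = ε • vh := by
    rw [hQe]; exact D.normal.lg_e _ hsmall
  have hev : D.G.ev u (D.lg u Q.1) = ε • wh := by
    rw [hlg, D.G.ev_smul, hwh, hcε, hcp]
  rw [hev] at hder
  have hg1 : D.G.g Q.1 wh Q.2 = lam ^ 2 := by
    simp only [map_smul, smul_apply, smul_eq_mul] at hder
    exact mul_left_cancel₀ hε.ne' hder
  have hg2 : D.G.g Q.1 wh wh = lam ^ 2 := by
    have h1 := D.norm_eq_nrm hyR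
    rw [D.LF_norm hpρ hεr, ← hlam, ← hQ1, ← hwh] at h1
    rw [h1, D.G.nrm_sq]
  have hg3 : D.G.g Q.1 Q.2 Q.2 = lam ^ 2 := by
    have h1 := D.norm_eq_nrm hPR
    rw [hPn, ← hQ] at h1
    rw [h1, D.G.nrm_sq]
  have hw : wh = Q.2 := D.G.eq_of_g_eq (x := Q.1) (by rw [hg2, hg3]) (by rw [hg1, hg3])
  have hfin : tcoord c P = tcoord c (D.LF ε p) := by
    rw [← hQ]
    exact Prod.ext hQ1 (by rw [← hw, hwh])
  calc P = tinv c (tcoord c P) := (tinv_tcoord hPR.1).symm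
    _ = tinv c (tcoord c (D.LF ε p)) := by rw [hfin]
    _ = D.LF ε p := tinv_tcoord hyR.1

end ChartData

end

end Claimed.Agent.R213.Geo
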