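import Claimed.Agent.R213.Geo.RadialInt
import Claimed.Agent.R213.Geo.ChartMetric
import Claimed.Agent.R213.Bridge.Path
import Claimed.Agent.R213.HopfRinow.Metric

/-!
# Row 213, GEOMETRY layer, LEVEL B, file B2: the distance in a uniformly normal chart neighbourhood

`IsGood c G R ρ r lg`: `G` is a global metric on the model space which coincides with the metric
read in the chart at `c` on the ball of radius `R`, `(ρ, r, lg)` is a uniformly normal neighbourhood
of `φ_c c` for `G`, small enough that all the radial geodesics stay in the ball of radius `R`.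

Main result `IsGood.dist_eq`: the metric ball of radius `r` around `x` is the normal ball, and
`dist x y = |log_x y|`.
-/

set_option autoImplicit false
set_option linter.unusedSectionVars false
open Claims Claims.C0370 Claims.C0370.WeakMTWGlobalSupport
open scoped Manifold ContDiff Topology
open Set Filter Manifold Bundle MeasureTheory

namespace Claimed.Agent.R213.Geo

noncomputable section

variable {n : ℕ} {M : Type*} [MetricSpace M] [ChartedSpace (WeakMTW.Model n) M]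
  [IsManifold (WeakMTW.model n) ∞ M]
  [RiemannianBundle (fun x : M => TangentSpace (WeakMTW.model n) x)]
  [IsContMDiffRiemannianBundle (WeakMTW.model n) ∞ (WeakMTW.Model n)
    (fun x : M => TangentSpace (WeakMTW.model n) x)]

local notation "φ[" c "]" => extChartAt (WeakMTW.model n) c

/-- adapter: `mfderiv φ⁻¹` is `Bridge.ofChart`. -/
theorem mfderiv_symm_eq_ofChart {c : M} {u : WeakMTW.Model n} (hu : u ∈ (φ[c]).target)
    (a : WeakMTW.Model n) :
    mfderiv 𝓘(ℝ, WeakMTW.Model n) (WeakMTW.model n) (φ[c]).symm u a =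
      Bridge.ofChart c ((φ[c]).symm u) a := by
  have hy : (φ[c]).symm u ∈ (φ[c]).source := (φ[c]).map_target hu
  have h1 := mfderiv_extChartAt_comp_mfderivWithin_extChartAt_symm (I := WeakMTW.model n) hu
  have h2 : Bridge.toChart c ((φ[c]).symm u)
      (mfderiv 𝓘(ℝ, WeakMTW.Model n) (WeakMTW.model n) (φ[c]).symm u a) = a := by
    rw [Bridge.toChart_eq_mfderiv hy]
    have h3 := DFunLike.congr_fun h1 a
    simp only [ModelWithCorners.range_eq_univ, mfderivWithin_univ] at h3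
    exact h3
  have h4 := Bridge.ofChart_toChart hy
    (mfderiv 𝓘(ℝ, WeakMTW.Model n) (WeakMTW.model n) (φ[c]).symm u a)
  rw [h2] at h4
  exact h4.symm

/-- adapter: `gChart` is the bilinear form of `Bridge.gram`. -/
theorem gChart_eq_gram {c : M} {u : WeakMTW.Model n} (hu : u ∈ (φ[c]).target)
    (a b : WeakMTW.Model n) : gChart c u a b = inner ℝ (Bridge.gram c u a) b := by
  rw [gChart_apply, Bridge.inner_gram, mfderiv_symm_eq_ofChart hu, mfderiv_symm_eq_ofChart hu]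

/-- good chart data at `c`. -/
structure IsGood (c : M) (G : GMetric (WeakMTW.Model n)) (R ρ r : ℝ)
    (lg : WeakMTW.Model n → WeakMTW.Model n → WeakMTW.Model n) : Prop where
  R_pos : 0 < R
  sub : Metric.closedBall (φ[c] c) R ⊆ (φ[c]).target
  eq : ∀ u ∈ Metric.ball (φ[c] c) R, G.g u = gChart c u
  normal : G.IsNormal (φ[c] c) ρ r lg
  small : Real.sqrt G.lo * ρ + r ≤ Real.sqrt G.lo * R

theorem exists_isGood (c : M) : ∃ (G : GMetric (WeakMTW.Model n)) (R ρ r : ℝ)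
    (lg : WeakMTW.Model n → WeakMTW.Model n → WeakMTW.Model n), IsGood c G R ρ r lg := by
  obtain ⟨G, R, hR, hsub, heq⟩ := exists_gmetric (n := n) c
  obtain ⟨ρ, r, lg, hn⟩ := G.exists_normal (φ[c] c)
  have hlo : 0 < Real.sqrt G.lo := Real.sqrt_pos.2 G.lo_pos
  refine ⟨G, R, min ρ (R / 2), min r (Real.sqrt G.lo * R / 2), lg, hR, hsub, heq,
    hn.mono (lt_min hn.ρ_pos (by positivity)) (min_le_left _ _)
      (lt_min hn.r_pos (by positivity)) (min_le_left _ _), ?_⟩
  have h1 : min ρ (R / 2) ≤ R / 2 := min_le_right _ _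
  have h2 : min r (Real.sqrt G.lo * R / 2) ≤ Real.sqrt G.lo * R / 2 := min_le_right _ _
  nlinarith

namespace IsGood

variable {c : M} {G : GMetric (WeakMTW.Model n)} {R ρ r : ℝ}
  {lg : WeakMTW.Model n → WeakMTW.Model n → WeakMTW.Model n}

theorem ρ_le (hg : IsGood c G R ρ r lg) : ρ ≤ R := by
  have hlo : 0 < Real.sqrt G.lo := Real.sqrt_pos.2 G.lo_pos
  have := hg.small
  have := hg.normal.r_pos
  by_contra hcon
  rw [not_le] at hcon
  nlinarith

/-- radial geodesics stay in the ball of radius `R`. -/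
theorem flow_mem_ball (hg : IsGood c G R ρ r lg) {p : WeakMTW.Model n × WeakMTW.Model n}
    (hp : p ∈ G.smallSet (φ[c] c) ρ r) {t : ℝ} (ht : |t| ≤ 1) :
    (G.flow t p).1 ∈ Metric.ball (φ[c] c) R := by
  have hlo : 0 < Real.sqrt G.lo := Real.sqrt_pos.2 G.lo_pos
  have h1 := G.norm_flow_sub_le t p
  have h2 : |t| * G.nrm p.1 p.2 ≤ G.nrm p.1 p.2 := by
    have := G.nrm_nonneg p.1 p.2
    nlinarith
  have h3 : ‖p.1 - φ[c] c‖ < ρ := by
    have := hp.1
    rwa [Metric.mem_ball, dist_eq_norm] at this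
  have h4 : ‖(G.flow t p).1 - φ[c] c‖ ≤ ‖(G.flow t p).1 - p.1‖ + ‖p.1 - φ[c] c‖ := by
    have := norm_add_le ((G.flow t p).1 - p.1) (p.1 - φ[c] c)
    rwa [sub_add_sub_cancel] at this
  rw [Metric.mem_ball, dist_eq_norm]
  have h5 := hp.2
  have h6 := hg.small
  by_contra hcon
  rw [not_lt] at hcon
  nlinarith

theorem e_mem_ball (hg : IsGood c G R ρ r lg) {z v : WeakMTW.Model n}
    (hp : (z, v) ∈ G.smallSet (φ[c] c) ρ r) : G.e z v ∈ Metric.ball (φ[c] c) R :=
  hg.flow_mem_ball hp (t := 1) (by simp)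

theorem ball_subset_target (hg : IsGood c G R ρ r lg) :
    Metric.ball (φ[c] c) R ⊆ (φ[c]).target :=
  Metric.ball_subset_closedBall.trans hg.sub

theorem snd_mem_ball (hg : IsGood c G R ρ r lg) {z w : WeakMTW.Model n}
    (hq : (z, w) ∈ G.pairSet (φ[c] c) ρ r) : w ∈ Metric.ball (φ[c] c) R := by
  obtain ⟨⟨z', v⟩, hp, h⟩ := hq
  rw [Prod.mk.injEq] at h
  rw [← h.2]
  exact hg.e_mem_ball hp

theorem nrm_eq_gnorm (hg : IsGood c G R ρ r lg) {u : WeakMTW.Model n}
    (hu : u ∈ Metric.ball (φ[c] c) R) (a : WeakMTW.Model n) :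
    G.nrm u a = Chart.gnorm (Bridge.gram c) u a := by
  unfold GMetric.nrm Chart.gnorm
  rw [hg.eq u hu, gChart_eq_gram (hg.ball_subset_target hu)]

/-- length of a `C^1` path inside the good ball. -/
theorem pathELength_eq (hg : IsGood c G R ρ r lg) {γ : ℝ → M} {a b : ℝ}
    (hγ : ContMDiffOn 𝓘(ℝ, ℝ) (WeakMTW.model n) 1 γ (Icc a b))
    (hmem : ∀ t ∈ Icc a b, γ t ∈ (φ[c]).source ∧ φ[c] (γ t) ∈ Metric.ball (φ[c] c) R) :
    pathELength (WeakMTW.model n) γ a b = ∫⁻ t in Icc a b, ENNReal.ofReal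
      (G.nrm (φ[c] (γ t)) (derivWithin (φ[c] ∘ γ) (Icc a b) t)) := by
  rw [Bridge.pathELength_eq_lintegral_gnorm (x₀ := c) hγ (fun t ht => (hmem t ht).1)]
  apply setLIntegral_congr_fun measurableSet_Icc
  intro t ht
  simp only
  rw [hg.nrm_eq_gnorm (hmem t ht).2]

variable [IsRiemannianManifold (WeakMTW.model n) M]

/-- **upper bound**: the radial curve has length `|v|`. -/
theorem dist_le (hg : IsGood c G R ρ r lg) {x : M} (hx : x ∈ (φ[c]).source)
    {v : WeakMTW.Model n} (hp : (φ[c] x, v) ∈ G.smallSet (φ[c] c) ρ r) :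
    dist x ((φ[c]).symm (G.e (φ[c] x) v)) ≤ G.nrm (φ[c] x) v := by
  set σ : ℝ → WeakMTW.Model n := fun t => (G.flow t (φ[c] x, v)).1 with hσ
  have hσd : ∀ t, HasDerivAt σ (G.flow t (φ[c] x, v)).2 t := fun t => G.hasDerivAt_flow_fst t _
  have hσs : ContDiff ℝ ∞ σ := by
    have h1 : ContDiff ℝ ∞ (fun t : ℝ => G.flow t (φ[c] x, v)) :=
      G.contDiff_flow.comp (contDiff_id.prodMk contDiff_const)
    exact contDiff_fst.comp h1
  have hball : ∀ t ∈ Icc (0 : ℝ) 1, σ t ∈ Metric.ball (φ[c] c) R := fun t ht =>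
    hg.flow_mem_ball hp (by rw [abs_of_nonneg ht.1]; exact ht.2)
  set γ : ℝ → M := (φ[c]).symm ∘ σ with hγ
  have hγs : ContMDiffOn 𝓘(ℝ, ℝ) (WeakMTW.model n) 1 γ (Icc 0 1) :=
    Bridge.contMDiffOn_symm_comp (by simp) (hσs.of_le (by simp)).contDiffOn
      (fun t ht => hg.ball_subset_target (hball t ht))
  have hφγ : ∀ t ∈ Icc (0 : ℝ) 1, (φ[c] ∘ γ) t = σ t := fun t ht =>
    (φ[c]).right_inv (hg.ball_subset_target (hball t ht))
  have h1 := HopfRinow.edist_le_pathELength hγs le_rfl zero_le_one le_rfl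
  have h2 : pathELength (WeakMTW.model n) γ 0 1 = ENNReal.ofReal (G.nrm (φ[c] x) v) := by
    rw [hg.pathELength_eq hγs (fun t ht => ⟨(φ[c]).map_target (hg.ball_subset_target (hball t ht)),
      by rw [← Function.comp_apply (f := φ[c]) (g := γ), hφγ t ht]; exact hball t ht⟩)]
    have h3 : ∀ t ∈ Icc (0 : ℝ) 1, ENNReal.ofReal
        (G.nrm (φ[c] (γ t)) (derivWithin (φ[c] ∘ γ) (Icc 0 1) t)) =
        ENNReal.ofReal (G.nrm (φ[c] x) v) := by
      intro t ht
      have h4 : derivWithin (φ[c] ∘ γ) (Icc 0 1) t = (G.flow t (φ[c] x, v)).2 := by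
        rw [derivWithin_congr hφγ (hφγ t ht)]
        exact (hσd t).hasDerivWithinAt.derivWithin (uniqueDiffOn_Icc zero_lt_one t ht)
      rw [h4, ← Function.comp_apply (f := φ[c]) (g := γ), hφγ t ht]
      simp only [hσ]
      rw [G.nrm_flow]
    rw [setLIntegral_congr_fun measurableSet_Icc h3]
    simp
  have h5 : γ 0 = x := by
    simp only [hγ, hσ, Function.comp_apply, G.flow_zero]
    exact (φ[c]).left_inv hx
  have h6 : γ 1 = (φ[c]).symm (G.e (φ[c] x) v) := rfl
  rw [h2, h5, h6] at h1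
  exact (edist_le_ofReal (G.nrm_nonneg _ _)).1 h1

omit [IsRiemannianManifold (WeakMTW.model n) M] in
theorem lg_self (hg : IsGood c G R ρ r lg) {z : WeakMTW.Model n}
    (hz : z ∈ Metric.ball (φ[c] c) ρ) :
    (z, z) ∈ G.pairSet (φ[c] c) ρ r ∧ lg z z = 0 := by
  have hp : (z, (0 : WeakMTW.Model n)) ∈ G.smallSet (φ[c] c) ρ r := by
    refine ⟨hz, ?_⟩
    have : G.nrm z 0 = 0 := by
      have := G.nrm_smul z 0 0
      simpa using this
    change G.nrm z 0 < r
    rw [this]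
    exact hg.normal.r_pos
  have h1 := hg.normal.lg_e _ hp
  simp only [G.e_zero] at h1
  refine ⟨⟨_, hp, ?_⟩, h1⟩
  simp only [G.e_zero]

omit [IsRiemannianManifold (WeakMTW.model n) M] in
/-- closed normal balls are compact. -/
theorem isCompact_closedNormalBall (hg : IsGood c G R ρ r lg) {z : WeakMTW.Model n}
    (hz : z ∈ Metric.ball (φ[c] c) ρ) {l : ℝ} (hl : l < r) :
    IsCompact ((φ[c]).symm '' ((fun v => G.e z v) '' {v | G.nrm z v ≤ l})) := by
  have hlo : 0 < Real.sqrt G.lo := Real.sqrt_pos.2 G.lo_pos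
  have hcn : Continuous (fun v => G.nrm z v) :=
    G.continuous_nrm.comp (continuous_const.prodMk continuous_id)
  have h1 : IsCompact {v | G.nrm z v ≤ l} := by
    apply Metric.isCompact_of_isClosed_isBounded (isClosed_le hcn continuous_const)
    apply (Metric.isBounded_closedBall (x := (0 : WeakMTW.Model n)) (r := l / Real.sqrt G.lo)).subset
    intro v hv
    rw [mem_closedBall_zero_iff, le_div_iff₀ hlo, mul_comm]
    exact (G.sqrt_lo_mul_norm_le z v).trans hv
  have hce : Continuous (fun v => G.e z v) :=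
    G.contDiff_e.continuous.comp (continuous_const.prodMk continuous_id)
  have h2 := h1.image hce
  apply h2.image_of_continuousOn
  apply (continuousOn_extChartAt_symm c).mono
  rintro _ ⟨v, hv, rfl⟩
  exact hg.ball_subset_target (hg.e_mem_ball (z := z) (v := v) ⟨hz, lt_of_le_of_lt hv hl⟩)

omit [IsRiemannianManifold (WeakMTW.model n) M] in
/-- radial bound for a path of `M` which stays in the normal ball of `x`. -/
theorem nrm_lg_le_pathELength (hg : IsGood c G R ρ r lg) {x : M}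
    (hxρ : φ[c] x ∈ Metric.ball (φ[c] c) ρ) {γ : ℝ → M} {s : ℝ} (hs0 : 0 ≤ s)
    (hγ : ContMDiffOn 𝓘(ℝ, ℝ) (WeakMTW.model n) 1 γ (Icc 0 s)) (h0 : γ 0 = x)
    (hmem : ∀ s' ∈ Icc 0 s, γ s' ∈ (φ[c]).source ∧
      (φ[c] x, φ[c] (γ s')) ∈ G.pairSet (φ[c] c) ρ r) :
    ENNReal.ofReal (G.nrm (φ[c] x) (lg (φ[c] x) (φ[c] (γ s)))) ≤
      pathELength (WeakMTW.model n) γ 0 s := by
  have hσ : ContDiffOn ℝ 1 (φ[c] ∘ γ) (Icc 0 s) :=
    Bridge.contDiffOn_chart_comp (by simp) hγ (fun s' hs' => (hmem s' hs').1)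
  have hrad := hg.normal.radial_le_lintegral (x := φ[c] x) hs0 hσ (fun s' hs' => (hmem s' hs').2)
  have hpl := hg.pathELength_eq hγ (fun s' hs' => ⟨(hmem s' hs').1,
    hg.snd_mem_ball (hmem s' hs').2⟩)
  have hn0 : G.nrm (φ[c] x) 0 = 0 := by
    have := G.nrm_smul (φ[c] x) 0 0
    simpa using this
  have h00 : lg (φ[c] x) ((φ[c] ∘ γ) 0) = 0 := by
    rw [Function.comp_apply, h0]
    exact (hg.lg_self hxρ).2
  rw [h00, hn0, sub_zero] at hrad
  rw [hpl]
  exact hrad

/-- **path-exit argument**: a path of length `≤ l < r` starting at `x` stays in the closed normal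
ball of radius `l`. -/
theorem mem_of_pathELength_le (hg : IsGood c G R ρ r lg) {x : M} (hx : x ∈ (φ[c]).source)
    (hxρ : φ[c] x ∈ Metric.ball (φ[c] c) ρ) {γ : ℝ → M}
    (hγ : ContMDiffOn 𝓘(ℝ, ℝ) (WeakMTW.model n) 1 γ (Icc 0 1)) (h0 : γ 0 = x) {l : ℝ}
    (hl0 : 0 ≤ l) (hl : pathELength (WeakMTW.model n) γ 0 1 ≤ ENNReal.ofReal l) (hlr : l < r) :
    γ 1 ∈ (φ[c]).symm '' ((fun v => G.e (φ[c] x) v) '' {v | G.nrm (φ[c] x) v ≤ l}) := by
  set z := φ[c] x with hz
  set K : Set M := (φ[c]).symm '' ((fun v => G.e z v) '' {v | G.nrm z v ≤ l}) with hK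
  have hKc : IsClosed K := (hg.isCompact_closedNormalBall hxρ hlr).isClosed
  set U : Set M := (φ[c]).source ∩ φ[c] ⁻¹' {w | (z, w) ∈ G.pairSet (φ[c] c) ρ r} with hU
  have hUo : IsOpen U := by
    apply (continuousOn_extChartAt c).isOpen_inter_preimage (isOpen_extChartAt_source c)
    exact hg.normal.isOpen.preimage (continuous_const.prodMk continuous_id)
  have hKU : K ⊆ U := by
    rintro _ ⟨_, ⟨v, hv, rfl⟩, rfl⟩
    have hp : (z, v) ∈ G.smallSet (φ[c] c) ρ r := ⟨hxρ, lt_of_le_of_lt hv hlr⟩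
    have ht := hg.ball_subset_target (hg.e_mem_ball hp)
    refine ⟨(φ[c]).map_target ht, ?_⟩
    change (z, φ[c] ((φ[c]).symm (G.e z v))) ∈ G.pairSet (φ[c] c) ρ r
    rw [(φ[c]).right_inv ht]
    exact ⟨_, hp, rfl⟩
  have hcont : ContinuousOn γ (Icc 0 1) := hγ.continuousOn
  have key : Icc (0 : ℝ) 1 ⊆ γ ⁻¹' K := by
    apply IsClosed.Icc_subset_of_forall_mem_nhdsGT_of_Icc_subset
    · rw [inter_comm]
      exact hcont.preimage_isClosed_of_isClosed isClosed_Icc hKc
    · refine ⟨z, ⟨0, ?_, G.e_zero z⟩, ?_⟩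
      · have : G.nrm z 0 = 0 := by
          have := G.nrm_smul z 0 0
          simpa using this
        change G.nrm z 0 ≤ l
        rw [this]; exact hl0
      · rw [h0]; exact (φ[c]).left_inv hx
    · intro t ht hsub
      have htK : γ t ∈ K := hsub ⟨ht.1, le_rfl⟩
      have hA : γ ⁻¹' U ∈ 𝓝[Icc 0 1] t :=
        (hcont t ⟨ht.1, ht.2.le⟩).preimage_mem_nhdsWithin (hUo.mem_nhds (hKU htK))
      obtain ⟨u, hu, hu'⟩ := mem_nhdsWithin_iff_exists_mem_nhds_inter.1 hA
      obtain ⟨ε, hε, hball⟩ := Metric.mem_nhds_iff.1 hu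
      have hm : t < min (t + ε) 1 := lt_min (by linarith) ht.2
      apply mem_of_superset (Ioo_mem_nhdsGT hm)
      intro s hs
      have hs1 : s ≤ 1 := (hs.2.trans_le (min_le_right _ _)).le
      have hs0 : 0 ≤ s := ht.1.trans hs.1.le
      have hmemU : ∀ s' ∈ Icc 0 s, γ s' ∈ U := by
        intro s' hs'
        rcases le_or_gt s' t with h | h
        · exact hKU (hsub ⟨hs'.1, h⟩)
        · apply hu'
          refine ⟨hball ?_, hs'.1, hs'.2.trans hs1⟩
          rw [Metric.mem_ball, Real.dist_eq, abs_lt]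
          have := hs.2.trans_le (min_le_left _ _)
          constructor <;> linarith [hs'.2]
      have hγ' : ContMDiffOn 𝓘(ℝ, ℝ) (WeakMTW.model n) 1 γ (Icc 0 s) :=
        hγ.mono (Icc_subset_Icc le_rfl hs1)
      have hrad := hg.nrm_lg_le_pathELength hxρ hs0 hγ' h0 hmemU
      have hle := hrad.trans ((pathELength_mono le_rfl hs1).trans hl)
      rw [ENNReal.ofReal_le_ofReal_iff hl0] at hle
      have hsU := hmemU s ⟨hs0, le_rfl⟩
      refine ⟨φ[c] (γ s), ⟨lg z (φ[c] (γ s)), hle, ?_⟩, (φ[c]).left_inv hsU.1⟩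
      exact (hg.normal.e_lg hsU.2).1
  exact key ⟨zero_le_one, le_rfl⟩

/-- **B2 (local distance)**: `dist x (exp_x v) = |v|` for `|v| < r`. -/
theorem dist_eq_nrm (hg : IsGood c G R ρ r lg) {x : M} (hx : x ∈ (φ[c]).source)
    {v : WeakMTW.Model n} (hp : (φ[c] x, v) ∈ G.smallSet (φ[c] c) ρ r) :
    dist x ((φ[c]).symm (G.e (φ[c] x) v)) = G.nrm (φ[c] x) v := by
  apply le_antisymm (hg.dist_le hx hp)
  by_contra hcon
  rw [not_le] at hcon
  set y := (φ[c]).symm (G.e (φ[c] x) v) with hy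
  have h1 : riemannianEDist (WeakMTW.model n) x y < ENNReal.ofReal (G.nrm (φ[c] x) v) := by
    rw [← IsRiemannianManifold.out (I := WeakMTW.model n) x y, edist_dist]
    exact (ENNReal.ofReal_lt_ofReal_iff (lt_of_le_of_lt dist_nonneg hcon)).2 hcon
  obtain ⟨γ, h0, h1', hγ, hlt⟩ := exists_lt_of_riemannianEDist_lt h1
  have hL : pathELength (WeakMTW.model n) γ 0 1 ≠ ⊤ := ne_top_of_lt hlt
  set l := (pathELength (WeakMTW.model n) γ 0 1).toReal with hl
  have hlv : l < G.nrm (φ[c] x) v := by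
    have := (ENNReal.toReal_lt_toReal hL ENNReal.ofReal_ne_top).2 hlt
    rwa [ENNReal.toReal_ofReal (G.nrm_nonneg _ _)] at this
  obtain ⟨_, ⟨w, hw, rfl⟩, hw'⟩ := hg.mem_of_pathELength_le hx hp.1 hγ h0 (l := l)
    ENNReal.toReal_nonneg (ENNReal.ofReal_toReal hL).ge (hlv.trans hp.2)
  have hpw : (φ[c] x, w) ∈ G.smallSet (φ[c] c) ρ r := ⟨hp.1, lt_of_le_of_lt hw (hlv.trans hp.2)⟩
  rw [h1', hy] at hw'
  have h2 : G.e (φ[c] x) w = G.e (φ[c] x) v :=
    (φ[c]).symm.injOn (hg.ball_subset_target (hg.e_mem_ball hpw))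
      (hg.ball_subset_target (hg.e_mem_ball hp)) hw'
  have h3 := hg.normal.lg_e _ hpw
  have h4 := hg.normal.lg_e _ hp
  simp only at h3 h4
  rw [h2, h4] at h3
  rw [h3] at hlv
  exact absurd hw (not_le.2 hlv)

/-- **B2'**: the metric ball of radius `r` is the normal ball, and `dist x y = |log_x y|`. -/
theorem dist_eq (hg : IsGood c G R ρ r lg) {x y : M} (hx : x ∈ (φ[c]).source)
    (hxρ : φ[c] x ∈ Metric.ball (φ[c] c) ρ) (hxy : dist x y < r) :
    y ∈ (φ[c]).source ∧ (φ[c] x, φ[c] y) ∈ G.pairSet (φ[c] c) ρ r ∧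
      G.nrm (φ[c] x) (lg (φ[c] x) (φ[c] y)) = dist x y := by
  obtain ⟨l, hl1, hl2⟩ := exists_between hxy
  have h1 : riemannianEDist (WeakMTW.model n) x y < ENNReal.ofReal l := by
    rw [← IsRiemannianManifold.out (I := WeakMTW.model n) x y, edist_dist]
    exact (ENNReal.ofReal_lt_ofReal_iff (lt_of_le_of_lt dist_nonneg hl1)).2 hl1
  obtain ⟨γ, h0, h1', hγ, hlt⟩ := exists_lt_of_riemannianEDist_lt h1
  obtain ⟨_, ⟨w, hw, rfl⟩, hw'⟩ := hg.mem_of_pathELength_le hx hxρ hγ h0 (l := l)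
    (dist_nonneg.trans hl1.le) hlt.le hl2
  have hpw : (φ[c] x, w) ∈ G.smallSet (φ[c] c) ρ r := ⟨hxρ, lt_of_le_of_lt hw hl2⟩
  have ht := hg.ball_subset_target (hg.e_mem_ball hpw)
  rw [h1'] at hw'
  have h2 : φ[c] y = G.e (φ[c] x) w := by
    rw [← hw']; exact (φ[c]).right_inv ht
  refine ⟨by rw [← hw']; exact (φ[c]).map_target ht, by rw [h2]; exact ⟨_, hpw, rfl⟩, ?_⟩
  have h3 := hg.normal.lg_e _ hpw
  simp only at h3
  rw [h2, h3, ← hg.dist_eq_nrm hx hpw, hw']

end IsGood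

end

end Claimed.Agent.R213.Geo
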