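import Claimed.Agent.R213.Geo.LFReg
import Claimed.Agent.R213.Geo.LocalDist

/-!
# Row 213, GEOMETRY layer, LEVEL B, file B2c: short chart geodesics realise the distance of `M`
(`dist_eq surj inj` of `IsLocalFlow`).

Let `x ∈ reg ρ`, `u = φ x`.  `rad x y := G.nrm u (lg u (φ y))` (radial function).
* UPPER BOUND `dist x (LF t p).1 ≤ |t| ‖p.2‖`: the curve `s ↦ (LF s p).1` is `C^1` with speed `‖p.2‖`
  (`LF_vel`, `LF_norm`), `riemannianEDist_le_pathELength`, `IsRiemannianManifold.out`.
* LOWER BOUND (`rad_le_dist`): if `dist x y < s ≤ r` then `y` lies in the normal ball of radius `s` and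
  `rad x y ≤ dist x y`.  Take a `C^1` path of length `< s` (`exists_lt_locally_constant_of_riemannianEDist_lt`)
  and copy the exit argument of Mathlib's `setOfPred_riemannianEDist_lt_subset_nhds`
  (`IsClosed.Icc_subset_of_forall_mem_nhdsGT_of_Icc_subset`): closed set = image of the compact set
  `{nrm ≤ s'}`, open set = normal ball (`IsNormal.isOpen`); while the path stays in the normal ball,
  `sqrt (2 energy + ε^2)` grows at most at the speed of the path (`IsNormal.deriv_radial_le`,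
  `tcoord_mfderiv_curve`, `norm_eq_nrm`).
-/

set_option autoImplicit false
set_option linter.unusedSectionVars false
open Claims Claims.C0370 Claims.C0370.WeakMTWGlobalSupport
open scoped Manifold ContDiff Topology
open Set Filter Manifold Bundle

namespace Claimed.Agent.R213.Geo

noncomputable section

variable {n : ℕ} {M : Type*} [MetricSpace M] [ChartedSpace (WeakMTW.Model n) M]
  [IsManifold (WeakMTW.model n) ∞ M]
  [RiemannianBundle (fun x : M => TangentSpace (WeakMTW.model n) x)]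
  [IsContMDiffRiemannianBundle (WeakMTW.model n) ∞ (WeakMTW.Model n)
    (fun x : M => TangentSpace (WeakMTW.model n) x)]
  [IsRiemannianManifold (WeakMTW.model n) M]

namespace ChartData

variable {c : M} (D : ChartData (n := n) c)

/-- chart data are good in the sense of `LocalDist.lean`. -/
theorem isGood : IsGood c D.G D.R D.ρ D.r D.lg where
  R_pos := D.R_pos
  sub := D.sub
  eq := D.eq
  normal := D.normal
  small := by
    have hlo : 0 < Real.sqrt D.G.lo := Real.sqrt_pos.2 D.G.lo_pos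
    have h1 := D.ρ_le
    have h2 := D.r_le
    have h3 := D.normal.ρ_pos
    nlinarith

theorem mem_source_of_reg {x : M} {s : ℝ} (hx : x ∈ D.reg s) :
    x ∈ (extChartAt (WeakMTW.model n) c).source := by
  rw [extChartAt_source]; exact hx.1

theorem LF_fst (t : ℝ) (p : TM n M) :
    (D.LF t p).1 = (extChartAt (WeakMTW.model n) c).symm
      (D.G.e (extChartAt (WeakMTW.model n) c p.1) (t • (tcoord c p).2)) := by
  rw [D.G.e_smul]
  rfl

theorem smul_mem_smallSet {p : TM n M} {t : ℝ} (hp : p.1 ∈ D.reg D.ρ) (ht : |t| * ‖p.2‖ < D.r) :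
    (extChartAt (WeakMTW.model n) c p.1, t • (tcoord c p).2) ∈
      D.G.smallSet (extChartAt (WeakMTW.model n) c c) D.ρ D.r := by
  refine ⟨hp.2, ?_⟩
  change D.G.nrm (extChartAt (WeakMTW.model n) c p.1) (t • (tcoord c p).2) < D.r
  rw [D.G.nrm_smul]
  have h := D.norm_eq_nrm (D.reg_mono D.isGood.ρ_le hp)
  rw [h] at ht
  exact ht

theorem LF_dist {p : TM n M} {t : ℝ} (hp : p.1 ∈ D.reg D.ρ) (ht : |t| * ‖p.2‖ < D.r) :
    dist p.1 (D.LF t p).1 = |t| * ‖p.2‖ := by
  rw [D.LF_fst, D.isGood.dist_eq_nrm (D.mem_source_of_reg hp) (D.smul_mem_smallSet hp ht),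
    D.G.nrm_smul, D.norm_eq_nrm (D.reg_mono D.isGood.ρ_le hp)]
  rfl

/-- upper bound. -/
theorem dist_LF_le {p : TM n M} {t : ℝ} (hp : p.1 ∈ D.reg D.ρ) (ht : |t| * ‖p.2‖ < D.r) :
    dist p.1 (D.LF t p).1 ≤ |t| * ‖p.2‖ :=
  (D.LF_dist hp ht).le

/-- the radial function IS the distance. -/
theorem rad_eq_dist {x y : M} (hx : x ∈ D.reg D.ρ) (hy : dist x y < D.r) :
    D.G.nrm (extChartAt (WeakMTW.model n) c x)
      (D.lg (extChartAt (WeakMTW.model n) c x) (extChartAt (WeakMTW.model n) c y)) = dist x y :=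
  (D.isGood.dist_eq (D.mem_source_of_reg hx) hx.2 hy).2.2

/-- lower bound: points at distance `< r` are in the normal ball, and the radial function is bounded
by the distance. -/
theorem rad_le_dist {x y : M} (hx : x ∈ D.reg D.ρ) (hy : dist x y < D.r) :
    y ∈ D.reg D.R ∧
    (extChartAt (WeakMTW.model n) c x, extChartAt (WeakMTW.model n) c y) ∈
      D.G.pairSet (extChartAt (WeakMTW.model n) c c) D.ρ D.r ∧
    D.G.nrm (extChartAt (WeakMTW.model n) c x)
      (D.lg (extChartAt (WeakMTW.model n) c x) (extChartAt (WeakMTW.model n) c y)) ≤ dist x y := by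
  obtain ⟨h1, h2, h3⟩ := D.isGood.dist_eq (D.mem_source_of_reg hx) hx.2 hy
  refine ⟨⟨?_, D.isGood.snd_mem_ball h2⟩, h2, h3.le⟩
  rwa [extChartAt_source] at h1

theorem tcoord_ofChart {x : M} (hx : x ∈ (extChartAt (WeakMTW.model n) c).source)
    (a : WeakMTW.Model n) :
    tcoord c (⟨x, Bridge.ofChart c x a⟩ : TM n M) = (extChartAt (WeakMTW.model n) c x, a) := by
  refine Prod.ext rfl ?_
  change mfderiv (WeakMTW.model n) 𝓘(ℝ, WeakMTW.Model n) (extChartAt (WeakMTW.model n) c) x
    (Bridge.ofChart c x a) = a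
  have h := Bridge.toChart_ofChart hx a
  rw [Bridge.toChart_eq_mfderiv hx] at h
  exact h

theorem LF_surj {x y : M} (hx : x ∈ D.reg D.ρ) (hy : dist x y < D.r) :
    ∃ v : TangentSpace (WeakMTW.model n) x, ‖v‖ = dist x y ∧ (D.LF 1 ⟨x, v⟩).1 = y := by
  have hxs := D.mem_source_of_reg hx
  obtain ⟨h1, h2, h3⟩ := D.isGood.dist_eq hxs hx.2 hy
  set a := D.lg (extChartAt (WeakMTW.model n) c x) (extChartAt (WeakMTW.model n) c y) with ha
  refine ⟨Bridge.ofChart c x a, ?_, ?_⟩
  · have h4 := D.norm_eq_nrm (p := (⟨x, Bridge.ofChart c x a⟩ : TM n M))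
      (D.reg_mono D.isGood.ρ_le hx)
    rw [tcoord_ofChart hxs] at h4
    rw [← h3]
    exact h4
  · rw [D.LF_fst, tcoord_ofChart hxs, one_smul]
    change (extChartAt (WeakMTW.model n) c).symm (D.G.e (extChartAt (WeakMTW.model n) c x) a) = y
    rw [(D.normal.e_lg h2).1]
    exact (extChartAt (WeakMTW.model n) c).left_inv h1

theorem LF_inj {x : M} {v w : TangentSpace (WeakMTW.model n) x} (hx : x ∈ D.reg D.ρ)
    (hv : ‖v‖ < D.r) (hw : ‖w‖ < D.r) (h : (D.LF 1 ⟨x, v⟩).1 = (D.LF 1 ⟨x, w⟩).1) : v = w := by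
  have hxs := D.mem_source_of_reg hx
  have hv' := D.smul_mem_smallSet (p := (⟨x, v⟩ : TM n M)) (t := 1) hx (by simpa using hv)
  have hw' := D.smul_mem_smallSet (p := (⟨x, w⟩ : TM n M)) (t := 1) hx (by simpa using hw)
  rw [D.LF_fst, D.LF_fst] at h
  have h2 := (extChartAt (WeakMTW.model n) c).symm.injOn
    (D.isGood.ball_subset_target (D.isGood.e_mem_ball hv'))
    (D.isGood.ball_subset_target (D.isGood.e_mem_ball hw')) h
  have h3 := D.normal.lg_e _ hv'
  have h4 := D.normal.lg_e _ hw'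
  simp only at h3 h4
  rw [h2, h4, one_smul, one_smul] at h3
  have h5 : Bridge.toChart c x w = Bridge.toChart c x v := by
    rw [Bridge.toChart_eq_mfderiv hxs]
    exact h3
  have h6 := congrArg (Bridge.ofChart c x) h5
  rw [Bridge.ofChart_toChart hxs, Bridge.ofChart_toChart hxs] at h6
  exact h6.symm

end ChartData

end

end Claimed.Agent.R213.Geo
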