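import Claimed.Agent.R213.Geo.LFAlg

/-!
# Row 213, GEOMETRY layer, LEVEL B, file B2b: regularity of the chart flow `D.LF`
(`vel cont_time smooth` of `IsLocalFlow`).

`LF t = tinv c ∘ G.flow t ∘ tcoord c`; use `contMDiffOn_tcoord`, `contMDiffOn_tinv`,
`GMetric.contDiff_flow`, `tcoord_LF`, `hasMFDerivAt_symm_curve`, `hasDerivAt_flow`
(the first component of the spray is the velocity).
-/

set_option autoImplicit false
set_option linter.unusedSectionVars false
open Claims Claims.C0370 Claims.C0370.WeakMTWGlobalSupport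
open scoped Manifold ContDiff Topology
open Set Filter Manifold Bundle

namespace Claimed.Agent.R213.Geo

noncomputable section

variable {n : ℕ} {M : Type*} [MetricSpace M] [ChartedSpace (WeakMTW.Model n) M]
  [IsManifold (WeakMTW.model n) ∞ M]
  [RiemannianBundle (fun x : M => TangentSpace (WeakMTW.model n) x)]
  [IsContMDiffRiemannianBundle (WeakMTW.model n) ∞ (WeakMTW.Model n)
    (fun x : M => TangentSpace (WeakMTW.model n) x)]
  [IsRiemannianManifold (WeakMTW.model n) M]

namespace ChartData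

variable {c : M} (D : ChartData (n := n) c)

/-- the flow line stays in the chart target. -/
theorem flow_mem_target {p : TM n M} {t : ℝ} (hp : p.1 ∈ D.reg D.ρ) (ht : |t| * ‖p.2‖ < D.r) :
    (D.G.flow t (tcoord c p)).1 ∈ (extChartAt (WeakMTW.model n) c).target := by
  have hρ := D.normal.ρ_pos
  have hR := D.ρ_le
  obtain ⟨h1, h2⟩ := D.tcoord_LF (s := D.ρ) (by linarith) hp ht
  rw [← h1]
  exact (extChartAt (WeakMTW.model n) c).map_source (by rw [extChartAt_source]; exact h2.1)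

theorem contMDiffAt_tinv_flow {p : TM n M} {t : ℝ} (hp : p.1 ∈ D.reg D.ρ)
    (ht : |t| * ‖p.2‖ < D.r) :
    ContMDiffAt 𝓘(ℝ, WeakMTW.Model n × WeakMTW.Model n) (WeakMTW.model n).tangent ∞
      (tinv (M := M) c) (D.G.flow t (tcoord c p)) :=
  (contMDiffOn_tinv c).contMDiffAt ((isOpen_ttarget c).mem_nhds (D.flow_mem_target hp ht))

theorem LF_vel {p : TM n M} {t : ℝ} (hp : p.1 ∈ D.reg D.ρ) (ht : |t| * ‖p.2‖ < D.r) :
    ContMDiffAt 𝓘(ℝ, ℝ) (WeakMTW.model n) ∞ (fun s => (D.LF s p).1) t ∧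
      lift (fun s => (D.LF s p).1) t = D.LF t p := by
  have htar := D.flow_mem_target hp ht
  have hσ : ContDiff ℝ ∞ (fun s : ℝ => (D.G.flow s (tcoord c p)).1) :=
    contDiff_fst.comp (D.G.contDiff_flow.comp (contDiff_id.prodMk contDiff_const))
  constructor
  · have h1 : ContMDiffAt 𝓘(ℝ, WeakMTW.Model n) (WeakMTW.model n) ∞
        (extChartAt (WeakMTW.model n) c).symm ((D.G.flow t (tcoord c p)).1) :=
      (contMDiffOn_extChartAt_symm (I := WeakMTW.model n) (n := ∞) c).contMDiffAt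
        ((isOpen_extChartAt_target (I := WeakMTW.model n) c).mem_nhds htar)
    have h2 : ContMDiffAt 𝓘(ℝ, ℝ) 𝓘(ℝ, WeakMTW.Model n) ∞
        (fun s : ℝ => (D.G.flow s (tcoord c p)).1) t := hσ.contDiffAt.contMDiffAt
    exact ContMDiffAt.comp (g := (extChartAt (WeakMTW.model n) c).symm) t h1 h2
  · have hd : HasDerivAt (fun s : ℝ => (D.G.flow s (tcoord c p)).1)
        (D.G.flow t (tcoord c p)).2 t := by
      have h1 := (ContinuousLinearMap.fst ℝ (WeakMTW.Model n) (WeakMTW.Model n)).hasFDerivAt.comp_hasDerivAt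
        t (D.G.hasDerivAt_flow t (tcoord c p))
      exact h1
    exact (hasMFDerivAt_symm_curve (c := c) hd htar).2

theorem LF_cont_time {p : TM n M} {t : ℝ} (hp : p.1 ∈ D.reg D.ρ) (ht : |t| * ‖p.2‖ < D.r) :
    ContinuousAt (fun s => D.LF s p) t := by
  have h1 : ContinuousAt (tinv (M := M) c) (D.G.flow t (tcoord c p)) :=
    (D.contMDiffAt_tinv_flow hp ht).continuousAt
  have h2 : ContinuousAt (fun s : ℝ => D.G.flow s (tcoord c p)) t :=
    (D.G.hasDerivAt_flow t (tcoord c p)).continuousAt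
  exact ContinuousAt.comp (g := tinv (M := M) c) h1 h2

theorem LF_smooth {p : TM n M} {t : ℝ} (hp : p.1 ∈ D.reg D.ρ) (ht : |t| * ‖p.2‖ < D.r) :
    ContMDiffAt (WeakMTW.model n).tangent (WeakMTW.model n).tangent ∞ (D.LF t) p := by
  have h1 := D.contMDiffAt_tinv_flow hp ht
  have h2 : ContMDiffAt 𝓘(ℝ, WeakMTW.Model n × WeakMTW.Model n)
      𝓘(ℝ, WeakMTW.Model n × WeakMTW.Model n) ∞ (D.G.flow t) (tcoord c p) :=
    (D.G.contDiff_flow_time t).contDiffAt.contMDiffAt
  have h3 : ContMDiffAt (WeakMTW.model n).tangent 𝓘(ℝ, WeakMTW.Model n × WeakMTW.Model n) ∞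
      (tcoord c) p :=
    (contMDiffOn_tcoord c).contMDiffAt ((isOpen_tsource c).mem_nhds hp.1)
  exact h1.comp p (h2.comp p h3)

end ChartData

end

end Claimed.Agent.R213.Geo
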