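import Claimed.Agent.R213.Geo.Normal
import Claimed.Agent.R213.Geo.GFlowVar

/-!
# Row 213, GEOMETRY layer, LEVEL A, file A4b: derivative of the local cost (from `first_variation`
at `t = 1`, `p = (x, lg x y)`, `q = (ẋ, D lg (ẋ,ẏ))`, using `e x' (lg x' y') = y'`), radial bound
(Cauchy-Schwarz `abs_g_le` + `nrm_flow`).
-/

set_option autoImplicit false
set_option linter.unusedSectionVars false
open scoped ContDiff Topology
open Set

namespace Claimed.Agent.R213.Geo

noncomputable section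

variable {E : Type*} [NormedAddCommGroup E] [NormedSpace ℝ E] [FiniteDimensional ℝ E]

namespace GMetric

variable {G : GMetric E} {x₀ : E} {ρ r : ℝ} {lg : E → E → E}

/-- joint derivative of the local cost `(x,y) ↦ |log_x y|²/2`. -/
theorem IsNormal.hasFDerivAt_cost (h : G.IsNormal x₀ ρ r lg) {q : E × E}
    (hq : q ∈ G.pairSet x₀ ρ r) :
    HasFDerivAt (fun q' : E × E => G.energy (q'.1, lg q'.1 q'.2))
      ((G.g q.2 (G.ev q.1 (lg q.1 q.2))).comp (ContinuousLinearMap.snd ℝ E E)
        - (G.g q.1 (lg q.1 q.2)).comp (ContinuousLinearMap.fst ℝ E E)) q := by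
  have hU : G.pairSet x₀ ρ r ∈ 𝓝 q := h.isOpen.mem_nhds hq
  have hlg : DifferentiableAt ℝ (fun q' : E × E => lg q'.1 q'.2) q :=
    ((h.smooth q hq).contDiffAt hU).differentiableAt (by simp)
  set Λ : E × E → E × E := fun q' => (q'.1, lg q'.1 q'.2) with hΛ
  set L' := fderiv ℝ (fun q' : E × E => lg q'.1 q'.2) q with hL'
  have hΛd : HasFDerivAt Λ ((ContinuousLinearMap.fst ℝ E E).prod L') q :=
    hasFDerivAt_fst.prodMk hlg.hasFDerivAt
  have hfl : HasFDerivAt (G.flow 1) (fderiv ℝ (G.flow 1) (Λ q)) (Λ q) :=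
    ((G.contDiff_flow_time 1).differentiable (by simp) _).hasFDerivAt
  have hen : HasFDerivAt G.energy (fderiv ℝ G.energy (Λ q)) (Λ q) :=
    (G.contDiff_energy.differentiable (by simp) _).hasFDerivAt
  have h1 : HasFDerivAt (fun q' => (G.flow 1 (Λ q')).1)
      ((ContinuousLinearMap.fst ℝ E E).comp ((fderiv ℝ (G.flow 1) (Λ q)).comp
        ((ContinuousLinearMap.fst ℝ E E).prod L'))) q :=
    hasFDerivAt_fst.comp q (hfl.comp q hΛd)
  have h2 : HasFDerivAt (fun q' => (G.flow 1 (Λ q')).1) (ContinuousLinearMap.snd ℝ E E) q := by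
    refine hasFDerivAt_snd.congr_of_eventuallyEq ?_
    filter_upwards [hU] with q' hq'
    exact (h.e_lg hq').1
  have h3 := h1.unique h2
  refine (hen.comp q hΛd).congr_fderiv ?_
  refine ContinuousLinearMap.ext fun w => ?_
  have fv := G.first_variation 1 (Λ q) (((ContinuousLinearMap.fst ℝ E E).prod L') w)
  have h3w : (fderiv ℝ (G.flow 1) (Λ q) (((ContinuousLinearMap.fst ℝ E E).prod L') w)).1 = w.2 :=
    DFunLike.congr_fun h3 w
  have he : (G.flow 1 (Λ q)).1 = q.2 := (h.e_lg hq).1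
  rw [h3w, he, one_mul] at fv
  simp only [ContinuousLinearMap.comp_apply, sub_apply,
    ContinuousLinearMap.coe_fst', ContinuousLinearMap.coe_snd']
  rw [← fv]
  rfl

/-- **A4.3** derivative of the local cost in the second variable. -/
theorem IsNormal.hasFDerivAt_cost_right (h : G.IsNormal x₀ ρ r lg) {x y : E}
    (hq : (x, y) ∈ G.pairSet x₀ ρ r) :
    HasFDerivAt (fun y' => G.energy (x, lg x y')) (G.g y (G.ev x (lg x y))) y := by
  have hc : HasFDerivAt (fun y' : E => (x, y')) (ContinuousLinearMap.inr ℝ E E) y :=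
    hasFDerivAt_prodMk_right x y
  have := (h.hasFDerivAt_cost hq).comp y hc
  refine this.congr_fderiv ?_
  refine ContinuousLinearMap.ext fun w => ?_
  simp

/-- **A4.4** derivative of the local cost in the first variable. -/
theorem IsNormal.hasFDerivAt_cost_left (h : G.IsNormal x₀ ρ r lg) {x y : E}
    (hq : (x, y) ∈ G.pairSet x₀ ρ r) :
    HasFDerivAt (fun x' => G.energy (x', lg x' y)) (- G.g x (lg x y)) x := by
  have hc : HasFDerivAt (fun x' : E => (x', y)) (ContinuousLinearMap.inl ℝ E E) x :=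
    hasFDerivAt_prodMk_left x y
  have := (h.hasFDerivAt_cost hq).comp x hc
  refine this.congr_fderiv ?_
  refine ContinuousLinearMap.ext fun w => ?_
  simp

/-- **A5** radial bound: along any differentiable curve the regularised radial function grows at
most at the speed of the curve. -/
theorem IsNormal.deriv_radial_le (h : G.IsNormal x₀ ρ r lg) {x : E} {σ : ℝ → E} {σ' : E} {t ε : ℝ}
    (hε : 0 < ε) (hq : (x, σ t) ∈ G.pairSet x₀ ρ r) (hσ : HasDerivAt σ σ' t) :
    ∃ d : ℝ, HasDerivAt (fun s => Real.sqrt (2 * G.energy (x, lg x (σ s)) + ε ^ 2)) d t ∧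
      |d| ≤ G.nrm (σ t) σ' := by
  set v := lg x (σ t) with hv
  have hE : HasDerivAt (fun s => G.energy (x, lg x (σ s))) (G.g (σ t) (G.ev x v) σ') t :=
    (h.hasFDerivAt_cost_right hq).comp_hasDerivAt t hσ
  have h2E : 2 * G.energy (x, v) = G.nrm x v ^ 2 := by
    rw [G.nrm_sq]; simp [energy]; ring
  have hpos : 0 < 2 * G.energy (x, v) + ε ^ 2 := by
    rw [h2E]; positivity
  have hd := ((hE.const_mul 2).add_const (ε ^ 2)).sqrt hpos.ne'
  refine ⟨_, hd, ?_⟩
  have hnev : G.nrm (σ t) (G.ev x v) = G.nrm x v := by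
    have := G.nrm_flow 1 (x, v)
    have he : (G.flow 1 (x, v)).1 = σ t := (h.e_lg hq).1
    rw [he] at this
    exact this
  have hcs := G.abs_g_le (σ t) (G.ev x v) σ'
  rw [hnev] at hcs
  have hs : G.nrm x v ≤ Real.sqrt (2 * G.energy (x, v) + ε ^ 2) := by
    apply Real.le_sqrt_of_sq_le
    rw [h2E]; nlinarith [sq_nonneg ε]
  have hspos : 0 < Real.sqrt (2 * G.energy (x, v) + ε ^ 2) := Real.sqrt_pos.2 hpos
  rw [abs_div, abs_mul, abs_of_pos (by positivity : (0:ℝ) < 2 * Real.sqrt (2 * G.energy (x, v) + ε ^ 2)),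
    abs_of_pos (by norm_num : (0:ℝ) < 2), div_le_iff₀ (by positivity)]
  have hn := G.nrm_nonneg (σ t) σ'
  nlinarith [mul_le_mul_of_nonneg_right hs hn]

end GMetric

end

end Claimed.Agent.R213.Geo
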