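import Claimed.Agent.R213.Geo.ChartMetric
import Claimed.Agent.R213.Geo.NormalCost

/-!
# Row 213, GEOMETRY layer, LEVEL B, file B2: the abstract package `IsLocalFlow` and chart data

`IsLocalFlow N0 N1 N2 r F` collects everything the global part of the GEOMETRY layer needs to know
about the geodesic flow `F t` read in one chart.  `N0 ⊆ N1 ⊆ N2` are nested open sets of `M`;
all statements concern `p : TM` and times `t` with `|t| * ‖p.2‖ < r`.

The global files (`Core`, `Indep`, `Global*`) use ONLY `exists_localFlow`.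
-/

set_option autoImplicit false
set_option linter.unusedSectionVars false
open Claims Claims.C0370 Claims.C0370.WeakMTWGlobalSupport
open scoped Manifold ContDiff Topology
open Set Filter Manifold Bundle

namespace Claimed.Agent.R213.Geo

noncomputable section

variable {n : ℕ} {M : Type*} [MetricSpace M] [ChartedSpace (WeakMTW.Model n) M]
  [IsManifold (WeakMTW.model n) ∞ M]
  [RiemannianBundle (fun x : M => TangentSpace (WeakMTW.model n) x)]
  [IsContMDiffRiemannianBundle (WeakMTW.model n) ∞ (WeakMTW.Model n)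
    (fun x : M => TangentSpace (WeakMTW.model n) x)]

/-- the canonical one-form `θ_p(ξ) = ⟨p.2, dπ ξ⟩` on `TM`. -/
def theta (p : TM n M) (ξ : TangentSpace (WeakMTW.model n).tangent p) : ℝ :=
  inner ℝ p.2 (mfderiv (WeakMTW.model n).tangent (WeakMTW.model n) (fun q : TM n M => q.1) p ξ)

/-- the energy on `TM`. -/
def En (p : TM n M) : ℝ := ‖p.2‖ ^ 2 / 2

/-- the differential of the energy. -/
def dEn (p : TM n M) (ξ : TangentSpace (WeakMTW.model n).tangent p) : ℝ :=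
  mfderiv (WeakMTW.model n).tangent 𝓘(ℝ, ℝ) (En (n := n) (M := M)) p ξ

/-- the lift of a curve to `TM`. -/
def lift (γ : ℝ → M) (t : ℝ) : TM n M :=
  ⟨γ t, mfderiv 𝓘(ℝ, ℝ) (WeakMTW.model n) γ t (1 : ℝ)⟩

/-- fibrewise scaling. -/
def scal (a : ℝ) (p : TM n M) : TM n M := ⟨p.1, a • p.2⟩

/-- The geodesic flow seen in one chart. -/
structure IsLocalFlow (N0 N1 N2 : Set M) (r : ℝ) (F : ℝ → TM n M → TM n M) : Prop where
  open0 : IsOpen N0
  open1 : IsOpen N1
  sub01 : N0 ⊆ N1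
  sub12 : N1 ⊆ N2
  r_pos : 0 < r
  zero : ∀ p : TM n M, p.1 ∈ N2 → F 0 p = p
  stay0 : ∀ (p : TM n M) (t : ℝ), p.1 ∈ N0 → |t| * ‖p.2‖ < r → (F t p).1 ∈ N1
  stay1 : ∀ (p : TM n M) (t : ℝ), p.1 ∈ N1 → |t| * ‖p.2‖ < r → (F t p).1 ∈ N2
  norm_eq : ∀ (p : TM n M) (t : ℝ), p.1 ∈ N1 → |t| * ‖p.2‖ < r → ‖(F t p).2‖ = ‖p.2‖
  add : ∀ (p : TM n M) (s t : ℝ), p.1 ∈ N1 → |t| * ‖p.2‖ < r → F s (F t p) = F (s + t) p
  homog : ∀ (p : TM n M) (a t : ℝ), p.1 ∈ N2 → F t (scal a p) = scal a (F (a * t) p)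
  vel : ∀ (p : TM n M) (t : ℝ), p.1 ∈ N1 → |t| * ‖p.2‖ < r →
    ContMDiffAt 𝓘(ℝ, ℝ) (WeakMTW.model n) ∞ (fun s => (F s p).1) t ∧
      lift (fun s => (F s p).1) t = F t p
  dist_eq : ∀ (p : TM n M) (t : ℝ), p.1 ∈ N1 → |t| * ‖p.2‖ < r →
    dist p.1 (F t p).1 = |t| * ‖p.2‖
  surj : ∀ x y : M, x ∈ N1 → dist x y < r →
    ∃ v : TangentSpace (WeakMTW.model n) x, ‖v‖ = dist x y ∧ (F 1 ⟨x, v⟩).1 = y
  inj : ∀ (x : M) (v w : TangentSpace (WeakMTW.model n) x), x ∈ N1 → ‖v‖ < r → ‖w‖ < r →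
    (F 1 ⟨x, v⟩).1 = (F 1 ⟨x, w⟩).1 → v = w
  nocorner : ∀ (p : TM n M) (ε δ : ℝ) (b : TangentSpace (WeakMTW.model n) (F ε p).1),
    p.1 ∈ N0 → 0 < ε → 0 < δ → (ε + δ) * ‖p.2‖ < r → ‖b‖ = ‖p.2‖ →
    dist p.1 (F δ ⟨(F ε p).1, b⟩).1 = (ε + δ) * ‖p.2‖ → (⟨(F ε p).1, b⟩ : TM n M) = F ε p
  smooth : ∀ (p : TM n M) (t : ℝ), p.1 ∈ N1 → |t| * ‖p.2‖ < r →
    ContMDiffAt (WeakMTW.model n).tangent (WeakMTW.model n).tangent ∞ (F t) p
  cont_time : ∀ (p : TM n M) (t : ℝ), p.1 ∈ N1 → |t| * ‖p.2‖ < r →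
    ContinuousAt (fun s => F s p) t
  fv : ∀ (p : TM n M) (t : ℝ), p.1 ∈ N1 → |t| * ‖p.2‖ < r →
    ∀ ξ : TangentSpace (WeakMTW.model n).tangent p,
      theta (F t p) (mfderiv (WeakMTW.model n).tangent (WeakMTW.model n).tangent (F t) p ξ)
        - theta p ξ = t * dEn p ξ

/-- Data attached to the chart centred at `c`. -/
structure ChartData (c : M) where
  G : GMetric (WeakMTW.Model n)
  R : ℝ
  ρ : ℝ
  r : ℝ
  lg : WeakMTW.Model n → WeakMTW.Model n → WeakMTW.Model n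
  R_pos : 0 < R
  sub : Metric.closedBall (extChartAt (WeakMTW.model n) c c) R ⊆
    (extChartAt (WeakMTW.model n) c).target
  eq : ∀ u ∈ Metric.ball (extChartAt (WeakMTW.model n) c c) R, G.g u = gChart c u
  normal : G.IsNormal (extChartAt (WeakMTW.model n) c c) ρ r lg
  ρ_le : 2 * ρ ≤ R
  r_le : 4 * r ≤ Real.sqrt G.lo * ρ

/-- **B2.0** chart data exist (`exists_gmetric`, `exists_normal`, `IsNormal.mono`). -/
theorem exists_chartData (c : M) : Nonempty (ChartData (n := n) c) := by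
  obtain ⟨G, R, hR, hsub, heq⟩ := exists_gmetric (n := n) c
  obtain ⟨ρ0, r0, lg, hN⟩ := G.exists_normal (extChartAt (WeakMTW.model n) c c)
  have hlo : 0 < Real.sqrt G.lo := Real.sqrt_pos.2 G.lo_pos
  have hρ : 0 < min ρ0 (R / 2) := lt_min hN.ρ_pos (by positivity)
  have hr : 0 < min r0 (Real.sqrt G.lo * min ρ0 (R / 2) / 4) := lt_min hN.r_pos (by positivity)
  exact ⟨{
    G := G
    R := R
    ρ := min ρ0 (R / 2)
    r := min r0 (Real.sqrt G.lo * min ρ0 (R / 2) / 4)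
    lg := lg
    R_pos := hR
    sub := hsub
    eq := heq
    normal := hN.mono hρ (min_le_left _ _) hr (min_le_left _ _)
    ρ_le := by
      have := min_le_right ρ0 (R / 2)
      linarith
    r_le := by
      have := min_le_right r0 (Real.sqrt G.lo * min ρ0 (R / 2) / 4)
      linarith }⟩

namespace ChartData

variable {c : M} (D : ChartData (n := n) c)

/-- the part of the chart domain which is mapped into the ball of radius `s`. -/
def reg (_D : ChartData (n := n) c) (s : ℝ) : Set M :=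
  {x | x ∈ (chartAt (WeakMTW.Model n) c).source ∧
    extChartAt (WeakMTW.model n) c x ∈ Metric.ball (extChartAt (WeakMTW.model n) c c) s}

/-- the geodesic flow of the chart metric, transported to `TM`. -/
def LF (t : ℝ) (p : TM n M) : TM n M := tinv c (D.G.flow t (tcoord c p))

end ChartData

end

end Claimed.Agent.R213.Geo
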