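import Mathlib

/-!
# Row 213, GEOMETRY layer, LEVEL A (pure calculus on a vector space), file A1

`GMetric E` : a smooth Riemannian metric on the WHOLE vector space `E`, uniformly comparable to the
norm.  (At LEVEL B the metric read in a chart is glued to the Euclidean one by a bump function, so
there are no domain issues and the geodesic flow is complete.)

This file: `sharp`, Christoffel vector `chris x v = Γ_x(v,v)`, the geodesic spray, the energy.
-/

set_option autoImplicit false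
set_option linter.unusedSectionVars false
open scoped ContDiff Topology

namespace Claimed.Agent.R213.Geo

noncomputable section

/-- A smooth Riemannian metric on the whole vector space, uniformly comparable to the norm. -/
structure GMetric (E : Type*) [NormedAddCommGroup E] [NormedSpace ℝ E] where
  g : E → E →L[ℝ] E →L[ℝ] ℝ
  smooth : ContDiff ℝ ∞ g
  symm : ∀ x v w, g x v w = g x w v
  lo : ℝ
  lo_pos : 0 < lo
  lower : ∀ x v, lo * ‖v‖ ^ 2 ≤ g x v v
  hi : ℝ
  upper : ∀ x v, g x v v ≤ hi * ‖v‖ ^ 2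

variable {E : Type*} [NormedAddCommGroup E] [NormedSpace ℝ E] [FiniteDimensional ℝ E]

namespace GMetric

variable (G : GMetric E)

/-- the `g`-norm of a vector at `x`. -/
def nrm (x v : E) : ℝ := Real.sqrt (G.g x v v)

/-- the energy `g_x(v,v)/2` as a function on `E × E`. -/
def energy (p : E × E) : ℝ := G.g p.1 p.2 p.2 / 2

/-- raising indices: the inverse of `v ↦ g_x(v,·)`. -/
def sharp (x : E) : (E →L[ℝ] ℝ) →L[ℝ] E := (G.g x).inverse

/-- the covector `w ↦ Dg_x[v](v,w) - Dg_x[w](v,v)/2`. -/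
def chrisCov (x v : E) : E →L[ℝ] ℝ :=
  fderiv ℝ G.g x v v - (1 / 2 : ℝ) • ((fderiv ℝ G.g x).flip v).flip v

/-- `Γ_x(v,v)`. -/
def chris (x v : E) : E := G.sharp x (G.chrisCov x v)

/-- the geodesic spray on `E × E`. -/
def spray (p : E × E) : E × E := (p.2, - G.chris p.1 p.2)

theorem chrisCov_apply (x v w : E) :
    G.chrisCov x v w = fderiv ℝ G.g x v v w - fderiv ℝ G.g x w v v / 2 := by
  simp [chrisCov]; ring

theorem g_pos {x v : E} (hv : v ≠ 0) : 0 < G.g x v v :=
  lt_of_lt_of_le (by have := norm_pos_iff.2 hv; have := G.lo_pos; positivity) (G.lower x v)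

theorem g_nonneg (x v : E) : 0 ≤ G.g x v v :=
  le_trans (by have := G.lo_pos; positivity) (G.lower x v)

/-- `v ↦ g_x(v,·)` is a continuous linear equivalence. -/
theorem exists_equiv (x : E) : ∃ e : E ≃L[ℝ] (E →L[ℝ] ℝ), (e : E →L[ℝ] (E →L[ℝ] ℝ)) = G.g x := by
  have hinj : Function.Injective ((G.g x : E →L[ℝ] (E →L[ℝ] ℝ)) : E →ₗ[ℝ] (E →L[ℝ] ℝ)) := by
    rw [← LinearMap.ker_eq_bot, LinearMap.ker_eq_bot']
    intro v hv
    by_contra hne
    have h1 := G.g_pos (x := x) hne
    have h3 : G.g x v = 0 := hv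
    have h2 : G.g x v v = 0 := by rw [h3]; rfl
    linarith
  have hfin : Module.finrank ℝ E = Module.finrank ℝ (E →L[ℝ] ℝ) := by
    rw [← (LinearMap.toContinuousLinearMap (𝕜 := ℝ) (E := E) (F' := ℝ)).finrank_eq]
    exact (Subspace.dual_finrank_eq (K := ℝ) (V := E)).symm
  refine ⟨(LinearMap.linearEquivOfInjective _ hinj hfin).toContinuousLinearEquiv, ?_⟩
  ext v w
  rfl

theorem g_sharp (x : E) (l : E →L[ℝ] ℝ) : G.g x (G.sharp x l) = l := by
  obtain ⟨e, he⟩ := G.exists_equiv x
  rw [sharp, ← he, ContinuousLinearMap.inverse_equiv]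
  exact e.apply_symm_apply l

theorem sharp_g (x v : E) : G.sharp x (G.g x v) = v := by
  obtain ⟨e, he⟩ := G.exists_equiv x
  rw [sharp, ← he, ContinuousLinearMap.inverse_equiv]
  exact e.symm_apply_apply v

theorem g_chris (x v w : E) :
    G.g x (G.chris x v) w = fderiv ℝ G.g x v v w - fderiv ℝ G.g x w v v / 2 := by
  rw [chris, g_sharp, chrisCov_apply]

theorem contDiff_sharp : ContDiff ℝ ∞ G.sharp := by
  rw [contDiff_iff_contDiffAt]
  intro x
  obtain ⟨e, he⟩ := G.exists_equiv x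
  have h1 : ContDiffAt ℝ ∞ (ContinuousLinearMap.inverse : (E →L[ℝ] (E →L[ℝ] ℝ)) → _) (G.g x) := by
    rw [← he]
    exact contDiffAt_map_inverse e
  exact h1.comp x G.smooth.contDiffAt

set_option maxSynthPendingDepth 3 in
theorem contDiff_spray : ContDiff ℝ ∞ G.spray := by
  have hA : ContDiff ℝ ∞ (fun p : E × E => fderiv ℝ G.g p.1) :=
    (G.smooth.fderiv_right (m := ∞) (by simp)).comp contDiff_fst
  have hsnd : ContDiff ℝ ∞ (fun p : E × E => p.2) := contDiff_snd
  have h1 : ContDiff ℝ ∞ (fun p : E × E => fderiv ℝ G.g p.1 p.2 p.2) :=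
    (hA.clm_apply hsnd).clm_apply hsnd
  have hf1 : ContDiff ℝ ∞ (fun p : E × E => (fderiv ℝ G.g p.1).flip) :=
    (ContinuousLinearMap.flipₗᵢ ℝ E E (E →L[ℝ] ℝ)).contDiff.comp hA
  have hf2 : ContDiff ℝ ∞ (fun p : E × E => ((fderiv ℝ G.g p.1).flip p.2).flip) :=
    (ContinuousLinearMap.flipₗᵢ ℝ E E ℝ).contDiff.comp (hf1.clm_apply hsnd)
  have h2 : ContDiff ℝ ∞ (fun p : E × E => ((fderiv ℝ G.g p.1).flip p.2).flip p.2) :=
    hf2.clm_apply hsnd
  have h3 : ContDiff ℝ ∞ (fun p : E × E => G.chrisCov p.1 p.2) :=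
    h1.sub (h2.const_smul (1 / 2 : ℝ))
  have h4 : ContDiff ℝ ∞ (fun p : E × E => G.chris p.1 p.2) :=
    (G.contDiff_sharp.comp contDiff_fst).clm_apply h3
  exact hsnd.prodMk h4.neg

theorem contDiff_energy : ContDiff ℝ ∞ G.energy := by
  have hsnd : ContDiff ℝ ∞ (fun p : E × E => p.2) := contDiff_snd
  exact (((G.smooth.comp contDiff_fst).clm_apply hsnd).clm_apply hsnd).div_const 2

theorem chris_smul (x v : E) (c : ℝ) : G.chris x (c • v) = c ^ 2 • G.chris x v := by
  have h : G.chrisCov x (c • v) = c ^ 2 • G.chrisCov x v := by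
    ext w
    simp only [chrisCov_apply, map_smul, smul_apply, smul_eq_mul]
    ring
  rw [chris, h, map_smul, chris]

/-- derivative of the energy. -/
theorem fderiv_energy (p q : E × E) :
    fderiv ℝ G.energy p q = fderiv ℝ G.g p.1 q.1 p.2 p.2 / 2 + G.g p.1 p.2 q.2 := by
  have hg : HasFDerivAt (fun p : E × E => G.g p.1)
      ((fderiv ℝ G.g p.1).comp (ContinuousLinearMap.fst ℝ E E)) p :=
    ((G.smooth.differentiable (by simp)) p.1).hasFDerivAt.comp p hasFDerivAt_fst
  have hs : HasFDerivAt (fun p : E × E => p.2) (ContinuousLinearMap.snd ℝ E E) p :=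
    hasFDerivAt_snd
  have h := (((hg.clm_apply hs).clm_apply hs).mul_const (2 : ℝ)⁻¹).fderiv
  have he : G.energy = fun p : E × E => G.g p.1 p.2 p.2 * (2 : ℝ)⁻¹ := by
    funext p
    rw [energy, div_eq_mul_inv]
  rw [he, h]
  simp only [smul_apply, add_apply,
    ContinuousLinearMap.comp_apply, ContinuousLinearMap.flip_apply,
    ContinuousLinearMap.coe_fst', ContinuousLinearMap.coe_snd', smul_eq_mul]
  rw [G.symm p.1 q.2 p.2]
  ring

/-- the energy is constant along the spray. -/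
theorem fderiv_energy_spray (p : E × E) : fderiv ℝ G.energy p (G.spray p) = 0 := by
  rw [fderiv_energy]
  simp only [spray, map_neg]
  rw [G.symm p.1 p.2 (G.chris p.1 p.2), g_chris]
  ring

/-- Cauchy-Schwarz for `g_x`. -/
theorem abs_g_le (x v w : E) : |G.g x v w| ≤ G.nrm x v * G.nrm x w := by
  have hq : ∀ t : ℝ, 0 ≤ G.g x w w * (t * t) + (2 * G.g x v w) * t + G.g x v v := by
    intro t
    have h := G.g_nonneg x (v + t • w)
    simp only [map_add, map_smul, add_apply, smul_apply,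
      smul_eq_mul] at h
    rw [G.symm x w v] at h
    linarith
  have hd := discrim_le_zero hq
  rw [discrim] at hd
  rw [nrm, nrm, ← Real.sqrt_mul (G.g_nonneg x v)]
  apply Real.abs_le_sqrt
  nlinarith

theorem nrm_sq (x v : E) : G.nrm x v ^ 2 = G.g x v v := Real.sq_sqrt (G.g_nonneg x v)

theorem nrm_nonneg (x v : E) : 0 ≤ G.nrm x v := Real.sqrt_nonneg _

theorem sqrt_lo_mul_norm_le (x v : E) : Real.sqrt G.lo * ‖v‖ ≤ G.nrm x v := by
  have h : Real.sqrt G.lo * ‖v‖ = Real.sqrt (G.lo * ‖v‖ ^ 2) := by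
    rw [Real.sqrt_mul G.lo_pos.le, Real.sqrt_sq (norm_nonneg v)]
  rw [h]
  exact Real.sqrt_le_sqrt (G.lower x v)

theorem nrm_le (x v : E) : G.nrm x v ≤ Real.sqrt G.hi * ‖v‖ := by
  have h : Real.sqrt G.hi * ‖v‖ = Real.sqrt (G.hi * ‖v‖ ^ 2) := by
    rw [Real.sqrt_mul' _ (sq_nonneg _), Real.sqrt_sq (norm_nonneg v)]
  rw [h]
  exact Real.sqrt_le_sqrt (G.upper x v)

theorem nrm_smul (x v : E) (c : ℝ) : G.nrm x (c • v) = |c| * G.nrm x v := by
  have h : G.g x (c • v) (c • v) = c ^ 2 * G.g x v v := by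
    simp only [map_smul, smul_apply, smul_eq_mul]
    ring
  rw [nrm, h, Real.sqrt_mul (sq_nonneg c), Real.sqrt_sq_eq_abs, nrm]

/-- equality case of Cauchy-Schwarz in the form we use. -/
theorem eq_of_g_eq {x v w : E} (h1 : G.g x v v = G.g x w w) (h2 : G.g x v w = G.g x w w) :
    v = w := by
  by_contra hne
  have h := G.g_pos (x := x) (sub_ne_zero.2 hne)
  simp only [map_sub, sub_apply] at h
  rw [G.symm x w v] at h
  linarith

theorem continuous_nrm : Continuous (fun p : E × E => G.nrm p.1 p.2) := by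
  exact Real.continuous_sqrt.comp
    (((G.smooth.continuous.comp continuous_fst).clm_apply continuous_snd).clm_apply continuous_snd)

end GMetric

end

end Claimed.Agent.R213.Geo
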