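import Claimed.Agent.R213.Geo.NormalCost

/-!
# Row 213, GEOMETRY layer, LEVEL A, file A5b: integrated radial bound

Along a `C^1` path which stays in the normal ball of `x`, the radial function `|log_x σ|` grows at
most as fast as the `G`-length of the path.
-/

set_option autoImplicit false
set_option linter.unusedSectionVars false
open scoped ContDiff Topology
open Set MeasureTheory

namespace Claimed.Agent.R213.Geo

noncomputable section

variable {E : Type*} [NormedAddCommGroup E] [NormedSpace ℝ E] [FiniteDimensional ℝ E]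

namespace GMetric

variable {G : GMetric E} {x₀ : E} {ρ r : ℝ} {lg : E → E → E}

theorem two_mul_energy (G : GMetric E) (x v : E) : 2 * G.energy (x, v) = G.nrm x v ^ 2 := by
  rw [G.nrm_sq]
  simp only [energy]
  ring

/-- the speed of a `C^1` path is continuous. -/
theorem continuousOn_speed (G : GMetric E) {σ : ℝ → E} {a b : ℝ} (hab : a < b)
    (hσ : ContDiffOn ℝ 1 σ (Icc a b)) :
    ContinuousOn (fun t => G.nrm (σ t) (derivWithin σ (Icc a b) t)) (Icc a b) := by
  have h1 : ContinuousOn (derivWithin σ (Icc a b)) (Icc a b) :=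
    hσ.continuousOn_derivWithin (uniqueDiffOn_Icc hab) le_rfl
  exact G.continuous_nrm.comp_continuousOn (hσ.continuousOn.prodMk h1)

/-- **A5b** integrated radial bound. -/
theorem IsNormal.radial_le_integral (h : G.IsNormal x₀ ρ r lg) {x : E} {σ : ℝ → E} {a b : ℝ}
    (hab : a ≤ b) (hσ : ContDiffOn ℝ 1 σ (Icc a b))
    (hmem : ∀ t ∈ Icc a b, (x, σ t) ∈ G.pairSet x₀ ρ r) :
    G.nrm x (lg x (σ b)) - G.nrm x (lg x (σ a)) ≤
      ∫ t in a..b, G.nrm (σ t) (derivWithin σ (Icc a b) t) := by
  rcases hab.eq_or_lt with rfl | hab'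
  · simp
  have hsp := G.continuousOn_speed hab' hσ
  have hlgc : ContinuousOn (fun t => lg x (σ t)) (Icc a b) := by
    have h1 : ContinuousOn (fun t => (x, σ t)) (Icc a b) :=
      continuousOn_const.prodMk hσ.continuousOn
    exact h.smooth.continuousOn.comp h1 hmem
  have key : ∀ ε : ℝ, 0 < ε → G.nrm x (lg x (σ b)) - G.nrm x (lg x (σ a)) ≤
      (∫ t in a..b, G.nrm (σ t) (derivWithin σ (Icc a b) t)) + ε := by
    intro ε hε
    set f : ℝ → ℝ := fun s => Real.sqrt (2 * G.energy (x, lg x (σ s)) + ε ^ 2) with hf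
    have hfc : ContinuousOn f (Icc a b) := by
      apply ContinuousOn.sqrt
      apply ContinuousOn.add _ continuousOn_const
      apply ContinuousOn.mul continuousOn_const
      exact G.contDiff_energy.continuous.comp_continuousOn (continuousOn_const.prodMk hlgc)
    have hder : ∀ t ∈ Ioo a b, HasDerivAt f (deriv f t) t ∧
        deriv f t ≤ G.nrm (σ t) (derivWithin σ (Icc a b) t) := by
      intro t ht
      have h1 : HasDerivAt σ (derivWithin σ (Icc a b) t) t :=
        ((hσ.differentiableOn (by simp) t (Ioo_subset_Icc_self ht)).hasDerivWithinAt).hasDerivAt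
          (Icc_mem_nhds ht.1 ht.2)
      obtain ⟨d, hd, hd'⟩ := h.deriv_radial_le hε (hmem t (Ioo_subset_Icc_self ht)) h1
      rw [hd.deriv]
      exact ⟨hd, (le_abs_self d).trans hd'⟩
    have h2 : f b - f a ≤ ∫ t in a..b, G.nrm (σ t) (derivWithin σ (Icc a b) t) :=
      intervalIntegral.sub_le_integral_of_hasDeriv_right_of_le hab hfc
        (fun t ht => (hder t ht).1.hasDerivWithinAt) (hsp.integrableOn_Icc)
        (fun t ht => (hder t ht).2)
    have h3 : G.nrm x (lg x (σ b)) ≤ f b := by
      simp only [hf, two_mul_energy]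
      apply Real.le_sqrt_of_sq_le
      nlinarith
    have h4 : f a ≤ G.nrm x (lg x (σ a)) + ε := by
      simp only [hf, two_mul_energy]
      rw [Real.sqrt_le_left (by have := G.nrm_nonneg x (lg x (σ a)); positivity)]
      nlinarith [G.nrm_nonneg x (lg x (σ a))]
    linarith
  by_contra hcon
  rw [not_le] at hcon
  have := key _ (half_pos (sub_pos.2 hcon))
  linarith

/-- lower Lebesgue integral version. -/
theorem IsNormal.radial_le_lintegral (h : G.IsNormal x₀ ρ r lg) {x : E} {σ : ℝ → E} {a b : ℝ}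
    (hab : a ≤ b) (hσ : ContDiffOn ℝ 1 σ (Icc a b))
    (hmem : ∀ t ∈ Icc a b, (x, σ t) ∈ G.pairSet x₀ ρ r) :
    ENNReal.ofReal (G.nrm x (lg x (σ b)) - G.nrm x (lg x (σ a))) ≤
      ∫⁻ t in Icc a b, ENNReal.ofReal (G.nrm (σ t) (derivWithin σ (Icc a b) t)) := by
  rcases hab.eq_or_lt with rfl | hab'
  · simp
  have hsp := G.continuousOn_speed hab' hσ
  have h1 := h.radial_le_integral hab hσ hmem
  rw [intervalIntegral.integral_of_le hab, ← integral_Icc_eq_integral_Ioc] at h1
  rw [← ofReal_integral_eq_lintegral_ofReal hsp.integrableOn_Icc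
    (Filter.Eventually.of_forall fun t => G.nrm_nonneg _ _)]
  exact ENNReal.ofReal_le_ofReal h1

end GMetric

end

end Claimed.Agent.R213.Geo
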