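import Claimed.Agent.R213.Basic

/-!
# Row 213, GEOMETRY layer, LEVEL B, file B1: coordinates on the tangent bundle

`tcoord c p = (φ_c x, dφ_c(x) v)` for `p = (x,v)`, `tinv c` its inverse.
-/

set_option autoImplicit false
set_option linter.unusedSectionVars false
open Claims Claims.C0370 Claims.C0370.WeakMTWGlobalSupport
open scoped Manifold ContDiff Topology
open Set Filter Manifold Bundle

namespace Claimed.Agent.R213.Geo

noncomputable section

variable {n : ℕ} {M : Type*} [MetricSpace M] [ChartedSpace (WeakMTW.Model n) M]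
  [IsManifold (WeakMTW.model n) ∞ M]

/-- the tangent bundle. -/
abbrev TM (n : ℕ) (M : Type*) [MetricSpace M] [ChartedSpace (WeakMTW.Model n) M] :=
  TangentBundle (WeakMTW.model n) M

/-- coordinates on `TM` over the chart centred at `c`. -/
def tcoord (c : M) (p : TM n M) : WeakMTW.Model n × WeakMTW.Model n :=
  (extChartAt (WeakMTW.model n) c p.1,
    mfderiv (WeakMTW.model n) 𝓘(ℝ, WeakMTW.Model n) (extChartAt (WeakMTW.model n) c) p.1 p.2)

/-- inverse of `tcoord c`. -/
def tinv (c : M) (q : WeakMTW.Model n × WeakMTW.Model n) : TM n M :=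
  ⟨(extChartAt (WeakMTW.model n) c).symm q.1,
    mfderiv 𝓘(ℝ, WeakMTW.Model n) (WeakMTW.model n) (extChartAt (WeakMTW.model n) c).symm q.1 q.2⟩

/-- equality in `TM`: the fibres are all (definitionally) the model space. -/
theorem tm_ext {p q : TM n M} (h1 : p.1 = q.1)
    (h2 : (show WeakMTW.Model n from p.2) = (show WeakMTW.Model n from q.2)) : p = q := by
  obtain ⟨x, v⟩ := p
  obtain ⟨y, w⟩ := q
  dsimp only at h1
  subst h1
  exact congrArg _ h2

theorem tc_symm_comp_aux {c x : M} (hx : x ∈ (chartAt (WeakMTW.Model n) c).source) :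
    (mfderiv 𝓘(ℝ, WeakMTW.Model n) (WeakMTW.model n) (extChartAt (WeakMTW.model n) c).symm
      (extChartAt (WeakMTW.model n) c x)) ∘L
      (mfderiv (WeakMTW.model n) 𝓘(ℝ, WeakMTW.Model n) (extChartAt (WeakMTW.model n) c) x)
      = ContinuousLinearMap.id _ _ := by
  have h := mfderivWithin_extChartAt_symm_comp_mfderiv_extChartAt' (I := WeakMTW.model n) (x := c)
    (y := x) (by rwa [extChartAt_source])
  rwa [ModelWithCorners.range_eq_univ, mfderivWithin_univ] at h

theorem tc_comp_symm_aux {c : M} {y : WeakMTW.Model n}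
    (hy : y ∈ (extChartAt (WeakMTW.model n) c).target) :
    (mfderiv (WeakMTW.model n) 𝓘(ℝ, WeakMTW.Model n) (extChartAt (WeakMTW.model n) c)
      ((extChartAt (WeakMTW.model n) c).symm y)) ∘L
    (mfderiv 𝓘(ℝ, WeakMTW.Model n) (WeakMTW.model n) (extChartAt (WeakMTW.model n) c).symm y)
      = ContinuousLinearMap.id _ _ := by
  have h := mfderiv_extChartAt_comp_mfderivWithin_extChartAt_symm (I := WeakMTW.model n) (x := c)
    (y := y) hy
  rwa [ModelWithCorners.range_eq_univ, mfderivWithin_univ] at h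

theorem tinv_tcoord {c : M} {p : TM n M} (hp : p.1 ∈ (chartAt (WeakMTW.Model n) c).source) :
    tinv c (tcoord c p) = p := by
  have h1 : (extChartAt (WeakMTW.model n) c).symm (extChartAt (WeakMTW.model n) c p.1) = p.1 :=
    (extChartAt (WeakMTW.model n) c).left_inv (by rwa [extChartAt_source])
  refine tm_ext h1 ?_
  have h := tc_symm_comp_aux (n := n) hp
  exact congrArg (fun L => L p.2) h

theorem tcoord_tinv {c : M} {q : WeakMTW.Model n × WeakMTW.Model n}
    (hq : q.1 ∈ (extChartAt (WeakMTW.model n) c).target) : tcoord c (tinv c q) = q := by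
  have h1 : extChartAt (WeakMTW.model n) c ((extChartAt (WeakMTW.model n) c).symm q.1) = q.1 :=
    (extChartAt (WeakMTW.model n) c).right_inv hq
  refine Prod.ext h1 ?_
  have h := tc_comp_symm_aux (n := n) hq
  exact congrArg (fun L => L q.2) h

theorem isOpen_tsource (c : M) :
    IsOpen {p : TM n M | p.1 ∈ (chartAt (WeakMTW.Model n) c).source} :=
  (chartAt (WeakMTW.Model n) c).open_source.preimage
    (FiberBundle.continuous_proj (WeakMTW.Model n) (TangentSpace (WeakMTW.model n)))

/-- `tcoord c` is the extended chart of the bundle at `⟨c, 0⟩`. -/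
theorem tcoord_eq_extChartAt {c : M} {p : TM n M}
    (hp : p.1 ∈ (chartAt (WeakMTW.Model n) c).source) :
    tcoord c p = extChartAt (WeakMTW.model n).tangent (⟨c, 0⟩ : TM n M) p := by
  have h := FiberBundle.extChartAt (IB := WeakMTW.model n) (F := WeakMTW.Model n)
    (E := TangentSpace (WeakMTW.model n)) (⟨c, 0⟩ : TM n M)
  have h2 : extChartAt (WeakMTW.model n).tangent (⟨c, 0⟩ : TM n M) p
      = ((trivializationAt (WeakMTW.Model n) (TangentSpace (WeakMTW.model n)) c).toPartialEquiv ≫
        (extChartAt (WeakMTW.model n) c).prod (PartialEquiv.refl (WeakMTW.Model n))) p :=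
    congrArg (fun e : PartialEquiv _ _ => e p) h
  rw [h2]
  have h3 := TangentBundle.continuousLinearMapAt_trivializationAt (I := WeakMTW.model n) hp
  have hb : p.1 ∈ (trivializationAt (WeakMTW.Model n) (TangentSpace (WeakMTW.model n)) c).baseSet := by
    rwa [TangentBundle.trivializationAt_baseSet]
  have h4 := Trivialization.continuousLinearMapAt_apply (R := ℝ)
    (trivializationAt (WeakMTW.Model n) (TangentSpace (WeakMTW.model n)) c) p.1
  have h5 := Trivialization.coe_linearMapAt_of_mem (R := ℝ)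
    (trivializationAt (WeakMTW.Model n) (TangentSpace (WeakMTW.model n)) c) hb
  simp only [PartialEquiv.coe_trans, Function.comp_apply, PartialEquiv.prod_coe,
    PartialEquiv.refl_coe, id]
  refine Prod.ext rfl ?_
  have h6 : (mfderiv (WeakMTW.model n) 𝓘(ℝ, WeakMTW.Model n) (extChartAt (WeakMTW.model n) c) p.1) p.2
      = ((trivializationAt (WeakMTW.Model n) (TangentSpace (WeakMTW.model n)) c) ⟨p.1, p.2⟩).2 := by
    have e1 := congrArg (fun L => L p.2) h3
    have e2 := congrFun h4 p.2
    have e3 := congrFun h5 p.2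
    exact e1.symm.trans (e2.trans e3)
  exact h6

theorem tsource_eq (c : M) :
    {p : TM n M | p.1 ∈ (chartAt (WeakMTW.Model n) c).source}
      = (chartAt (ModelProd (WeakMTW.Model n) (WeakMTW.Model n)) (⟨c, 0⟩ : TM n M)).source := by
  ext p
  exact (TangentBundle.mem_chart_source_iff (I := WeakMTW.model n) p (⟨c, 0⟩ : TM n M)).symm

theorem contMDiffOn_tcoord (c : M) :
    ContMDiffOn (WeakMTW.model n).tangent 𝓘(ℝ, WeakMTW.Model n × WeakMTW.Model n) ∞ (tcoord c)
      {p : TM n M | p.1 ∈ (chartAt (WeakMTW.Model n) c).source} := by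
  have h := contMDiffOn_extChartAt (I := (WeakMTW.model n).tangent) (n := ∞)
    (x := (⟨c, 0⟩ : TM n M))
  rw [← tsource_eq] at h
  exact h.congr fun p hp => tcoord_eq_extChartAt hp

theorem ttarget_eq (c : M) :
    {q : WeakMTW.Model n × WeakMTW.Model n | q.1 ∈ (extChartAt (WeakMTW.model n) c).target}
      = (extChartAt (WeakMTW.model n).tangent (⟨c, 0⟩ : TM n M)).target := by
  have h := FiberBundle.extChartAt_target (IB := WeakMTW.model n) (F := WeakMTW.Model n)
    (E := TangentSpace (WeakMTW.model n)) (⟨c, 0⟩ : TM n M)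
  refine Eq.trans ?_ h.symm
  ext q
  simp only [mem_ofPred_eq, mem_prod, mem_inter_iff, mem_preimage, mem_univ, and_true,
    TangentBundle.trivializationAt_baseSet]
  constructor
  · intro hq
    refine ⟨hq, ?_⟩
    have := (extChartAt (WeakMTW.model n) c).map_target hq
    rwa [extChartAt_source] at this
  · intro hq; exact hq.1

theorem tinv_eq_extChartAt_symm {c : M} {q : WeakMTW.Model n × WeakMTW.Model n}
    (hq : q.1 ∈ (extChartAt (WeakMTW.model n) c).target) :
    tinv c q = (extChartAt (WeakMTW.model n).tangent (⟨c, 0⟩ : TM n M)).symm q := by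
  have h1 : (tinv (M := M) c q).1 ∈ (chartAt (WeakMTW.Model n) c).source := by
    have := (extChartAt (WeakMTW.model n) c).map_target hq
    rwa [extChartAt_source] at this
  have h2 : tinv (M := M) c q ∈ (extChartAt (WeakMTW.model n).tangent (⟨c, 0⟩ : TM n M)).source := by
    rw [extChartAt_source, ← tsource_eq]; exact h1
  have h3 := (extChartAt (WeakMTW.model n).tangent (⟨c, 0⟩ : TM n M)).left_inv h2
  rw [← tcoord_eq_extChartAt h1, tcoord_tinv hq] at h3
  exact h3.symm

theorem contMDiffOn_tinv (c : M) :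
    ContMDiffOn 𝓘(ℝ, WeakMTW.Model n × WeakMTW.Model n) (WeakMTW.model n).tangent ∞
      (tinv (M := M) c) {q | q.1 ∈ (extChartAt (WeakMTW.model n) c).target} := by
  have h := contMDiffOn_extChartAt_symm (I := (WeakMTW.model n).tangent) (n := ∞)
    (⟨c, 0⟩ : TM n M)
  rw [← ttarget_eq] at h
  exact h.congr fun q hq => tinv_eq_extChartAt_symm hq

/-- linearity of the coordinates in the fibre. -/
theorem tcoord_add_smul (c x : M) (v w : TangentSpace (WeakMTW.model n) x) (a b : ℝ) :
    (tcoord c (⟨x, a • v + b • w⟩ : TM n M)).2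
      = a • (tcoord c (⟨x, v⟩ : TM n M)).2 + b • (tcoord c (⟨x, w⟩ : TM n M)).2 := by
  simp only [tcoord, map_add, map_smul]
  rfl

theorem isOpen_ttarget (c : M) :
    IsOpen {q : WeakMTW.Model n × WeakMTW.Model n | q.1 ∈ (extChartAt (WeakMTW.model n) c).target} :=
  (isOpen_extChartAt_target (I := WeakMTW.model n) c).preimage continuous_fst

/-- convergence in `TM` is convergence in coordinates. -/
theorem tendsto_tm_iff {ι : Type*} {l : Filter ι} {P : ι → TM n M} {p : TM n M} (c : M)
    (hp : p.1 ∈ (chartAt (WeakMTW.Model n) c).source) :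
    Tendsto P l (𝓝 p) ↔
      Tendsto (fun i => (P i).1) l (𝓝 p.1) ∧ Tendsto (fun i => tcoord c (P i)) l (𝓝 (tcoord c p)) := by
  constructor
  · intro h
    refine ⟨((FiberBundle.continuous_proj (WeakMTW.Model n)
      (TangentSpace (WeakMTW.model n))).tendsto p).comp h, ?_⟩
    have hc : ContinuousAt (tcoord c) p :=
      (contMDiffOn_tcoord c).continuousOn.continuousAt ((isOpen_tsource c).mem_nhds hp)
    exact hc.tendsto.comp h
  · rintro ⟨h1, h2⟩
    have hq : (tcoord c p).1 ∈ (extChartAt (WeakMTW.model n) c).target :=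
      (extChartAt (WeakMTW.model n) c).map_source (by rwa [extChartAt_source])
    have hc : ContinuousAt (tinv (M := M) c) (tcoord c p) :=
      (contMDiffOn_tinv c).continuousOn.continuousAt ((isOpen_ttarget c).mem_nhds hq)
    have h3 : Tendsto (fun i => tinv c (tcoord c (P i))) l (𝓝 (tinv c (tcoord c p))) :=
      hc.tendsto.comp h2
    rw [tinv_tcoord hp] at h3
    refine h3.congr' ?_
    have h4 : ∀ᶠ i in l, (P i).1 ∈ (chartAt (WeakMTW.Model n) c).source :=
      h1.eventually ((chartAt (WeakMTW.Model n) c).open_source.mem_nhds hp)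
    filter_upwards [h4] with i hi
    exact tinv_tcoord hi

/-- a curve in `M` read in the chart: velocity. -/
theorem tcoord_mfderiv_curve {c : M} {γ : ℝ → M} {t : ℝ}
    (hγ : MDifferentiableAt 𝓘(ℝ, ℝ) (WeakMTW.model n) γ t)
    (ht : γ t ∈ (chartAt (WeakMTW.Model n) c).source) :
    HasDerivAt (fun s => extChartAt (WeakMTW.model n) c (γ s))
      (tcoord c (⟨γ t, mfderiv 𝓘(ℝ, ℝ) (WeakMTW.model n) γ t (1 : ℝ)⟩ : TM n M)).2 t := by
  have h1 : HasMFDerivAt (WeakMTW.model n) 𝓘(ℝ, WeakMTW.Model n)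
      (extChartAt (WeakMTW.model n) c) (γ t) _ :=
    (mdifferentiableAt_extChartAt (I := WeakMTW.model n) ht).hasMFDerivAt
  have h2 := h1.comp t hγ.hasMFDerivAt
  have h3 : HasFDerivAt (fun s => extChartAt (WeakMTW.model n) c (γ s))
      (show ℝ →L[ℝ] WeakMTW.Model n from
        (mfderiv (WeakMTW.model n) 𝓘(ℝ, WeakMTW.Model n) (extChartAt (WeakMTW.model n) c) (γ t)).comp
          (mfderiv 𝓘(ℝ, ℝ) (WeakMTW.model n) γ t)) t := h2.hasFDerivAt
  exact h3.hasDerivAt

/-- a curve in the chart pushed to `M`: velocity. -/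
theorem hasMFDerivAt_symm_curve {c : M} {σ : ℝ → WeakMTW.Model n} {σ' : WeakMTW.Model n} {t : ℝ}
    (hσ : HasDerivAt σ σ' t) (ht : σ t ∈ (extChartAt (WeakMTW.model n) c).target) :
    MDifferentiableAt 𝓘(ℝ, ℝ) (WeakMTW.model n)
      (fun s => (extChartAt (WeakMTW.model n) c).symm (σ s)) t ∧
    (⟨(extChartAt (WeakMTW.model n) c).symm (σ t),
      mfderiv 𝓘(ℝ, ℝ) (WeakMTW.model n)
        (fun s => (extChartAt (WeakMTW.model n) c).symm (σ s)) t (1 : ℝ)⟩ : TM n M)
      = tinv c (σ t, σ') := by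
  have h0 : MDifferentiableAt 𝓘(ℝ, WeakMTW.Model n) (WeakMTW.model n)
      (extChartAt (WeakMTW.model n) c).symm (σ t) := by
    have := mdifferentiableWithinAt_extChartAt_symm (I := WeakMTW.model n) ht
    rwa [ModelWithCorners.range_eq_univ, mdifferentiableWithinAt_univ] at this
  have h1 := h0.hasMFDerivAt
  have h2 : HasMFDerivAt 𝓘(ℝ, ℝ) 𝓘(ℝ, WeakMTW.Model n) σ t _ := hσ.hasFDerivAt.hasMFDerivAt
  have h3 := h1.comp t h2
  refine ⟨h3.mdifferentiableAt, ?_⟩
  refine tm_ext rfl ?_
  have h4 := h3.mfderiv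
  have h5 := congrArg (fun L => L (1 : ℝ)) h4
  refine h5.trans ?_
  have h6 : (ContinuousLinearMap.toSpanSingleton ℝ σ') (1 : ℝ) = σ' := by simp
  exact congrArg (mfderiv 𝓘(ℝ, WeakMTW.Model n) (WeakMTW.model n)
    (extChartAt (WeakMTW.model n) c).symm (σ t)) h6

end
end Claimed.Agent.R213.Geo
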